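import Crest.Agent.R324.Cost

/-!
Row 324: Bluestein's reduction. The DFT of any order `n` costs at most two Fourier transforms of
any finite abelian group `A` (with a perfect pairing `e`) having an element of order `≥ 2n-1`.
-/

set_option autoImplicit false
set_option linter.unusedSectionVars false

namespace Crest.Agent.R324

open Matrix Crest.FourierCircuit

variable {ι κ : Type*} [Fintype ι] [DecidableEq ι] [Fintype κ] [DecidableEq κ]
variable {ι' κ' : Type*} [Fintype ι'] [DecidableEq ι'] [Fintype κ'] [DecidableEq κ']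

/-- setting some inputs to zero is free -/
theorem Cost.restrict {A : Matrix κ ι ℂ} {k : ℕ} (h : Cost A k) (f : ι' → ι)
    (hf : Function.Injective f) : Cost (A.submatrix id f) k := by
  have h1 := Reach.map (LinearMap.funLeft ℂ ℂ f) h
  have h2 : (LinearMap.funLeft ℂ ℂ f) '' (coords ι) ⊆ insert 0 (coords ι') := by
    rintro _ ⟨_, ⟨i, rfl⟩, rfl⟩
    by_cases hi : ∃ i', f i' = i
    · obtain ⟨i', rfl⟩ := hi
      refine Or.inr ⟨i', ?_⟩
      ext x
      simp only [LinearMap.funLeft_apply, Pi.single_apply]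
      by_cases hx : x = i'
      · simp [hx]
      · rw [if_neg hx, if_neg (fun h => hx (hf h))]
    · left
      ext x
      simp only [LinearMap.funLeft_apply, Pi.single_apply, Pi.zero_apply]
      rw [if_neg]
      exact fun h => hi ⟨x, h⟩
  have h3 : Reach (coords ι') 0 (insert (0 : ι' → ℂ) (coords ι')) := .refl (le_refl _)
  have h4 := h3.trans' (h1.mono_left h2)
  rw [Nat.zero_add] at h4
  refine h4.mono_right ?_
  rintro _ ⟨j, rfl⟩
  exact ⟨_, ⟨j, rfl⟩, rfl⟩

theorem Cost.mul_diagonal {A : Matrix κ ι ℂ} {k : ℕ} (h : Cost A k) (d : ι → ℂ) :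
    Cost (A * Matrix.diagonal d) (k + Fintype.card ι) :=
  h.mul (Cost.diagonal d)

section Group

variable {A : Type*} [AddCommGroup A] [Fintype A] [DecidableEq A]

/-- a symmetric perfect pairing of a finite abelian group with itself -/
structure IsPairing (e : A → A → ℂ) : Prop where
  symm : ∀ a b, e a b = e b a
  add : ∀ a b c, e (a + b) c = e a c * e b c
  orth : ∀ a, ∑ b, e a b = if a = 0 then (Fintype.card A : ℂ) else 0

theorem IsPairing.add_right {e : A → A → ℂ} (he : IsPairing e) (a b c : A) :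
    e a (b + c) = e a b * e a c := by
  rw [he.symm, he.add, he.symm b, he.symm c]

theorem card_ne_zero' : (Fintype.card A : ℂ) ≠ 0 := by
  have : 0 < Fintype.card A := Fintype.card_pos_iff.2 ⟨0⟩
  exact_mod_cast this.ne'

/-- a group matrix `c (a + b)` costs two Fourier transforms -/
theorem Cost.hankel {e : A → A → ℂ} (he : IsPairing e) (c : A → ℂ) {k : ℕ}
    (hF : Cost (Matrix.of e) k) :
    Cost (Matrix.of fun a b : A => c (a + b)) (2 * k + Fintype.card A) := by
  have hA : (Fintype.card A : ℂ) ≠ 0 := card_ne_zero'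
  let ch : A → ℂ := fun χ => (∑ d, c d * e χ (-d)) / Fintype.card A
  have h1 : Cost (Matrix.of e * (Matrix.diagonal ch * Matrix.of e)) (k + (k + Fintype.card A)) :=
    hF.mul (hF.diagonal_mul ch)
  have h2 : Matrix.of e * (Matrix.diagonal ch * Matrix.of e) =
      Matrix.of fun a b : A => c (a + b) := by
    ext a b
    rw [Matrix.mul_apply]
    simp only [Matrix.diagonal_mul, Matrix.of_apply]
    have h3 : ∀ χ, e a χ * (ch χ * e χ b) =
        ∑ d, c d / Fintype.card A * e (a + b - d) χ := by
      intro χ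
      simp only [ch]
      rw [div_mul_eq_mul_div, Finset.sum_mul, mul_div_assoc', Finset.mul_sum, Finset.sum_div]
      refine Finset.sum_congr rfl fun d _ => ?_
      rw [sub_eq_add_neg, he.add, he.add, he.symm χ (-d), he.symm χ b]
      ring
    rw [Finset.sum_congr rfl fun χ _ => h3 χ, Finset.sum_comm]
    have h4 : ∀ d, ∑ χ, c d / Fintype.card A * e (a + b - d) χ =
        if d = a + b then c d else 0 := by
      intro d
      rw [← Finset.mul_sum, he.orth]
      by_cases hd : d = a + b
      · rw [if_pos (by rw [hd, sub_self]), if_pos hd]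
        field_simp
      · rw [if_neg (fun h => hd (sub_eq_zero.1 h).symm), if_neg hd, mul_zero]
    rw [Finset.sum_congr rfl fun d _ => h4 d]
    simp
  rw [h2] at h1
  exact h1.mono (by omega)

/-- a group matrix `c (a - b)` costs two Fourier transforms -/
theorem Cost.circulant {e : A → A → ℂ} (he : IsPairing e) (c : A → ℂ) {k : ℕ}
    (hF : Cost (Matrix.of e) k) :
    Cost (Matrix.of fun a b : A => c (a - b)) (2 * k + Fintype.card A) := by
  have h := (Cost.hankel he c hF).cols_equiv (Equiv.neg A)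
  convert h using 1
  ext a b
  simp [sub_eq_add_neg]

/-- a Toeplitz matrix of size `n` costs two Fourier transforms of any finite abelian group
with an element of order at least `2n - 1` -/
theorem Cost.toeplitz {e : A → A → ℂ} (he : IsPairing e) {n : ℕ} (g : A)
    (hg : 2 * n ≤ addOrderOf g + 1) (c : ℤ → ℂ) {k : ℕ} (hF : Cost (Matrix.of e) k) :
    Cost (Matrix.of fun i j : Fin n => c ((i : ℤ) - (j : ℤ))) (2 * k + Fintype.card A) := by
  classical
  -- `cc x = c d` if `x = d • g` with `|d| < n`
  let cc : A → ℂ := fun x => if h : ∃ d : ℤ, |d| < n ∧ d • g = x then c h.choose else 0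
  have hcc : ∀ d : ℤ, |d| < n → cc (d • g) = c d := by
    intro d hd
    have h : ∃ d' : ℤ, |d'| < n ∧ d' • g = d • g := ⟨d, hd, rfl⟩
    simp only [cc]
    rw [dif_pos h]
    congr 1
    obtain ⟨h1, h2⟩ := h.choose_spec
    generalize h.choose = d' at h1 h2
    have h3 : ((d' - d) : ℤ) • g = 0 := by rw [sub_zsmul, h2, ← sub_eq_add_neg, sub_self]
    have h4 : (addOrderOf g : ℤ) ∣ d' - d := addOrderOf_dvd_iff_zsmul_eq_zero.2 h3
    have h5 : |d' - d| < addOrderOf g := by
      have := abs_sub d' d
      have h6 : |d' - d| ≤ |d'| + |d| := abs_sub _ _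
      have : ((2 * n : ℕ) : ℤ) ≤ ((addOrderOf g + 1 : ℕ) : ℤ) := by exact_mod_cast hg
      push_cast at this
      omega
    have h6 := Int.eq_zero_of_abs_lt_dvd h4 h5
    omega
  have h := (Cost.circulant he cc hF).rows (fun i : Fin n => ((i : ℕ) : ℤ) • g)
  have hinj : Function.Injective (fun i : Fin n => (((i : ℕ) : ℤ) • g : A)) := by
    intro i j hij
    have h3 : (((i : ℕ) : ℤ) - ((j : ℕ) : ℤ)) • g = 0 := by
      rw [sub_zsmul, ← sub_eq_add_neg]
      exact sub_eq_zero.2 hij
    have h4 : (addOrderOf g : ℤ) ∣ ((i : ℕ) : ℤ) - ((j : ℕ) : ℤ) :=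
      addOrderOf_dvd_iff_zsmul_eq_zero.2 h3
    have h5 : |((i : ℕ) : ℤ) - ((j : ℕ) : ℤ)| < addOrderOf g := by
      have hi := i.2
      have hj := j.2
      rw [abs_lt]
      omega
    have h6 := Int.eq_zero_of_abs_lt_dvd h4 h5
    exact Fin.ext (by omega)
  have h' := h.restrict (fun i : Fin n => (((i : ℕ) : ℤ) • g : A)) hinj
  convert h' using 1
  ext i j
  simp only [Matrix.submatrix_apply, Matrix.of_apply, id]
  rw [sub_eq_add_neg (((i : ℕ) : ℤ) • g), ← sub_zsmul, hcc]
  have hi := i.2
  have hj := j.2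
  rw [abs_lt]
  omega

/-- **Bluestein**: the DFT of order `n` from two Fourier transforms of `A`. -/
theorem Cost.bluestein {e : A → A → ℂ} (he : IsPairing e) {n : ℕ} (g : A)
    (hg : 2 * n ≤ addOrderOf g + 1) {k : ℕ} (hF : Cost (Matrix.of e) k) :
    Cost (dftMatrix n) (2 * k + Fintype.card A + 2 * n) := by
  let w : ℂ := Complex.exp (Real.pi * Complex.I / n)
  have hw0 : w ≠ 0 := Complex.exp_ne_zero _
  have hw : w ^ 2 = Complex.exp (2 * Real.pi * Complex.I / n) := by
    rw [← Complex.exp_nat_mul]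
    congr 1
    push_cast
    ring
  have h1 := Cost.toeplitz he (n := n) g hg (fun d => w ^ (-(d ^ 2))) hF
  have h2 := (h1.diagonal_mul (fun j : Fin n => w ^ ((j : ℕ) ^ 2))).mul_diagonal
    (fun j : Fin n => w ^ ((j : ℕ) ^ 2))
  rw [Fintype.card_fin] at h2
  refine Cost.mono ?_ (show 2 * k + Fintype.card A + n + n ≤ 2 * k + Fintype.card A + 2 * n by
    omega)
  convert h2 using 1
  ext i j
  rw [Matrix.mul_diagonal, Matrix.diagonal_mul, Matrix.of_apply, dftMatrix, Matrix.of_apply, ← hw]
  rw [← zpow_natCast, ← zpow_natCast w, ← zpow_natCast, ← zpow_natCast w, ← _root_.zpow_mul,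
    ← zpow_add₀ hw0, ← zpow_add₀ hw0]
  congr 1
  push_cast
  ring

end Group

end Crest.Agent.R324
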