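import Crest.Agent.R324.Reach

/-!
Row 324: calculus of the cost of matrices (arbitrary finite index types).
-/

set_option autoImplicit false
set_option linter.unusedSectionVars false

namespace Crest.Agent.R324

open Matrix
open scoped Kronecker

variable {ι κ ρ α : Type*} [Fintype ι] [DecidableEq ι] [Fintype κ] [DecidableEq κ]
  [Fintype ρ] [DecidableEq ρ] [Fintype α] [DecidableEq α]
variable {ι' κ' : Type*} [Fintype ι'] [DecidableEq ι'] [Fintype κ'] [DecidableEq κ']

/-- choosing (and repeating) rows is free -/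
theorem Cost.rows {A : Matrix κ ι ℂ} {k : ℕ} (h : Cost A k) (f : κ' → κ) :
    Cost (A.submatrix f id) k := by
  refine Reach.mono_right h ?_
  rintro _ ⟨j, rfl⟩
  exact ⟨f j, rfl⟩

/-- relabelling inputs along a map `g` (the coordinate `i'` of the new input space feeds
all `i` with `g i = i'`) is free -/
theorem Cost.cols {A : Matrix κ ι ℂ} {k : ℕ} (h : Cost A k) (g : ι → ι') :
    Cost (Matrix.of fun j i' => ∑ i, A j i * (if g i = i' then 1 else 0)) k := by
  let f : (ι → ℂ) →ₗ[ℂ] (ι' → ℂ) :=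
    { toFun := fun v i' => ∑ i, v i * (if g i = i' then 1 else 0)
      map_add' := fun a b => by
        ext i'
        simp only [Pi.add_apply]
        rw [← Finset.sum_add_distrib]
        exact Finset.sum_congr rfl fun i _ => by ring
      map_smul' := fun c a => by
        ext i'
        simp only [Pi.smul_apply, smul_eq_mul, RingHom.id_apply]
        rw [Finset.mul_sum]
        exact Finset.sum_congr rfl fun i _ => by ring }
  have h1 := h.map f
  refine Reach.mono_right (Reach.mono_left h1 ?_) ?_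
  · rintro _ ⟨_, ⟨i, rfl⟩, rfl⟩
    refine ⟨g i, ?_⟩
    ext i'
    simp only [f, LinearMap.coe_mk, AddHom.coe_mk]
    rw [Finset.sum_eq_single i]
    · simp [Pi.single_apply, eq_comm]
    · intro b _ hb
      simp [Pi.single_apply, hb]
    · simp
  · rintro _ ⟨j, rfl⟩
    exact ⟨_, ⟨j, rfl⟩, rfl⟩

/-- relabelling inputs by an equivalence is free -/
theorem Cost.cols_equiv {A : Matrix κ ι ℂ} {k : ℕ} (h : Cost A k) (e : ι' ≃ ι) :
    Cost (A.submatrix id e) k := by
  have := h.cols e.symm
  convert this using 1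
  ext j i'
  simp only [Matrix.submatrix_apply, id, Matrix.of_apply]
  rw [Finset.sum_eq_single (e i')]
  · simp
  · intro b _ hb
    rw [if_neg, mul_zero]
    intro h'
    exact hb (by rw [← h', Equiv.apply_symm_apply])
  · simp

theorem Cost.reindex {A : Matrix κ ι ℂ} {k : ℕ} (h : Cost A k) (e : κ' ≃ κ) (f : ι' ≃ ι) :
    Cost (A.submatrix e f) k := by
  have := (h.rows e).cols_equiv f
  simpa using this

/-- several independent blocks -/
theorem Cost.blocks {β : Type*} [Fintype β] [DecidableEq β] {κb ιb : β → Type*}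
    [∀ b, Fintype (ιb b)] [∀ b, DecidableEq (ιb b)] [∀ b, Fintype (κb b)]
    [∀ b, DecidableEq (κb b)] (A' : ∀ b, Matrix (κb b) (ιb b) ℂ) (k : β → ℕ)
    (h : ∀ b, Cost (A' b) (k b)) (g : ∀ b, ιb b → ι) {A : Matrix κ ι ℂ}
    (row : κ → Σ b, κb b)
    (hA : ∀ j i, A j i = ∑ i', A' (row j).1 (row j).2 i' * (if g _ i' = i then 1 else 0)) :
    Cost A (∑ b, k b) := by
  have h1 := Reach.iUnion_univ fun b => (h b).cols (g b)
  refine Reach.mono_right (Reach.mono_left h1 ?_) ?_
  · exact Set.iUnion_subset fun b => le_refl _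
  · rintro _ ⟨j, rfl⟩
    refine Set.mem_iUnion.2 ⟨(row j).1, (row j).2, ?_⟩
    ext i
    simp only [Matrix.of_apply]
    exact (hA j i).symm

theorem Cost.one : Cost (1 : Matrix ι ι ℂ) 0 := by
  refine Reach.of_subset ?_ 0
  rintro _ ⟨j, rfl⟩
  refine ⟨j, ?_⟩
  ext i
  simp [Matrix.one_apply, Pi.single_apply, eq_comm]

/-- rows of `A` scaled -/
theorem Cost.diagonal_mul {A : Matrix κ ι ℂ} {k : ℕ} (h : Cost A k) (d : κ → ℂ) :
    Cost (Matrix.diagonal d * A) (k + Fintype.card κ) := by
  refine Reach.trans' h ?_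
  have h1 := Reach.iUnion_univ fun j : κ => Reach.smul (d j) (fun i : ι => A j i)
  have h2 : (∑ _j : κ, 1) = Fintype.card κ := by simp
  rw [h2] at h1
  refine Reach.mono_right (Reach.mono_left h1 ?_) ?_
  · refine Set.iUnion_subset fun j => ?_
    rintro _ rfl
    exact ⟨j, rfl⟩
  · rintro _ ⟨j, rfl⟩
    refine Set.mem_iUnion.2 ⟨j, ?_⟩
    rw [Set.mem_singleton_iff]
    ext i
    simp

theorem Cost.diagonal (d : κ → ℂ) : Cost (Matrix.diagonal d) (Fintype.card κ) := by
  have := (Cost.one (ι := κ)).diagonal_mul d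
  simpa using this

/-- a permutation matrix is free -/
theorem Cost.perm (e : κ → ι) :
    Cost (Matrix.of fun j i => if e j = i then (1 : ℂ) else 0) 0 := by
  refine Reach.of_subset ?_ 0
  rintro _ ⟨j, rfl⟩
  refine ⟨e j, ?_⟩
  ext i
  simp [Pi.single_apply, eq_comm]

/-- a matrix with at most one nonzero entry in each row costs one gate per row -/
theorem Cost.monomial (e : κ → ι) (d : κ → ℂ) :
    Cost (Matrix.of fun j i => if e j = i then d j else 0) (Fintype.card κ) := by
  have := (Cost.perm e).diagonal_mul d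
  rw [Nat.zero_add] at this
  convert this using 1
  ext j i
  simp

/-- each output is `x_{e j} + c_j x_{f j}`: two gates per output with `c_j ≠ 0` -/
theorem Cost.add_rows {A B : Matrix κ ι ℂ} {k l : ℕ} (hA : Cost A k) (hB : Cost B l) :
    Cost (A + B) (k + l + Fintype.card κ) := by
  have h0 := Reach.union hA hB
  rw [Set.union_self] at h0
  refine Reach.trans' h0 ?_
  have h1 := Reach.iUnion_univ fun j : κ => Reach.add (fun i : ι => A j i) (fun i : ι => B j i)
  have h2 : (∑ _j : κ, 1) = Fintype.card κ := by simp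
  rw [h2] at h1
  refine Reach.mono_right (Reach.mono_left h1 ?_) ?_
  · refine Set.iUnion_subset fun j => ?_
    rintro x hx
    rcases hx with rfl | hx
    · exact Or.inl ⟨j, rfl⟩
    · rw [Set.mem_singleton_iff] at hx
      subst hx
      exact Or.inr ⟨j, rfl⟩
  · rintro _ ⟨j, rfl⟩
    exact Set.mem_iUnion.2 ⟨j, rfl⟩

/-- `1 ⊗ A`: `|α|` independent copies -/
theorem Cost.one_kronecker {A : Matrix κ ι ℂ} {k : ℕ} (h : Cost A k) :
    Cost ((1 : Matrix α α ℂ) ⊗ₖ A) (Fintype.card α * k) := by
  have := Cost.blocks (β := α) (κb := fun _ => κ) (ιb := fun _ => ι) (fun _ => A) (fun _ => k)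
    (fun _ => h) (fun a i => (a, i)) (A := (1 : Matrix α α ℂ) ⊗ₖ A) (fun j => ⟨j.1, j.2⟩) (by
      rintro ⟨a, j⟩ ⟨b, i⟩
      rw [Matrix.kronecker_apply, Finset.sum_eq_single i]
      · simp [Matrix.one_apply, mul_comm]
      · intro i' _ hi'
        simp [hi']
      · simp)
  simpa using this

theorem Cost.kronecker_one {A : Matrix κ ι ℂ} {k : ℕ} (h : Cost A k) :
    Cost (A ⊗ₖ (1 : Matrix α α ℂ)) (Fintype.card α * k) := by
  have := (h.one_kronecker (α := α)).reindex (Equiv.prodComm κ α) (Equiv.prodComm ι α)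
  convert this using 1
  ext ⟨j, a⟩ ⟨i, b⟩
  simp [mul_comm]

/-- Kronecker products: first `A`, then `B` -/
theorem Cost.kronecker {A : Matrix κ ι ℂ} {B : Matrix κ' ι' ℂ} {k l : ℕ} (hA : Cost A k)
    (hB : Cost B l) :
    Cost (A ⊗ₖ B) (Fintype.card κ * l + Fintype.card ι' * k) := by
  have h1 := hA.kronecker_one (α := ι')
  have h2 := hB.one_kronecker (α := κ)
  have := h2.mul h1
  rwa [← Matrix.mul_kronecker_mul, Matrix.one_mul, Matrix.mul_one] at this

end Crest.Agent.R324
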