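import Mathlib

/-!
# Layered in-place words

`IsMono` : monomial matrices (permutation times diagonal, zeros allowed on the diagonal).
`IsMatch` : a layer of disjoint transvections.
`LW d A` : `A` is a product of `d` steps, a step being `monomial * matching layer * monomial`.
-/

set_option autoImplicit false
set_option linter.unusedSectionVars false
set_option linter.unusedSimpArgs false

namespace Crest.Agent.R324

open Matrix

variable {q p : Type*} [Fintype q] [DecidableEq q] [Fintype p] [DecidableEq p]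

/-- monomial matrices: `(A x) i = d i * x (e i)` -/
def monoMat (e : Equiv.Perm q) (d : q → ℂ) : Matrix q q ℂ :=
  Matrix.of fun i j => if e i = j then d i else 0

/-- a matching layer: `(A x) i = x i + c i * x (σ i)` (the second term only if `σ i ≠ i`) -/
def matchMat (σ : q → q) (c : q → ℂ) : Matrix q q ℂ :=
  Matrix.of fun i j => if i = j then 1 else if σ i = j then c i else 0

def IsMono (A : Matrix q q ℂ) : Prop := ∃ (e : Equiv.Perm q) (d : q → ℂ), A = monoMat e d

/-- a layer of disjoint transvections -/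
def IsMatch (A : Matrix q q ℂ) : Prop :=
  ∃ (σ : q → q) (c : q → ℂ), (∀ i, σ (σ i) = i) ∧ (∀ i, c i = 0 ∨ c (σ i) = 0) ∧ A = matchMat σ c

def IsStep (A : Matrix q q ℂ) : Prop :=
  ∃ M L M' : Matrix q q ℂ, IsMono M ∧ IsMatch L ∧ IsMono M' ∧ A = M * L * M'

/-- product of `d` steps -/
inductive LW : ℕ → Matrix q q ℂ → Prop
  | one : LW 0 1
  | step {d : ℕ} {A B : Matrix q q ℂ} : IsStep B → LW d A → LW (d + 1) (B * A)

theorem isMono_one : IsMono (1 : Matrix q q ℂ) := by
  refine ⟨1, fun _ => 1, ?_⟩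
  ext i j
  by_cases h : i = j
  · subst h; simp [monoMat]
  · simp [monoMat, h]

theorem isMatch_one : IsMatch (1 : Matrix q q ℂ) := by
  refine ⟨id, fun _ => 0, fun _ => rfl, fun _ => Or.inl rfl, ?_⟩
  ext i j
  by_cases h : i = j
  · subst h; simp [matchMat]
  · simp [matchMat, h]

theorem IsMono.isStep {A : Matrix q q ℂ} (h : IsMono A) : IsStep A :=
  ⟨A, 1, 1, h, isMatch_one, isMono_one, by simp⟩

theorem IsMatch.isStep {A : Matrix q q ℂ} (h : IsMatch A) : IsStep A :=
  ⟨1, A, 1, isMono_one, h, isMono_one, by simp⟩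

theorem isMono_diagonal (d : q → ℂ) : IsMono (Matrix.diagonal d) := by
  refine ⟨1, d, ?_⟩
  ext i j
  by_cases h : i = j
  · subst h; simp [monoMat]
  · simp [monoMat, h]

theorem IsMono.transpose {A : Matrix q q ℂ} (h : IsMono A) : IsMono Aᵀ := by
  obtain ⟨e, d, rfl⟩ := h
  refine ⟨e.symm, fun i => d (e.symm i), ?_⟩
  ext i j
  simp only [monoMat, Matrix.transpose_apply, Matrix.of_apply]
  by_cases h : e j = i
  · subst h; simp
  · rw [if_neg h, if_neg]
    intro h'; exact h (by rw [← h']; simp)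

theorem IsMatch.transpose {A : Matrix q q ℂ} (h : IsMatch A) : IsMatch Aᵀ := by
  obtain ⟨σ, c, h1, h2, rfl⟩ := h
  refine ⟨σ, fun i => c (σ i), h1, fun i => ?_, ?_⟩
  · show c (σ i) = 0 ∨ c (σ (σ i)) = 0
    rw [h1 i]; exact (h2 i).symm
  · ext i j
    simp only [matchMat, Matrix.transpose_apply, Matrix.of_apply]
    by_cases h : j = i
    · subst h; simp
    · have h' : ¬ i = j := fun e => h e.symm
      rw [if_neg h, if_neg h']
      by_cases h3 : σ j = i
      · have h4 : σ i = j := by rw [← h3, h1]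
        rw [if_pos h3, if_pos h4, h4]
      · have h4 : ¬ σ i = j := fun h4 => h3 (by rw [← h4, h1])
        rw [if_neg h3, if_neg h4]

theorem IsStep.transpose {A : Matrix q q ℂ} (h : IsStep A) : IsStep Aᵀ := by
  obtain ⟨M, L, M', hM, hL, hM', rfl⟩ := h
  exact ⟨M'ᵀ, Lᵀ, Mᵀ, hM'.transpose, hL.transpose, hM.transpose, by
    simp [Matrix.transpose_mul, Matrix.mul_assoc]⟩

theorem IsStep.lw {A : Matrix q q ℂ} (h : IsStep A) : LW 1 A := by
  have := LW.step h LW.one
  simpa using this

theorem LW.mul {d d' : ℕ} {A B : Matrix q q ℂ} (hA : LW d A) (hB : LW d' B) :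
    LW (d + d') (A * B) := by
  induction hA with
  | one => simpa using hB
  | @step d A C hC hA ih =>
    rw [Matrix.mul_assoc, Nat.add_right_comm]
    exact LW.step hC ih

theorem LW.succ {d : ℕ} {A : Matrix q q ℂ} (hA : LW d A) : LW (d + 1) A := by
  have := LW.step (isMono_one (q := q)).isStep hA
  simpa using this

theorem LW.mono {d d' : ℕ} {A : Matrix q q ℂ} (hA : LW d A) (h : d ≤ d') : LW d' A := by
  induction h with
  | refl => exact hA
  | step _ ih => exact ih.succ

theorem LW.of_zero {A : Matrix q q ℂ} (h : LW 0 A) : A = 1 := by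
  cases h; rfl

theorem LW.transpose {d : ℕ} {A : Matrix q q ℂ} (hA : LW d A) : LW d Aᵀ := by
  induction hA with
  | one => simpa using LW.one
  | @step d A C hC hA ih =>
    rw [Matrix.transpose_mul]
    exact ih.mul hC.transpose.lw

theorem LW.diagonal (c : q → ℂ) : LW 1 (Matrix.diagonal c) := (isMono_diagonal c).isStep.lw

/-! ### Reindexing -/

theorem IsMono.submatrix {A : Matrix q q ℂ} (h : IsMono A) (f : p ≃ q) :
    IsMono (A.submatrix f f) := by
  obtain ⟨e, d, rfl⟩ := h
  refine ⟨(f.trans e).trans f.symm, fun i => d (f i), ?_⟩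
  ext i j
  simp only [monoMat, Matrix.submatrix_apply, Matrix.of_apply, Equiv.trans_apply]
  by_cases h : e (f i) = f j
  · have h' : f.symm (e (f i)) = j := by rw [h]; simp
    simp [h]
  · have h' : ¬ f.symm (e (f i)) = j := fun h' => h (by rw [← h']; simp)
    rw [if_neg h]
    exact (if_neg h').symm

theorem IsMatch.submatrix {A : Matrix q q ℂ} (h : IsMatch A) (f : p ≃ q) :
    IsMatch (A.submatrix f f) := by
  obtain ⟨σ, c, h1, h2, rfl⟩ := h
  refine ⟨fun i => f.symm (σ (f i)), fun i => c (f i), fun i => by simp [h1], fun i => ?_, ?_⟩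
  · simpa using h2 (f i)
  · ext i j
    simp only [matchMat, Matrix.submatrix_apply, Matrix.of_apply, EmbeddingLike.apply_eq_iff_eq]
    by_cases h : i = j
    · subst h; simp
    · rw [if_neg h, if_neg h]
      by_cases h3 : σ (f i) = f j
      · rw [if_pos h3, if_pos]; rw [h3]; simp
      · rw [if_neg h3, if_neg]
        intro h4; exact h3 (by rw [← h4]; simp)

theorem IsStep.submatrix {A : Matrix q q ℂ} (h : IsStep A) (f : p ≃ q) :
    IsStep (A.submatrix f f) := by
  obtain ⟨M, L, M', hM, hL, hM', rfl⟩ := h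
  exact ⟨_, _, _, hM.submatrix f, hL.submatrix f, hM'.submatrix f, by
    rw [← Matrix.submatrix_mul_equiv _ _ f f f, ← Matrix.submatrix_mul_equiv _ _ f f f]⟩

theorem LW.submatrix {d : ℕ} {A : Matrix q q ℂ} (hA : LW d A) (f : p ≃ q) :
    LW d (A.submatrix f f) := by
  induction hA with
  | one => simpa using LW.one
  | @step d A C hC hA ih =>
    rw [← Matrix.submatrix_mul_equiv _ _ f f f]
    exact LW.step (hC.submatrix f) ih

/-! ### Direct sums -/

theorem IsMono.fromBlocks {A : Matrix q q ℂ} {B : Matrix p p ℂ} (hA : IsMono A) (hB : IsMono B) :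
    IsMono (Matrix.fromBlocks A 0 0 B) := by
  obtain ⟨e, d, rfl⟩ := hA
  obtain ⟨e', d', rfl⟩ := hB
  refine ⟨Equiv.Perm.sumCongr e e', Sum.elim d d', ?_⟩
  ext (i | i) (j | j) <;> simp [monoMat]

theorem IsMatch.fromBlocks {A : Matrix q q ℂ} {B : Matrix p p ℂ} (hA : IsMatch A)
    (hB : IsMatch B) : IsMatch (Matrix.fromBlocks A 0 0 B) := by
  obtain ⟨σ, c, h1, h2, rfl⟩ := hA
  obtain ⟨σ', c', h1', h2', rfl⟩ := hB
  refine ⟨Sum.map σ σ', Sum.elim c c', ?_, ?_, ?_⟩
  · rintro (i | i) <;> simp [h1, h1']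
  · rintro (i | i)
    · simpa using h2 i
    · simpa using h2' i
  · ext (i | i) (j | j) <;> simp [matchMat]

theorem IsStep.fromBlocks {A : Matrix q q ℂ} {B : Matrix p p ℂ} (hA : IsStep A) (hB : IsStep B) :
    IsStep (Matrix.fromBlocks A 0 0 B) := by
  obtain ⟨M, L, M', hM, hL, hM', rfl⟩ := hA
  obtain ⟨M1, L1, M1', hM1, hL1, hM1', rfl⟩ := hB
  exact ⟨_, _, _, hM.fromBlocks hM1, hL.fromBlocks hL1, hM'.fromBlocks hM1', by
    simp [Matrix.fromBlocks_multiply]⟩

theorem LW.fromBlocks {d : ℕ} {A : Matrix q q ℂ} {B : Matrix p p ℂ} (hA : LW d A)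
    (hB : LW d B) : LW d (Matrix.fromBlocks A 0 0 B) := by
  induction d generalizing A B with
  | zero =>
    rw [hA.of_zero, hB.of_zero, Matrix.fromBlocks_one]
    exact LW.one
  | succ d ih =>
    cases hA with
    | step hC hA =>
      cases hB with
      | step hC' hB =>
        have := LW.step (hC.fromBlocks hC') (ih hA hB)
        simpa [Matrix.fromBlocks_multiply] using this

/-! ### Embeddings of registers -/

variable {α β γ : Type*} [Fintype α] [DecidableEq α] [Fintype β] [DecidableEq β]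
  [Fintype γ] [DecidableEq γ]

/-- the matrix of the embedding `f` of registers -/
def emb (f : α → q) : Matrix q α ℂ := Matrix.of fun i a => if i = f a then 1 else 0

theorem emb_transpose_mul_self {f : α → q} (hf : Function.Injective f) :
    (emb f)ᵀ * emb f = 1 := by
  ext a b
  simp only [emb, Matrix.mul_apply, Matrix.transpose_apply, Matrix.of_apply, Matrix.one_apply]
  by_cases h : a = b
  · subst h; simp
  · rw [if_neg h]
    refine Finset.sum_eq_zero fun i _ => ?_
    by_cases h1 : i = f a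
    · rw [if_pos h1, if_neg, mul_zero]
      intro h2; exact h (hf (h1.symm.trans h2))
    · rw [if_neg h1, zero_mul]

theorem emb_transpose_mul {f : α → q} {g : β → q} (h : ∀ a b, f a ≠ g b) :
    (emb f)ᵀ * emb g = 0 := by
  ext a b
  simp only [emb, Matrix.mul_apply, Matrix.transpose_apply, Matrix.of_apply, Matrix.zero_apply]
  refine Finset.sum_eq_zero fun i _ => ?_
  by_cases h1 : i = f a
  · rw [if_pos h1, if_neg, mul_zero]
    intro h2; exact h a b (h1.symm.trans h2)
  · rw [if_neg h1, zero_mul]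

theorem emb_comp (f : α → q) (g : β → α) : emb (f ∘ g) = emb f * emb g := by
  ext i b
  simp [emb, Matrix.mul_apply]

/-- `A` acting on the registers `range f`, identity elsewhere -/
def loc (f : α → q) (A : Matrix α α ℂ) : Matrix q q ℂ := 1 + emb f * (A - 1) * (emb f)ᵀ

theorem loc_one (f : α → q) : loc f (1 : Matrix α α ℂ) = 1 := by simp [loc]

theorem loc_mul {f : α → q} (hf : Function.Injective f) (A B : Matrix α α ℂ) :
    loc f (A * B) = loc f A * loc f B := by
  have h1 : emb f * (A - 1) * (emb f)ᵀ * (emb f * (B - 1) * (emb f)ᵀ)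
      = emb f * ((A - 1) * (B - 1)) * (emb f)ᵀ := by
    calc _ = emb f * (A - 1) * ((emb f)ᵀ * emb f) * (B - 1) * (emb f)ᵀ := by
          simp only [Matrix.mul_assoc]
      _ = _ := by rw [emb_transpose_mul_self hf]; simp only [Matrix.mul_assoc, Matrix.one_mul]
  have h2 : loc f A * loc f B = 1 + emb f * (A - 1) * (emb f)ᵀ + emb f * (B - 1) * (emb f)ᵀ
      + emb f * ((A - 1) * (B - 1)) * (emb f)ᵀ := by
    unfold loc
    rw [← h1]; noncomm_ring
  rw [h2]
  unfold loc
  have h3 : A * B - 1 = (A - 1) + (B - 1) + (A - 1) * (B - 1) := by noncomm_ring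
  rw [h3, Matrix.mul_add, Matrix.mul_add, Matrix.add_mul, Matrix.add_mul]
  abel

theorem loc_eq_submatrix {f : α → q} (hf : Function.Injective f) (A : Matrix α α ℂ) :
    ∃ e : q ≃ α ⊕ {i : q // i ∉ Set.range f},
      loc f A = (Matrix.fromBlocks A 0 0 1).submatrix e e := by
  classical
  let e0 : α ≃ {i : q // i ∈ Set.range f} := Equiv.ofInjective f hf
  let e1 : α ⊕ {i : q // i ∉ Set.range f} ≃ q :=
    (Equiv.sumCongr e0 (Equiv.refl _)).trans (Equiv.sumCompl fun i => i ∈ Set.range f)
  refine ⟨e1.symm, ?_⟩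
  have hl : ∀ a, e1 (Sum.inl a) = f a := fun a => rfl
  have hr : ∀ a, e1 (Sum.inr a) = a.1 := fun a => rfl
  suffices h : (loc f A).submatrix e1 e1 = Matrix.fromBlocks A 0 0 1 by
    rw [← h]; ext i j; simp
  ext (a | a) (b | b)
  · simp only [Matrix.submatrix_apply, hl, Matrix.fromBlocks_apply₁₁, loc, Matrix.add_apply]
    have h3 : (emb f * (A - 1) * (emb f)ᵀ : Matrix q q ℂ) (f a) (f b) = (A - 1) a b := by
      simp only [emb, Matrix.mul_apply, Matrix.transpose_apply, Matrix.of_apply, hf.eq_iff]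
      simp
    rw [h3, Matrix.sub_apply]
    by_cases hab : a = b
    · subst hab; simp
    · rw [Matrix.one_apply_ne (fun h => hab (hf h)), Matrix.one_apply_ne hab]; simp
  · simp only [Matrix.submatrix_apply, hl, hr, Matrix.fromBlocks_apply₁₂, loc, Matrix.add_apply,
      Matrix.zero_apply]
    have h3 : (emb f * (A - 1) * (emb f)ᵀ : Matrix q q ℂ) (f a) b.1 = 0 := by
      rw [Matrix.mul_apply]
      refine Finset.sum_eq_zero fun x _ => ?_
      have : (emb f)ᵀ x b.1 = 0 := by
        simp only [emb, Matrix.transpose_apply, Matrix.of_apply]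
        rw [if_neg]
        intro h; exact b.2 ⟨x, h.symm⟩
      rw [this, mul_zero]
    rw [h3, add_zero, Matrix.one_apply, if_neg]
    intro h; exact b.2 ⟨a, h⟩
  · simp only [Matrix.submatrix_apply, hl, hr, Matrix.fromBlocks_apply₂₁, loc, Matrix.add_apply,
      Matrix.zero_apply]
    have h3 : (emb f * (A - 1) * (emb f)ᵀ : Matrix q q ℂ) a.1 (f b) = 0 := by
      rw [Matrix.mul_assoc, Matrix.mul_apply]
      refine Finset.sum_eq_zero fun x _ => ?_
      have : emb f a.1 x = 0 := by
        simp only [emb, Matrix.of_apply]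
        rw [if_neg]
        intro h; exact a.2 ⟨x, h.symm⟩
      rw [this, zero_mul]
    rw [h3, add_zero, Matrix.one_apply, if_neg]
    intro h; exact a.2 ⟨b, h.symm⟩
  · simp only [Matrix.submatrix_apply, hr, Matrix.fromBlocks_apply₂₂, loc, Matrix.add_apply]
    have h3 : (emb f * (A - 1) * (emb f)ᵀ : Matrix q q ℂ) a.1 b.1 = 0 := by
      rw [Matrix.mul_assoc, Matrix.mul_apply]
      refine Finset.sum_eq_zero fun x _ => ?_
      have : emb f a.1 x = 0 := by
        simp only [emb, Matrix.of_apply]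
        rw [if_neg]
        intro h; exact a.2 ⟨x, h.symm⟩
      rw [this, zero_mul]
    rw [h3, add_zero, Matrix.one_apply, Matrix.one_apply]
    simp only [Subtype.ext_iff]

theorem LW.loc {d : ℕ} {f : α → q} (hf : Function.Injective f) {A : Matrix α α ℂ} (hA : LW d A) :
    LW d (loc f A) := by
  classical
  obtain ⟨e, he⟩ := loc_eq_submatrix hf A
  rw [he]
  have h1 : LW d (Matrix.fromBlocks A 0 0 (1 : Matrix {i : q // i ∉ Set.range f} _ ℂ)) :=
    hA.fromBlocks (LW.one.mono (Nat.zero_le _))
  exact h1.submatrix e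

/-- `x_{f b} += ∑ A b a x_{g a}` -/
def addm (f : β → q) (g : α → q) (A : Matrix β α ℂ) : Matrix q q ℂ :=
  1 + emb f * A * (emb g)ᵀ

theorem addm_zero (f : β → q) (g : α → q) : addm f g (0 : Matrix β α ℂ) = 1 := by simp [addm]

theorem addm_mul {f : β → q} {g : α → q} (h : ∀ a b, g a ≠ f b) (A B : Matrix β α ℂ) :
    addm f g A * addm f g B = addm f g (A + B) := by
  have h1 : emb f * A * (emb g)ᵀ * (emb f * B * (emb g)ᵀ) = 0 := by
    calc _ = emb f * A * ((emb g)ᵀ * emb f) * B * (emb g)ᵀ := by simp only [Matrix.mul_assoc]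
      _ = 0 := by rw [emb_transpose_mul h]; simp
  unfold addm
  rw [Matrix.mul_add, Matrix.add_mul, Matrix.add_mul, h1, Matrix.mul_add, Matrix.add_mul]
  simp only [Matrix.mul_one, Matrix.one_mul]
  abel

/-- the commutator identity -/
theorem addm_commutator {f : γ → q} {w : β → q} {g : α → q} (hw : Function.Injective w)
    (hgf : ∀ a c, g a ≠ f c) (hgw : ∀ a b, g a ≠ w b) (hwf : ∀ b c, w b ≠ f c)
    (A : Matrix γ β ℂ) (B : Matrix β α ℂ) :
    addm f w (-A) * addm w g (-B) * addm f w A * addm w g B = addm f g (A * B) := by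
  set z := emb f * A * (emb w)ᵀ with hz
  set u := emb w * B * (emb g)ᵀ with hu
  have hz' : emb f * (-A) * (emb w)ᵀ = -z := by rw [hz]; simp
  have hu' : emb w * (-B) * (emb g)ᵀ = -u := by rw [hu]; simp
  have zz : z * z = 0 := by
    calc z * z = emb f * A * ((emb w)ᵀ * emb f) * A * (emb w)ᵀ := by
          rw [hz]; simp only [Matrix.mul_assoc]
      _ = 0 := by rw [emb_transpose_mul hwf]; simp
  have uu : u * u = 0 := by
    calc u * u = emb w * B * ((emb g)ᵀ * emb w) * B * (emb g)ᵀ := by
          rw [hu]; simp only [Matrix.mul_assoc]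
      _ = 0 := by rw [emb_transpose_mul hgw]; simp
  have uz : u * z = 0 := by
    calc u * z = emb w * B * ((emb g)ᵀ * emb f) * A * (emb w)ᵀ := by
          rw [hu, hz]; simp only [Matrix.mul_assoc]
      _ = 0 := by rw [emb_transpose_mul hgf]; simp
  have zu : z * u = emb f * (A * B) * (emb g)ᵀ := by
    calc z * u = emb f * A * ((emb w)ᵀ * emb w) * B * (emb g)ᵀ := by
          rw [hu, hz]; simp only [Matrix.mul_assoc]
      _ = _ := by rw [emb_transpose_mul_self hw]; simp only [Matrix.mul_assoc, Matrix.one_mul]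
  unfold addm
  rw [hz', hu', ← zu, ← hz, ← hu]
  have key : (1 + -z) * (1 + -u) * (1 + z) * (1 + u)
      = 1 + z * u - z * z + (z * u) * z - (z * z) * u - u * u - u * z + (z * u) * z * u
        - (u * z) * u + (z * u) * u := by
    noncomm_ring
  have e1 : (z * u) * z = 0 := by rw [Matrix.mul_assoc, uz, Matrix.mul_zero]
  have e2 : (z * u) * u = 0 := by rw [Matrix.mul_assoc, uu, Matrix.mul_zero]
  rw [key, e1, e2, zz, uu, uz]
  simp

/-- adding registers to other registers one to one is a matching layer -/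
theorem isMatch_addm_diagonal {f g : α → q} (hf : Function.Injective f)
    (hg : Function.Injective g) (h : ∀ a b, g a ≠ f b) (c : α → ℂ) :
    IsMatch (addm f g (Matrix.diagonal c)) := by
  classical
  -- partner map
  let σ : q → q := fun i =>
    if hi : ∃ a, f a = i then g hi.choose else if hi' : ∃ a, g a = i then f hi'.choose else i
  let c' : q → ℂ := fun i => if hi : ∃ a, f a = i then c hi.choose else 0
  have hfc : ∀ a, (⟨a, rfl⟩ : ∃ a', f a' = f a).choose = a := fun a =>
    hf (⟨a, rfl⟩ : ∃ a', f a' = f a).choose_spec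
  have hgc : ∀ a, (⟨a, rfl⟩ : ∃ a', g a' = g a).choose = a := fun a =>
    hg (⟨a, rfl⟩ : ∃ a', g a' = g a).choose_spec
  have hng : ∀ a, ¬ ∃ b, f b = g a := fun a ⟨b, hb⟩ => h a b hb.symm
  have σf : ∀ a, σ (f a) = g a := fun a => by
    show (if hi : ∃ a', f a' = f a then g hi.choose else _) = g a
    rw [dif_pos ⟨a, rfl⟩, hfc]
  have σg : ∀ a, σ (g a) = f a := fun a => by
    show (if hi : ∃ a', f a' = g a then g hi.choose else
      if hi' : ∃ a', g a' = g a then f hi'.choose else g a) = f a
    rw [dif_neg (hng a), dif_pos ⟨a, rfl⟩, hgc]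
  have σn : ∀ i, (¬ ∃ a, f a = i) → (¬ ∃ a, g a = i) → σ i = i := fun i h1 h2 => by
    show (if hi : ∃ a', f a' = i then g hi.choose else
      if hi' : ∃ a', g a' = i then f hi'.choose else i) = i
    rw [dif_neg h1, dif_neg h2]
  have cf : ∀ a, c' (f a) = c a := fun a => by
    show (if hi : ∃ a', f a' = f a then c hi.choose else 0) = c a
    rw [dif_pos ⟨a, rfl⟩, hfc]
  have cn : ∀ i, (¬ ∃ a, f a = i) → c' i = 0 := fun i h1 => by
    show (if hi : ∃ a', f a' = i then c hi.choose else 0) = 0
    rw [dif_neg h1]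
  refine ⟨σ, c', ?_, ?_, ?_⟩
  · intro i
    by_cases h1 : ∃ a, f a = i
    · obtain ⟨a, rfl⟩ := h1; rw [σf, σg]
    · by_cases h2 : ∃ a, g a = i
      · obtain ⟨a, rfl⟩ := h2; rw [σg, σf]
      · rw [σn i h1 h2, σn i h1 h2]
  · intro i
    by_cases h1 : ∃ a, f a = i
    · obtain ⟨a, rfl⟩ := h1
      right; rw [σf]; exact cn _ (hng a)
    · left; exact cn _ h1
  · ext i j
    simp only [addm, Matrix.add_apply, matchMat, Matrix.of_apply, Matrix.mul_diagonal]
    rw [Matrix.mul_apply]
    simp only [Matrix.mul_diagonal, emb, Matrix.of_apply, Matrix.transpose_apply]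
    by_cases h1 : ∃ a, f a = i
    · obtain ⟨a, rfl⟩ := h1
      have hs : ∑ x, ((if f a = f x then (1 : ℂ) else 0) * c x) * (if j = g x then 1 else 0)
          = if j = g a then c a else 0 := by
        rw [Finset.sum_eq_single a]
        · simp
        · intro b _ hb
          rw [if_neg (fun h' => hb (hf h').symm)]; simp
        · simp
      rw [hs, σf, cf, Matrix.one_apply]
      by_cases h2 : f a = j
      · subst h2
        rw [if_pos rfl, if_neg (fun h' => h a a h'.symm), if_pos rfl, add_zero]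
      · rw [if_neg h2, if_neg h2, zero_add]
        simp only [eq_comm]
    · have hs : ∑ x, ((if i = f x then (1 : ℂ) else 0) * c x) * (if j = g x then 1 else 0) = 0 := by
        refine Finset.sum_eq_zero fun x _ => ?_
        rw [if_neg (fun h' => h1 ⟨x, h'.symm⟩)]; simp
      rw [hs, cn i h1, add_zero, Matrix.one_apply]
      simp

end Crest.Agent.R324
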