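import Crest.Agent.R324.DTensor
import Crest.Agent.R324.Layers

/-!
Row 324: the tensor product of `n` in-place layered words (`LW d`) on types of cardinality `N k`
costs at most `d * ∏ N k * (τ n + 4)`.
-/

set_option autoImplicit false
set_option linter.unusedSectionVars false

namespace Crest.Agent.R324

open Matrix
open scoped Kronecker

section

variable {q : Type*} [Fintype q] [DecidableEq q]

theorem IsMono.isMonoT {A : Matrix q q ℂ} (h : IsMono A) : IsMonoT A := by
  obtain ⟨e, d, rfl⟩ := h
  exact ⟨e, d, fun i j => by simp [monoMat, eq_comm]⟩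

theorem IsMatch.isTL {A : Matrix q q ℂ} (h : IsMatch A) : IsTL A := by
  obtain ⟨σ, c, h1, h2, rfl⟩ := h
  refine ⟨σ, c, h1, h2, fun i j => ?_⟩
  simp only [matchMat, Matrix.of_apply]
  by_cases hij : i = j
  · subst hij
    by_cases hs : i = σ i
    · have hc : c i = 0 := by
        rcases h2 i with h | h
        · exact h
        · rwa [← hs] at h
      simp [hc]
    · simp [hs]
  · have hji : ¬ j = i := fun h => hij h.symm
    rw [if_neg hij, if_neg hji, zero_add]
    by_cases hs : σ i = j
    · rw [if_pos hs, if_pos hs.symm]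
    · rw [if_neg hs, if_neg (fun h => hs h.symm)]

end

/-- **the tensor lemma**: different words of the same length -/
theorem CostR.piKron_LW (τ : ℕ → ℝ) (hmono : Monotone τ) (h0 : ∀ k, 0 ≤ τ k)
    (hτ : ∀ m, CostR (tpow (Fin m) (zetaFin 2)) (2 ^ m * τ m)) {n : ℕ}
    (ι : Fin n → Type) [∀ k, Fintype (ι k)] [∀ k, DecidableEq (ι k)] (d : ℕ) :
    ∀ (A : ∀ k, Matrix (ι k) (ι k) ℂ), (∀ k, LW d (A k)) →
    CostR (piKron A) (d * ((∏ k, (Fintype.card (ι k) : ℝ)) * (τ n + 4))) := by
  have hone : piKron (fun k => (1 : Matrix (ι k) (ι k) ℂ)) = 1 := by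
    ext x y
    simp only [piKron_apply, Matrix.one_apply]
    rw [Finset.prod_boole]
    simp [funext_iff]
  have hmo : ∀ M : ∀ k, Matrix (ι k) (ι k) ℂ, (∀ k, IsMono (M k)) →
      CostR (piKron M) (∏ k, (Fintype.card (ι k) : ℝ)) := by
    intro M hM
    have := Cost.isMonoT (piKron_isMonoT (fun k => (hM k).isMonoT))
    rw [Fintype.card_pi] at this
    exact this.costR_of_le (by push_cast; exact le_rfl)
  induction d with
  | zero =>
    intro A hA
    have h1 : A = fun k => 1 := funext fun k => (hA k).of_zero
    rw [h1, hone]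
    exact Cost.one.costR_of_le (by simp)
  | succ d ih =>
    intro A hA
    have h1 : ∀ k, ∃ (M L M' A' : Matrix (ι k) (ι k) ℂ), IsMono M ∧ IsMatch L ∧ IsMono M' ∧
        LW d A' ∧ A k = M * L * M' * A' := by
      intro k
      have := hA k
      generalize A k = B at this
      cases this with
      | step hB hA' =>
        obtain ⟨M, L, M', hM, hL, hM', rfl⟩ := hB
        exact ⟨M, L, M', _, hM, hL, hM', hA', rfl⟩
    choose M L M' A' hM hL hM' hA' hE using h1
    have h2 : piKron A = piKron M * piKron L * piKron M' * piKron A' := by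
      rw [← piKron_mul, ← piKron_mul, ← piKron_mul]
      congr 1
      funext k
      exact hE k
    rw [h2]
    refine ((((hmo M hM).mul (CostR.piKron_isTL τ hmono h0 hτ ι L (fun k => (hL k).isTL))).mul
      (hmo M' hM')).mul (ih A' hA')).mono (le_of_eq ?_)
    push_cast
    ring

end Crest.Agent.R324
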