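import Crest.Agent.R324.TPow

/-!
Row 324: cost of a tensor product of *different* layers.

`CostR A r`: `A` has cost at most the real number `r`.
`IsMonoT`, `IsTL`: monomial matrices and matrices of pairwise disjoint transvections.
`piKron A`: the tensor product of a family of matrices.

Main result `piKron_layer`.
-/

set_option autoImplicit false
set_option linter.unusedSectionVars false

namespace Crest.Agent.R324

open Matrix
open scoped Kronecker

/-! ### Real-valued cost bounds -/

section CostR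

variable {ι κ ρ α : Type*} [Fintype ι] [DecidableEq ι] [Fintype κ] [DecidableEq κ]
  [Fintype ρ] [DecidableEq ρ] [Fintype α] [DecidableEq α]
variable {ι' κ' : Type*} [Fintype ι'] [DecidableEq ι'] [Fintype κ'] [DecidableEq κ']

/-- `A` can be computed with at most `r` gates, `r` real -/
def CostR (A : Matrix κ ι ℂ) (r : ℝ) : Prop := ∃ k : ℕ, (k : ℝ) ≤ r ∧ Cost A k

theorem Cost.costR {A : Matrix κ ι ℂ} {k : ℕ} (h : Cost A k) : CostR A k := ⟨k, le_rfl, h⟩

theorem Cost.costR_of_le {A : Matrix κ ι ℂ} {k : ℕ} {r : ℝ} (h : Cost A k) (hr : (k : ℝ) ≤ r) :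
    CostR A r := ⟨k, hr, h⟩

theorem CostR.mono {A : Matrix κ ι ℂ} {r s : ℝ} (h : CostR A r) (hrs : r ≤ s) : CostR A s := by
  obtain ⟨k, hk, h⟩ := h
  exact ⟨k, hk.trans hrs, h⟩

theorem CostR.mul {A : Matrix κ ι ℂ} {B : Matrix ι ρ ℂ} {r s : ℝ} (hA : CostR A r)
    (hB : CostR B s) : CostR (A * B) (r + s) := by
  obtain ⟨k, hk, hA⟩ := hA
  obtain ⟨l, hl, hB⟩ := hB
  exact ⟨k + l, by push_cast; linarith, hA.mul hB⟩

theorem CostR.reindex {A : Matrix κ ι ℂ} {r : ℝ} (h : CostR A r) (e : κ' ≃ κ) (f : ι' ≃ ι) :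
    CostR (A.submatrix e f) r := by
  obtain ⟨k, hk, h⟩ := h
  exact ⟨k, hk, h.reindex e f⟩

end CostR

/-! ### Layers -/

section Layers

variable {ι : Type*} [DecidableEq ι]

/-- at most one nonzero entry in each row -/
def IsMonoT (A : Matrix ι ι ℂ) : Prop :=
  ∃ (s : ι → ι) (d : ι → ℂ), ∀ i j, A i j = if j = s i then d i else 0

/-- pairwise disjoint transvections with coefficient `1` -/
def IsLL (A : Matrix ι ι ℂ) : Prop :=
  ∃ (p : ι → ι) (c : ι → Prop) (_ : DecidablePred c), (∀ i, p (p i) = i) ∧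
    (∀ i, c i → ¬ c (p i)) ∧
    ∀ i j, A i j = (if j = i then 1 else 0) + (if c i ∧ j = p i then 1 else 0)

/-- pairwise disjoint transvections with arbitrary coefficients -/
def IsTL (A : Matrix ι ι ℂ) : Prop :=
  ∃ (p : ι → ι) (c : ι → ℂ), (∀ i, p (p i) = i) ∧ (∀ i, c i = 0 ∨ c (p i) = 0) ∧
    ∀ i j, A i j = (if j = i then 1 else 0) + (if j = p i then c i else 0)

theorem IsMonoT.diagonal (d : ι → ℂ) : IsMonoT (Matrix.diagonal d) :=
  ⟨id, d, fun i j => by simp [Matrix.diagonal_apply, eq_comm]⟩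

theorem IsMonoT.one : IsMonoT (1 : Matrix ι ι ℂ) :=
  ⟨id, fun _ => 1, fun i j => by simp [Matrix.one_apply, eq_comm]⟩

/-- a layer of transvections is a layer of unit transvections up to diagonal matrices -/
theorem IsTL.exists_isLL [Fintype ι] {A : Matrix ι ι ℂ} (h : IsTL A) :
    ∃ (d e : ι → ℂ) (B : Matrix ι ι ℂ), IsLL B ∧ A = Matrix.diagonal d * B * Matrix.diagonal e := by
  classical
  obtain ⟨p, c, hp, hc, hA⟩ := h
  let d : ι → ℂ := fun i => if c i = 0 then 1 else c i
  refine ⟨d, fun i => (d i)⁻¹, Matrix.of fun i j =>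
    (if j = i then 1 else 0) + (if c i ≠ 0 ∧ j = p i then 1 else 0),
    ⟨p, fun i => c i ≠ 0, inferInstance, hp, ?_, fun i j => rfl⟩, ?_⟩
  · intro i hi
    rcases hc i with h | h
    · exact absurd h hi
    · exact not_not.2 h
  · ext i j
    rw [hA, Matrix.mul_diagonal, Matrix.diagonal_mul, Matrix.of_apply]
    have hd : ∀ i, d i ≠ 0 := by
      intro i
      by_cases h : c i = 0
      · simp [d, h]
      · simp [d, h]
    by_cases hj : j = i
    · subst hj
      rw [if_pos rfl]
      by_cases hpj : j = p j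
      · have : c j = 0 := by
          rcases hc j with h | h
          · exact h
          · rwa [← hpj] at h
        simp [this, hd]
      · simp [hpj, hd]
    · rw [if_neg hj]
      by_cases hpj : j = p i
      · subst hpj
        by_cases hci : c i = 0
        · simp [hci]
        · have h2 : c (p i) = 0 := (hc i).resolve_left hci
          simp [hci, d, h2]
      · simp [hpj]

end Layers

/-! ### one unit layer in the first factor -/

section OneLayer

/-- `[1]` or `[[1,0],[1,1]]` -/
def zetaFin (w : ℕ) : Matrix (Fin w) (Fin w) ℂ := Matrix.of fun i j => if j ≤ i then 1 else 0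

variable {ι κ : Type*} [Fintype ι] [DecidableEq ι] [Fintype κ] [DecidableEq κ]

theorem card_split (p : ι → ι) (c : ι → Prop) [DecidablePred c] (hp : ∀ i, p (p i) = i)
    (hc : ∀ i, c i → ¬ c (p i)) :
    2 * Fintype.card {i // c i} + Fintype.card {i // ¬ c i ∧ ¬ c (p i)} = Fintype.card ι := by
  have h1 : Fintype.card {i // c i} = Fintype.card {i // c (p i)} := by
    refine Fintype.card_congr ⟨fun i => ⟨p i.1, by rw [hp]; exact i.2⟩,
      fun i => ⟨p i.1, i.2⟩, fun i => by simp [hp], fun i => by simp [hp]⟩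
  have h2 : Fintype.card ι = (Finset.univ.filter fun i => c i).card +
      (Finset.univ.filter fun i => ¬ c i).card := by
    rw [Finset.card_filter_add_card_filter_not, Finset.card_univ]
  have h3 : (Finset.univ.filter fun i => ¬ c i).card =
      (Finset.univ.filter fun i => c (p i)).card +
        (Finset.univ.filter fun i => ¬ c i ∧ ¬ c (p i)).card := by
    rw [← Finset.card_union_of_disjoint]
    · congr 1
      ext i
      simp only [Finset.mem_filter, Finset.mem_univ, true_and, Finset.mem_union]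
      constructor
      · intro h
        by_cases h' : c (p i)
        · exact Or.inl h'
        · exact Or.inr ⟨h, h'⟩
      · rintro (h | h)
        · intro h'
          exact hc i h' h
        · exact h.1
    · rw [Finset.disjoint_filter]
      rintro i _ h ⟨_, h'⟩
      exact h' h
  rw [Fintype.card_subtype, Fintype.card_subtype] at h1
  rw [Fintype.card_subtype, Fintype.card_subtype]
  omega

/-- cost of `A ⊗ X` for a unit layer `A` -/
theorem Cost.isLL_kronecker {A : Matrix ι ι ℂ} (hA : IsLL A) {X : Matrix κ κ ℂ} {k k2 : ℕ}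
    (hX : Cost X k) (hX2 : Cost (zetaFin 2 ⊗ₖ X) k2) :
    ∃ u v : ℕ, 2 * u + v = Fintype.card ι ∧ Cost (A ⊗ₖ X) (u * k2 + v * k) := by
  classical
  obtain ⟨p, c, _, hp, hc, hA⟩ := hA
  refine ⟨Fintype.card {i // c i}, Fintype.card {i // ¬ c i ∧ ¬ c (p i)},
    card_split p c hp hc, ?_⟩
  let β := {i // c i} ⊕ {i // ¬ c i ∧ ¬ c (p i)}
  let w : β → ℕ := Sum.elim (fun _ => 2) (fun _ => 1)
  let g : ∀ b : β, Fin (w b) → ι := fun b =>
    match b with
    | Sum.inl i => fun e => if e.val = 0 then p i.1 else i.1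
    | Sum.inr i => fun _ => i.1
  have h1X : Cost (zetaFin 1 ⊗ₖ X) k := by
    have := (hX.one_kronecker (α := Fin 1))
    simp only [Fintype.card_fin, one_mul] at this
    convert this using 2
    ext i j
    have hi := Subsingleton.elim i 0
    have hj := Subsingleton.elim j 0
    subst hi; subst hj
    simp [zetaFin]
  have key := Cost.blocks (β := β) (κb := fun b => Fin (w b) × κ)
    (ιb := fun b => Fin (w b) × κ) (ι := ι × κ) (κ := ι × κ)
    (fun b => zetaFin (w b) ⊗ₖ X) (Sum.elim (fun _ => k2) (fun _ => k)) (by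
      rintro (i | i)
      · exact hX2
      · exact h1X)
    (fun b e => (g b e.1, e.2)) (A := A ⊗ₖ X)
    (fun x => if h : c x.1 then ⟨Sum.inl ⟨x.1, h⟩, ((1 : Fin 2), x.2)⟩
      else if h' : c (p x.1) then ⟨Sum.inl ⟨p x.1, h'⟩, ((0 : Fin 2), x.2)⟩
      else ⟨Sum.inr ⟨x.1, h, h'⟩, ((0 : Fin 1), x.2)⟩) (by
      rintro ⟨i, a⟩ ⟨j, b⟩
      rw [Matrix.kronecker_apply, hA]
      by_cases h : c i
      · rw [dif_pos h]
        simp only [Fintype.sum_prod_type, zetaFin, Prod.mk.injEq]
        change _ = ∑ x : Fin 2, ∑ x1 : κ, (if x ≤ 1 then (1 : ℂ) else 0) * X a x1 *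
          (if (if x.val = 0 then p i else i) = j ∧ x1 = b then 1 else 0)
        rw [Fin.sum_univ_two, Finset.sum_eq_single b, Finset.sum_eq_single b]
        · simp only [h, true_and, Fin.isValue, Fin.zero_le, if_true, Fin.val_zero,
            Fin.val_one, one_ne_zero, if_false, and_true, le_refl, one_mul, eq_comm (a := j)]
          ring
        · intro b' _ hb'; simp [hb']
        · simp
        · intro b' _ hb'; simp [hb']
        · simp
      · rw [dif_neg h]
        by_cases h' : c (p i)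
        · rw [dif_pos h']
          simp only [Fintype.sum_prod_type, zetaFin, Prod.mk.injEq]
          change _ = ∑ x : Fin 2, ∑ x1 : κ, (if x ≤ 0 then (1 : ℂ) else 0) * X a x1 *
            (if (if x.val = 0 then p (p i) else p i) = j ∧ x1 = b then 1 else 0)
          rw [Fin.sum_univ_two, Finset.sum_eq_single b, Finset.sum_eq_single b]
          · simp [h, hp, eq_comm]
          · intro b' _ hb'; simp [hb']
          · simp
          · intro b' _ hb'; simp [hb']
          · simp
        · rw [dif_neg h']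
          simp only [Fintype.sum_prod_type, zetaFin, Prod.mk.injEq]
          change _ = ∑ x : Fin 1, ∑ x1 : κ, (if x ≤ 0 then (1 : ℂ) else 0) * X a x1 *
            (if i = j ∧ x1 = b then 1 else 0)
          rw [Fin.sum_univ_one, Finset.sum_eq_single b]
          · simp [h, eq_comm]
          · intro b' _ hb'; simp [hb']
          · simp)
  refine key.mono (le_of_eq ?_)
  rw [Fintype.sum_sum_type]
  simp

end OneLayer

/-! ### tensor products of families -/

section PiKron

variable {K : Type*} [Fintype K]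

/-- the tensor product of a family of square matrices -/
def piKron {ι : K → Type*} (A : ∀ k, Matrix (ι k) (ι k) ℂ) :
    Matrix (∀ k, ι k) (∀ k, ι k) ℂ :=
  Matrix.of fun x y => ∏ k, A k (x k) (y k)

@[simp] theorem piKron_apply {ι : K → Type*} (A : ∀ k, Matrix (ι k) (ι k) ℂ) (x y : ∀ k, ι k) :
    piKron A x y = ∏ k, A k (x k) (y k) := rfl

theorem piKron_mul [DecidableEq K] {ι : K → Type*} [∀ k, Fintype (ι k)]
    (A B : ∀ k, Matrix (ι k) (ι k) ℂ) :
    piKron (fun k => A k * B k) = piKron A * piKron B := by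
  ext x y
  simp only [piKron_apply, Matrix.mul_apply]
  rw [Finset.prod_univ_sum, Fintype.piFinset_univ]
  exact Finset.sum_congr rfl fun z _ => Finset.prod_mul_distrib

theorem piKron_isMonoT {ι : K → Type*} [∀ k, DecidableEq (ι k)]
    {A : ∀ k, Matrix (ι k) (ι k) ℂ} (hA : ∀ k, IsMonoT (A k)) : IsMonoT (piKron A) := by
  choose s d hA using hA
  refine ⟨fun x k => s k (x k), fun x => ∏ k, d k (x k), fun x y => ?_⟩
  simp only [piKron_apply, hA]
  split_ifs with h
  · exact Finset.prod_congr rfl fun k _ => by rw [if_pos (congrFun h k)]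
  · rw [funext_iff, not_forall] at h
    obtain ⟨k, hk⟩ := h
    exact Finset.prod_eq_zero (Finset.mem_univ k) (if_neg hk)

theorem Cost.isMonoT {ι : Type*} [Fintype ι] [DecidableEq ι] {A : Matrix ι ι ℂ} (hA : IsMonoT A) :
    Cost A (Fintype.card ι) := by
  obtain ⟨s, d, hA⟩ := hA
  have := Cost.monomial s d
  convert this using 1
  ext i j
  rw [hA, Matrix.of_apply]
  simp [eq_comm]

end PiKron

section Rec

/-- `ι 0 × (rest) ≃ all` -/
theorem piKron_cons {n : ℕ} {ι : Fin (n + 1) → Type*} (A : ∀ k, Matrix (ι k) (ι k) ℂ)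
    (x y : ∀ k, ι k) :
    piKron A x y = A 0 (x 0) (y 0) *
      piKron (fun k : Fin n => A k.succ) (fun k => x k.succ) (fun k => y k.succ) := by
  simp only [piKron_apply]
  rw [Fin.prod_univ_succ]

/-- a family of unit layers together with `m` further factors `[[1,0],[1,1]]` -/
theorem CostR.piKron_isLL_aux (τ : ℕ → ℝ) (hmono : Monotone τ) (h0 : ∀ k, 0 ≤ τ k)
    (hτ : ∀ m, CostR (tpow (Fin m) (zetaFin 2)) (2 ^ m * τ m)) (n : ℕ) :
    ∀ (m : ℕ) (ι : Fin n → Type) [∀ k, Fintype (ι k)] [∀ k, DecidableEq (ι k)]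
      (A : ∀ k, Matrix (ι k) (ι k) ℂ), (∀ k, IsLL (A k)) →
      CostR (piKron A ⊗ₖ tpow (Fin m) (zetaFin 2))
        ((∏ k, (Fintype.card (ι k) : ℝ)) * 2 ^ m * τ (n + m)) := by
  induction n with
  | zero =>
    intro m ι _ _ A _
    have h := (hτ m).reindex (Equiv.uniqueProd (Fin m → Fin 2) (∀ k, ι k))
      (Equiv.uniqueProd (Fin m → Fin 2) (∀ k, ι k))
    have h1 : (tpow (Fin m) (zetaFin 2)).submatrix (Equiv.uniqueProd (Fin m → Fin 2) (∀ k, ι k))
        (Equiv.uniqueProd (Fin m → Fin 2) (∀ k, ι k)) = piKron A ⊗ₖ tpow (Fin m) (zetaFin 2) := by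
      ext ⟨a, x⟩ ⟨b, y⟩
      simp
    rw [h1] at h
    simpa using h
  | succ n ih =>
    intro m ι _ _ A hA
    let N' : ℝ := ∏ k : Fin n, (Fintype.card (ι k.succ) : ℝ)
    have hN' : 0 ≤ N' := Finset.prod_nonneg fun _ _ => Nat.cast_nonneg _
    let X := piKron (fun k : Fin n => A k.succ) ⊗ₖ tpow (Fin m) (zetaFin 2)
    obtain ⟨k, hk, hX⟩ := ih m (fun k => ι k.succ) (fun k => A k.succ) (fun k => hA k.succ)
    obtain ⟨k2, hk2, hX2⟩ :=
      ih (m + 1) (fun k => ι k.succ) (fun k => A k.succ) (fun k => hA k.succ)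
    let e2 : Fin 2 × ((∀ k : Fin n, ι k.succ) × (Fin m → Fin 2)) ≃
        (∀ k : Fin n, ι k.succ) × (Fin (m + 1) → Fin 2) :=
      { toFun := fun z => (z.2.1, Fin.cons z.1 z.2.2)
        invFun := fun z => (z.2 0, (z.1, fun i => z.2 i.succ))
        left_inv := fun z => by simp
        right_inv := fun z => by
          ext1
          · rfl
          · exact Fin.cons_self_tail z.2 }
    have hX2' : Cost (zetaFin 2 ⊗ₖ X) k2 := by
      have := hX2.reindex e2 e2
      convert this using 1
      ext ⟨a, p, x⟩ ⟨b, q, y⟩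
      simp only [X, e2, Matrix.kronecker_apply, Matrix.submatrix_apply, Equiv.coe_fn_mk,
        tpow_apply, Fin.prod_univ_succ, Fin.cons_zero, Fin.cons_succ]
      ring
    obtain ⟨u, v, huv, hC⟩ := Cost.isLL_kronecker (hA 0) hX hX2'
    let e : (∀ k, ι k) × (Fin m → Fin 2) ≃
        ι 0 × ((∀ k : Fin n, ι k.succ) × (Fin m → Fin 2)) :=
      { toFun := fun z => (z.1 0, (fun k => z.1 k.succ, z.2))
        invFun := fun z => (Fin.cons z.1 z.2.1, z.2.2)
        left_inv := fun z => by
          ext1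
          · exact Fin.cons_self_tail z.1
          · rfl
        right_inv := fun z => by simp }
    have h3 := hC.reindex e e
    have h4 : (A 0 ⊗ₖ X).submatrix e e = piKron A ⊗ₖ tpow (Fin m) (zetaFin 2) := by
      ext ⟨x, s⟩ ⟨y, t⟩
      simp only [X, e, Matrix.kronecker_apply, Matrix.submatrix_apply, Equiv.coe_fn_mk]
      rw [piKron_cons A x y]
      ring
    rw [h4] at h3
    refine ⟨_, ?_, h3⟩
    push_cast
    have e1 : (k : ℝ) ≤ N' * 2 ^ m * τ (n + 1 + m) :=
      hk.trans (mul_le_mul_of_nonneg_left (hmono (by omega)) (by positivity))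
    have e2 : (k2 : ℝ) ≤ 2 * (N' * 2 ^ m * τ (n + 1 + m)) := by
      refine hk2.trans (le_of_eq ?_)
      have : n + (m + 1) = n + 1 + m := by omega
      rw [this, pow_succ]
      ring
    have e3 : (2 * u + v : ℝ) = Fintype.card (ι 0) := by exact_mod_cast huv
    calc (u : ℝ) * k2 + v * k
        ≤ u * (2 * (N' * 2 ^ m * τ (n + 1 + m))) + v * (N' * 2 ^ m * τ (n + 1 + m)) := by
          gcongr
      _ = (2 * u + v) * (N' * 2 ^ m * τ (n + 1 + m)) := by ring
      _ = (∏ k, (Fintype.card (ι k) : ℝ)) * 2 ^ m * τ (n + 1 + m) := by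
          rw [e3, Fin.prod_univ_succ]
          ring

theorem CostR.piKron_isLL (τ : ℕ → ℝ) (hmono : Monotone τ) (h0 : ∀ k, 0 ≤ τ k)
    (hτ : ∀ m, CostR (tpow (Fin m) (zetaFin 2)) (2 ^ m * τ m)) {n : ℕ}
    (ι : Fin n → Type) [∀ k, Fintype (ι k)] [∀ k, DecidableEq (ι k)]
    (A : ∀ k, Matrix (ι k) (ι k) ℂ) (hA : ∀ k, IsLL (A k)) :
    CostR (piKron A) ((∏ k, (Fintype.card (ι k) : ℝ)) * τ n) := by
  have h := CostR.piKron_isLL_aux τ hmono h0 hτ n 0 ι A hA
  have h1 := h.reindex (Equiv.prodUnique (∀ k, ι k) (Fin 0 → Fin 2)).symm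
    (Equiv.prodUnique (∀ k, ι k) (Fin 0 → Fin 2)).symm
  have h2 : (piKron A ⊗ₖ tpow (Fin 0) (zetaFin 2)).submatrix
      (Equiv.prodUnique (∀ k, ι k) (Fin 0 → Fin 2)).symm
      (Equiv.prodUnique (∀ k, ι k) (Fin 0 → Fin 2)).symm = piKron A := by
    ext x y
    simp
  rw [h2] at h1
  simpa using h1

/-- **one layer**: the tensor product of `n` matrices of disjoint transvections -/
theorem CostR.piKron_isTL (τ : ℕ → ℝ) (hmono : Monotone τ) (h0 : ∀ k, 0 ≤ τ k)
    (hτ : ∀ m, CostR (tpow (Fin m) (zetaFin 2)) (2 ^ m * τ m)) {n : ℕ}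
    (ι : Fin n → Type) [∀ k, Fintype (ι k)] [∀ k, DecidableEq (ι k)]
    (A : ∀ k, Matrix (ι k) (ι k) ℂ) (hA : ∀ k, IsTL (A k)) :
    CostR (piKron A) ((∏ k, (Fintype.card (ι k) : ℝ)) * (τ n + 2)) := by
  choose d e B hB hA using fun k => (hA k).exists_isLL
  have h1 : piKron A = piKron (fun k => Matrix.diagonal (d k)) * piKron B *
      piKron (fun k => Matrix.diagonal (e k)) := by
    rw [← piKron_mul, ← piKron_mul]
    congr 1
    funext k
    exact hA k
  rw [h1]
  have h2 : ∀ d : ∀ k, ι k → ℂ, CostR (piKron (fun k => Matrix.diagonal (d k)))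
      (∏ k, (Fintype.card (ι k) : ℝ)) := by
    intro d
    have := Cost.isMonoT (piKron_isMonoT (fun k => IsMonoT.diagonal (d k)))
    rw [Fintype.card_pi] at this
    exact this.costR_of_le (by push_cast; exact le_rfl)
  refine (((h2 d).mul (CostR.piKron_isLL τ hmono h0 hτ ι B hB)).mul (h2 e)).mono (le_of_eq ?_)
  ring

end Rec

end Crest.Agent.R324
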