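import Crest.Agent.R324.Fibre

/-!
Row 324: the doubling recursion for stars (helper42's lemma).
-/

set_option autoImplicit false
set_option linter.unusedSectionVars false

namespace Crest.Agent.R324

open Matrix
open scoped Kronecker

variable {κ V p q ι ι' : Type*} [Fintype κ] [DecidableEq κ] [Fintype V] [DecidableEq V]
  [Fintype p] [DecidableEq p] [Fintype q] [DecidableEq q] [Fintype ι] [DecidableEq ι]
  [Fintype ι'] [DecidableEq ι']

/-- the star `x_j += x_0` on the wires `0, 1, …, a` -/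
def star (a : ℕ) : Matrix (Fin (a + 1)) (Fin (a + 1)) ℂ :=
  Matrix.of fun i j => if i = j ∨ j = 0 then 1 else 0

/-- the star on `Option ι`, the centre is `none` -/
def starO (ι : Type*) [DecidableEq ι] : Matrix (Option ι) (Option ι) ℂ :=
  Matrix.of fun i j => if i = j ∨ j = none then 1 else 0

theorem mc_submatrix_le (M : Matrix q q ℂ) (e : p ≃ q) (K : ℕ) :
    mc (M.submatrix e e) K ≤ mc M K :=
  mc_le ((cost_mc M K).tpow_submatrix e)

theorem mc_submatrix (M : Matrix q q ℂ) (e : p ≃ q) (K : ℕ) :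
    mc (M.submatrix e e) K = mc M K := by
  apply le_antisymm (mc_submatrix_le M e K)
  have h := mc_submatrix_le (M.submatrix e e) e.symm K
  rw [Matrix.submatrix_submatrix] at h
  simpa using h

theorem starO_submatrix (e : ι ≃ ι') :
    (starO ι').submatrix (Equiv.optionCongr e) (Equiv.optionCongr e) = starO ι := by
  ext i j
  cases i <;> cases j <;> simp [starO]

theorem mc_starO_congr (h : Fintype.card ι = Fintype.card ι') (K : ℕ) :
    mc (starO ι) K = mc (starO ι') K := by
  have e : ι ≃ ι' := Fintype.equivOfCardEq h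
  rw [← starO_submatrix e, mc_submatrix]

theorem star_eq (a : ℕ) :
    star a = (starO (Fin a)).submatrix (finSuccEquiv a) (finSuccEquiv a) := by
  ext i j
  refine Fin.cases ?_ (fun i => ?_) i <;> refine Fin.cases ?_ (fun j => ?_) j <;>
    simp [star, starO, (Fin.succ_ne_zero _).symm]

theorem star_one : star 1 = L := by
  ext i j
  fin_cases i <;> fin_cases j <;> simp [star, L]

theorem mc_star (a K : ℕ) : mc (star a) K = mc (starO (Fin a)) K := by
  rw [star_eq, mc_submatrix]

theorem starO_none_sum (F : Option ι → ℂ) :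
    ∑ i, starO ι none i * F i = F none := by
  simp [starO, eq_comm]

theorem starO_some_sum (k : ι) (F : Option ι → ℂ) :
    ∑ i, starO ι (some k) i * F i = F (some k) + F none := by
  rw [Fintype.sum_option]
  simp [starO, add_comm]

/-! ### the factorisation of `S ⊗ S` -/

/-- the arms of the star -/
def armO (ι : Type*) [DecidableEq ι] : Matrix (Option ι) (Option ι) ℂ :=
  Matrix.of fun i j => if i ≠ none ∧ j = none then 1 else 0

/-- projection on the leaves -/
def projO (ι : Type*) [DecidableEq ι] : Matrix (Option ι) (Option ι) ℂ :=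
  Matrix.diagonal fun i => if i = none then 0 else 1

theorem starO_eq : starO ι = 1 + armO ι := by
  ext i j
  cases i <;> cases j <;> simp [starO, armO, Matrix.one_apply]

theorem proj_mul_arm : projO ι * armO ι = armO ι := by
  ext i j
  cases i <;> cases j <;> simp [projO, armO]

theorem arm_mul_proj : armO ι * projO ι = 0 := by
  ext i j
  cases i <;> cases j <;> simp [projO, armO]

theorem arm_mul_arm : armO ι * armO ι = 0 := by
  ext i j
  simp only [Matrix.mul_apply, armO, Matrix.of_apply, Matrix.zero_apply]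
  refine Finset.sum_eq_zero fun k _ => ?_
  cases k <;> simp

theorem proj_mul_proj : projO ι * projO ι = projO ι := by
  ext i j
  cases i <;> cases j <;> simp [projO, Matrix.diagonal_apply]

def step1 (ι : Type*) [Fintype ι] [DecidableEq ι] :
    Matrix (Option ι × Option ι) (Option ι × Option ι) ℂ := 1 + armO ι ⊗ₖ projO ι

def step2 (ι : Type*) [Fintype ι] [DecidableEq ι] :
    Matrix (Option ι × Option ι) (Option ι × Option ι) ℂ :=
  1 + (armO ι ⊗ₖ (1 - projO ι) + (1 - projO ι) ⊗ₖ armO ι)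

def step3 (ι : Type*) [Fintype ι] [DecidableEq ι] :
    Matrix (Option ι × Option ι) (Option ι × Option ι) ℂ := 1 + projO ι ⊗ₖ armO ι

theorem starO_kronecker : starO ι ⊗ₖ starO ι = step3 ι * (step2 ι * step1 ι) := by
  have e1 : starO ι ⊗ₖ starO ι = 1 + armO ι ⊗ₖ 1 + 1 ⊗ₖ armO ι + armO ι ⊗ₖ armO ι := by
    rw [starO_eq, Matrix.add_kronecker, Matrix.kronecker_add, Matrix.kronecker_add,
      Matrix.one_kronecker_one]
    abel
  have e2 : step2 ι * step1 ι = 1 + armO ι ⊗ₖ 1 + (1 - projO ι) ⊗ₖ armO ι := by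
    unfold step1 step2
    have h1 : (armO ι ⊗ₖ (1 - projO ι)) * (armO ι ⊗ₖ projO ι) = 0 := by
      rw [← Matrix.mul_kronecker_mul, arm_mul_arm, Matrix.zero_kronecker]
    have h2 : ((1 - projO ι) ⊗ₖ armO ι) * (armO ι ⊗ₖ projO ι) = 0 := by
      rw [← Matrix.mul_kronecker_mul, arm_mul_proj, Matrix.kronecker_zero]
    have h3 : armO ι ⊗ₖ (1 : Matrix (Option ι) (Option ι) ℂ) =
        armO ι ⊗ₖ (1 - projO ι) + armO ι ⊗ₖ projO ι := by
      rw [← Matrix.kronecker_add, sub_add_cancel]
    rw [Matrix.add_mul, Matrix.one_mul, Matrix.mul_add, Matrix.mul_one, Matrix.add_mul, h1, h2,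
      h3]
    abel
  rw [e1, e2]
  unfold step3
  have h4 : (projO ι ⊗ₖ armO ι) * (armO ι ⊗ₖ (1 : Matrix (Option ι) (Option ι) ℂ)) =
      armO ι ⊗ₖ armO ι := by
    rw [← Matrix.mul_kronecker_mul, proj_mul_arm, Matrix.mul_one]
  have h5 : (projO ι ⊗ₖ armO ι) * ((1 - projO ι) ⊗ₖ armO ι) = 0 := by
    rw [← Matrix.mul_kronecker_mul, arm_mul_arm, Matrix.kronecker_zero]
  have h6 : (1 : Matrix (Option ι) (Option ι) ℂ) ⊗ₖ armO ι =
        (1 - projO ι) ⊗ₖ armO ι + projO ι ⊗ₖ armO ι := by
    rw [← Matrix.add_kronecker, sub_add_cancel]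
  rw [Matrix.add_mul, Matrix.one_mul, Matrix.mul_add, Matrix.mul_add, Matrix.mul_one, h4, h5, h6]
  abel

theorem ite_and' (P Q : Prop) [Decidable P] [Decidable Q] :
    (if P ∧ Q then (1 : ℂ) else 0) = if Q then (if P then 1 else 0) else 0 := by
  by_cases hP : P <;> by_cases hQ : Q <;> simp [hP, hQ]

/-- cost of the fibre construction -/
noncomputable def FT (T : ℕ → ℕ) (K c r : ℕ) : ℕ :=
  ∑ j ∈ Finset.range (K + 1), K.choose j * (c ^ j * r ^ (K - j)) * T j

theorem mc_step1_le (K : ℕ) :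
    mc (step1 ι) K ≤ FT (mc (starO ι)) K (Fintype.card ι) (Fintype.card ι + 1) := by
  refine mc_le ?_
  have h := Cost.tpow_fibre (κ := Fin K) (V := ι) (A := starO ι) (M := step1 ι)
    (fun x => (x.2, some x.1)) (by
      rintro ⟨a, b⟩ ⟨c, d⟩ h
      simpa [and_comm] using h)
    (by
      rintro v i ⟨b1, b2⟩
      have h1 : ∀ i', (if ((i', some v) : Option ι × Option ι) = (b1, b2) then (1 : ℂ) else 0) =
          if i' = b1 then (if some v = b2 then 1 else 0) else 0 := by
        intro i'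
        by_cases h1 : i' = b1 <;> by_cases h2 : some v = b2 <;> simp [h1, h2]
      simp only [h1, mul_ite, mul_zero, mul_one, Finset.sum_ite_eq', Finset.mem_univ, if_true]
      simp only [step1, Matrix.add_apply, Matrix.one_apply, Matrix.kroneckerMap_apply, starO,
        armO, projO, Matrix.of_apply, Matrix.diagonal_apply]
      cases b2 <;> cases i <;> cases b1 <;> simp [Prod.mk.injEq]
      rw [ite_and']
      )
    (by
      rintro ⟨a1, a2⟩ ⟨b1, b2⟩ h
      have ha : a2 = none := by
        cases a2 with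
        | none => rfl
        | some v => exact absurd ⟨(v, a1), rfl⟩ h
      subst ha
      simp only [step1, Matrix.add_apply, Matrix.one_apply, Matrix.kroneckerMap_apply,
        armO, projO, Matrix.of_apply, Matrix.diagonal_apply]
      simp)
    (mc (starO ι)) (fun j _ => cost_mc _ j)
  have e : Fintype.card (Option ι × Option ι) - Fintype.card ι * Fintype.card (Option ι) =
      Fintype.card ι + 1 := by
    rw [Fintype.card_prod, Fintype.card_option]
    have : (Fintype.card ι + 1) * (Fintype.card ι + 1) =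
      Fintype.card ι * (Fintype.card ι + 1) + (Fintype.card ι + 1) := by ring
    omega
  rw [e] at h
  simpa [FT] using h

theorem mc_step3_le (K : ℕ) :
    mc (step3 ι) K ≤ FT (mc (starO ι)) K (Fintype.card ι) (Fintype.card ι + 1) := by
  have h0 : step3 ι = (step1 ι).submatrix (Equiv.prodComm _ _) (Equiv.prodComm _ _) := by
    ext ⟨a1, a2⟩ ⟨b1, b2⟩
    simp only [step3, step1, Matrix.submatrix_apply, Matrix.add_apply, Matrix.one_apply,
      Matrix.kroneckerMap_apply, Equiv.prodComm_apply, Prod.swap_prod_mk, Prod.mk.injEq]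
    rw [mul_comm]
    simp only [and_comm]
  rw [h0, mc_submatrix]
  exact mc_step1_le K

theorem mc_step2_le (K : ℕ) :
    mc (step2 ι) K ≤ FT (mc (starO (ι ⊕ ι))) K 1 (Fintype.card ι * Fintype.card ι) := by
  refine mc_le ?_
  have h := Cost.tpow_fibre (κ := Fin K) (V := Unit) (A := starO (ι ⊕ ι)) (M := step2 ι)
    (fun x => match x.2 with
      | none => (none, none)
      | some (Sum.inl j) => (some j, none)
      | some (Sum.inr j) => (none, some j)) (by
      rintro ⟨⟨⟩, a⟩ ⟨⟨⟩, b⟩ h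
      rcases a with _ | a | a <;> rcases b with _ | b | b <;> simp_all)
    (by
      rintro ⟨⟩ i ⟨b1, b2⟩
      rcases i with _ | i | i
      · rw [starO_none_sum]
        simp only [step2, Matrix.add_apply, Matrix.one_apply, Matrix.kroneckerMap_apply,
          Matrix.sub_apply, armO, projO, Matrix.of_apply, Matrix.diagonal_apply]
        simp
      · rw [starO_some_sum]
        simp only [step2, Matrix.add_apply, Matrix.one_apply, Matrix.kroneckerMap_apply,
          Matrix.sub_apply, armO, projO, Matrix.of_apply, Matrix.diagonal_apply]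
        cases b1 <;> cases b2 <;> simp
      · rw [starO_some_sum]
        simp only [step2, Matrix.add_apply, Matrix.one_apply, Matrix.kroneckerMap_apply,
          Matrix.sub_apply, armO, projO, Matrix.of_apply, Matrix.diagonal_apply]
        cases b1 <;> cases b2 <;> simp)
    (by
      rintro ⟨a1, a2⟩ ⟨b1, b2⟩ h
      cases a1 with
      | none =>
        cases a2 with
        | none => exact absurd ⟨((), none), rfl⟩ h
        | some v => exact absurd ⟨((), some (Sum.inr v)), rfl⟩ h
      | some u =>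
        cases a2 with
        | none => exact absurd ⟨((), some (Sum.inl u)), rfl⟩ h
        | some v =>
          simp only [step2, Matrix.add_apply, Matrix.one_apply, Matrix.kroneckerMap_apply,
            Matrix.sub_apply, armO, projO, Matrix.of_apply, Matrix.diagonal_apply]
          cases b1 <;> cases b2 <;> simp)
    (mc (starO (ι ⊕ ι))) (fun j _ => cost_mc _ j)
  have e : Fintype.card (Option ι × Option ι) - Fintype.card Unit * Fintype.card (Option (ι ⊕ ι)) =
      Fintype.card ι * Fintype.card ι := by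
    rw [Fintype.card_prod, Fintype.card_option, Fintype.card_option, Fintype.card_sum,
      Fintype.card_unit]
    have : (Fintype.card ι + 1) * (Fintype.card ι + 1) =
      Fintype.card ι * Fintype.card ι + (Fintype.card ι + Fintype.card ι + 1) := by ring
    omega
  rw [e] at h
  simpa [FT] using h

/-- the doubling recursion -/
theorem mc_starO_two_mul_le (K : ℕ) :
    mc (starO ι) (2 * K) ≤
      2 * FT (mc (starO ι)) K (Fintype.card ι) (Fintype.card ι + 1) +
        FT (mc (starO (ι ⊕ ι))) K 1 (Fintype.card ι * Fintype.card ι) := by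
  rw [mc_tpow_eq]
  have h0 : tpow (Fin 2) (starO ι) =
      (starO ι ⊗ₖ starO ι).submatrix (finTwoArrowEquiv _) (finTwoArrowEquiv _) := by
    ext x y
    simp [Fin.prod_univ_two, finTwoArrowEquiv]
  rw [h0, mc_submatrix, starO_kronecker]
  have h1 := mc_mul_le (step3 ι) (step2 ι * step1 ι) K
  have h2 := mc_mul_le (step2 ι) (step1 ι) K
  have h3 := mc_step1_le (ι := ι) K
  have h4 := mc_step2_le (ι := ι) K
  have h5 := mc_step3_le (ι := ι) K
  omega

/-- the doubling recursion, in terms of `star a` -/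
theorem mc_star_two_mul_le (a K : ℕ) :
    mc (star a) (2 * K) ≤
      2 * FT (mc (star a)) K a (a + 1) + FT (mc (star (2 * a))) K 1 (a * a) := by
  have h := mc_starO_two_mul_le (ι := Fin a) K
  have e1 : mc (starO (Fin a)) = mc (star a) := by
    funext j; exact (mc_star a j).symm
  have e2 : mc (starO (Fin a ⊕ Fin a)) = mc (star (2 * a)) := by
    funext j
    rw [mc_star]
    exact mc_starO_congr (by simp [two_mul]) j
  rwa [e1, e2, Fintype.card_fin] at h

/-! ### Real estimates -/

theorem mc_zero (A : Matrix q q ℂ) : mc A 0 = 0 := by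
  refine Nat.le_zero.1 (mc_le ?_)
  have : tpow (Fin 0) A = 1 := by
    ext x y
    rw [Subsingleton.elim x y]
    simp
  rw [this]
  exact Cost.one

/-- the normalised cost -/
noncomputable def nc (A : Matrix q q ℂ) (K : ℕ) : ℝ := mc A K / (Fintype.card q : ℝ) ^ K

theorem nc_nonneg (A : Matrix q q ℂ) (K : ℕ) : 0 ≤ nc A K := by unfold nc; positivity

theorem nc_zero (A : Matrix q q ℂ) : nc A 0 = 0 := by simp [nc, mc_zero]

theorem nc_add_le [Nonempty q] (A : Matrix q q ℂ) (a b : ℕ) :
    nc A (a + b) ≤ nc A a + nc A b := by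
  unfold nc
  have hq : (0 : ℝ) < Fintype.card q := by exact_mod_cast Fintype.card_pos
  have h := mc_add_le A a b
  have h' : (mc A (a + b) : ℝ) ≤ (Fintype.card q : ℝ) ^ b * mc A a +
      (Fintype.card q : ℝ) ^ a * mc A b := by exact_mod_cast h
  rw [div_le_iff₀ (by positivity)]
  calc (mc A (a + b) : ℝ) ≤ _ := h'
    _ = (mc A a / (Fintype.card q : ℝ) ^ a + mc A b / (Fintype.card q : ℝ) ^ b) *
        (Fintype.card q : ℝ) ^ (a + b) := by
      rw [pow_add]; field_simp

theorem nc_le_mul [Nonempty q] (A : Matrix q q ℂ) (K : ℕ) : nc A K ≤ K * nc A 1 := by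
  induction K with
  | zero => simp [nc_zero]
  | succ K ih =>
    refine (nc_add_le A K 1).trans ?_
    push_cast
    nlinarith [ih]

/-- the Jensen estimate for the fibre construction -/
theorem FT_le {A θ : ℝ} (h0 : 0 < θ) (h1 : θ ≤ 1) (hA : 0 ≤ A) {K c r p Q : ℕ}
    (hQ : c * p + r = Q) (hQ0 : 0 < Q) {T : ℕ → ℕ}
    (h : ∀ j ≤ K, (T j : ℝ) ≤ A * (j : ℝ) ^ θ * (p : ℝ) ^ j) :
    (FT T K c r : ℝ) ≤ (Q : ℝ) ^ K * (A * (K * ((c : ℝ) * p / Q)) ^ θ) := by
  have hQ0 : (0 : ℝ) < Q := by exact_mod_cast hQ0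
  have hQr : (c : ℝ) * p + r = Q := by exact_mod_cast hQ
  have hx0 : (0 : ℝ) ≤ (c : ℝ) * p / Q := by positivity
  have hr0 : (0 : ℝ) ≤ r := by positivity
  have hx1 : (c : ℝ) * p / Q ≤ 1 := by
    rw [div_le_one hQ0]; linarith
  have hJ := binomial_jensen h0.le h1 hx0 hx1 K
  calc (FT T K c r : ℝ) = ∑ j ∈ Finset.range (K + 1),
        (K.choose j : ℝ) * ((c : ℝ) ^ j * (r : ℝ) ^ (K - j)) * T j := by
        unfold FT
        push_cast
        rfl
    _ ≤ ∑ j ∈ Finset.range (K + 1), (Q : ℝ) ^ K * (A *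
        (((K.choose j : ℝ) * ((c : ℝ) * p / Q) ^ j * (1 - (c : ℝ) * p / Q) ^ (K - j)) *
          (j : ℝ) ^ θ)) := by
        refine Finset.sum_le_sum fun j hj => ?_
        have hjK : j ≤ K := Nat.lt_succ_iff.1 (Finset.mem_range.1 hj)
        have ht := h j hjK
        have e1 : (Q : ℝ) ^ K = Q ^ j * Q ^ (K - j) := by
          rw [← pow_add]; congr 1; omega
        have e2 : (1 - (c : ℝ) * p / Q) = r / Q := by
          field_simp; linarith
        rw [e1, e2, div_pow, div_pow, mul_pow]
        calc (K.choose j : ℝ) * ((c : ℝ) ^ j * (r : ℝ) ^ (K - j)) * T j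
            ≤ (K.choose j : ℝ) * ((c : ℝ) ^ j * (r : ℝ) ^ (K - j)) *
              (A * (j : ℝ) ^ θ * (p : ℝ) ^ j) := by gcongr
          _ = _ := by field_simp
    _ = (Q : ℝ) ^ K * (A * ∑ j ∈ Finset.range (K + 1),
        (((K.choose j : ℝ) * ((c : ℝ) * p / Q) ^ j * (1 - (c : ℝ) * p / Q) ^ (K - j)) *
          (j : ℝ) ^ θ)) := by
        rw [Finset.mul_sum, Finset.mul_sum]
    _ ≤ (Q : ℝ) ^ K * (A * (K * ((c : ℝ) * p / Q)) ^ θ) := by gcongr

/-- the doubling step, real form -/
theorem nc_star_two_mul_le {θ : ℝ} (h0 : 0 < θ) (h1 : θ ≤ 1) {A B : ℝ} (hA : 0 ≤ A)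
    (hB : 0 ≤ B) (a K : ℕ) (h : ∀ j ≤ K, nc (star a) j ≤ A * (j : ℝ) ^ θ)
    (h' : ∀ j ≤ K, nc (star (2 * a)) j ≤ B * (j : ℝ) ^ θ) :
    nc (star a) (2 * K) ≤ (2 * A * ((a : ℝ) / (a + 1)) ^ θ +
      B * ((2 * (a : ℝ) + 1) / ((a : ℝ) + 1) ^ 2) ^ θ) * (K : ℝ) ^ θ := by
  have hc : ∀ a : ℕ, (Fintype.card (Fin (a + 1)) : ℝ) = (a : ℝ) + 1 := fun a => by simp
  have e1 := FT_le h0 h1 hA (K := K) (c := a) (r := a + 1) (p := a + 1) (Q := (a + 1) ^ 2)
    (by ring) (by positivity) (T := mc (star a)) (by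
      intro j hj
      have := h j hj
      unfold nc at this
      rw [div_le_iff₀ (by rw [hc]; positivity), hc] at this
      push_cast
      exact this)
  have e2 := FT_le h0 h1 hB (K := K) (c := 1) (r := a * a) (p := 2 * a + 1) (Q := (a + 1) ^ 2)
    (by ring) (by positivity) (T := mc (star (2 * a))) (by
      intro j hj
      have := h' j hj
      unfold nc at this
      rw [div_le_iff₀ (by rw [hc]; positivity), hc] at this
      push_cast at this ⊢
      exact this)
  have e3 : (mc (star a) (2 * K) : ℝ) ≤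
      2 * (FT (mc (star a)) K a (a + 1) : ℝ) + (FT (mc (star (2 * a))) K 1 (a * a) : ℝ) := by
    exact_mod_cast mc_star_two_mul_le a K
  have hK : (0 : ℝ) ≤ K := by positivity
  have e4 : (a : ℝ) * ((a + 1 : ℕ) : ℝ) / (((a + 1) ^ 2 : ℕ) : ℝ) = (a : ℝ) / (a + 1) := by
    push_cast; field_simp
  have e5 : ((1 : ℕ) : ℝ) * ((2 * a + 1 : ℕ) : ℝ) / (((a + 1) ^ 2 : ℕ) : ℝ) =
      (2 * (a : ℝ) + 1) / ((a : ℝ) + 1) ^ 2 := by
    push_cast; rw [one_mul]
  rw [e4, Real.mul_rpow hK (by positivity)] at e1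
  rw [e5, Real.mul_rpow hK (by positivity)] at e2
  unfold nc
  rw [div_le_iff₀ (by rw [hc]; positivity), hc]
  push_cast at e1 e2
  rw [pow_mul]
  calc (mc (star a) (2 * K) : ℝ) ≤ _ := e3
    _ ≤ 2 * ((((a : ℝ) + 1) ^ 2) ^ K * (A * ((K : ℝ) ^ θ * ((a : ℝ) / (a + 1)) ^ θ))) +
        (((a : ℝ) + 1) ^ 2) ^ K * (B * ((K : ℝ) ^ θ *
          ((2 * (a : ℝ) + 1) / ((a : ℝ) + 1) ^ 2) ^ θ)) := by gcongr
    _ = _ := by ring

end Crest.Agent.R324
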