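import Crest.Agent.R324.Word

/-!
Row 324: final assembly (abstract): the cost bound of the pieces gives S0501.
-/

set_option autoImplicit false

namespace Crest.Agent.R324

open Crest.FourierCircuit

theorem savingExponent_pos : 0 < savingExponent := by
  unfold savingExponent
  apply Real.logb_pos <;> norm_num

theorem savingExponent_lt_one : savingExponent < 1 := by
  unfold savingExponent
  rw [Real.logb_lt_iff_lt_rpow] <;> norm_num

/-- the analytic core: polylog factors are absorbed -/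
theorem absorb {A c θ' θ : ℝ} (d : ℕ) (hθ' : 0 ≤ θ') (h : θ' < θ) (hA : 0 ≤ A) (hc : 0 ≤ c) :
    ∃ C : ℝ, 0 ≤ C ∧ ∀ y : ℝ, 1 ≤ y →
      (c * (Real.log y + 1) ^ d + 1) * (A * y ^ θ' + 1) ≤ C * y ^ θ := by
  set ε : ℝ := (θ - θ') / (d + 1) with hε
  have hd : (0 : ℝ) < d + 1 := by positivity
  have hε0 : 0 < ε := by
    rw [hε]; exact div_pos (by linarith) hd
  have hεd : ε * d + θ' ≤ θ := by
    have : ε * (d + 1) = θ - θ' := by rw [hε]; field_simp
    nlinarith
  refine ⟨(c * (1 / ε + 1) ^ d + 1) * (A + 1), by positivity, fun y hy => ?_⟩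
  have hy0 : 0 < y := by linarith
  have h1 : Real.log y + 1 ≤ (1 / ε + 1) * y ^ ε := by
    have h2 := Real.log_le_rpow_div hy0.le hε0
    have h3 : 1 ≤ y ^ ε := Real.one_le_rpow hy hε0.le
    calc Real.log y + 1 ≤ y ^ ε / ε + y ^ ε := add_le_add h2 h3
      _ = (1 / ε + 1) * y ^ ε := by ring
  have hl : 0 ≤ Real.log y + 1 := by
    have := Real.log_nonneg hy; linarith
  have h4 : (Real.log y + 1) ^ d ≤ (1 / ε + 1) ^ d * y ^ (ε * d) := by
    calc (Real.log y + 1) ^ d ≤ ((1 / ε + 1) * y ^ ε) ^ d := pow_le_pow_left₀ hl h1 d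
      _ = (1 / ε + 1) ^ d * y ^ (ε * d) := by
        rw [mul_pow, Real.rpow_mul hy0.le, Real.rpow_natCast]
  have h5 : 1 ≤ y ^ (ε * d) := Real.one_le_rpow hy (by positivity)
  have h6 : c * (Real.log y + 1) ^ d + 1 ≤ (c * (1 / ε + 1) ^ d + 1) * y ^ (ε * d) := by
    calc c * (Real.log y + 1) ^ d + 1 ≤ c * ((1 / ε + 1) ^ d * y ^ (ε * d)) + y ^ (ε * d) := by
          gcongr
      _ = _ := by ring
  have h7 : 1 ≤ y ^ θ' := Real.one_le_rpow hy hθ'
  have h8 : A * y ^ θ' + 1 ≤ (A + 1) * y ^ θ' := by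
    calc A * y ^ θ' + 1 ≤ A * y ^ θ' + y ^ θ' := by gcongr
      _ = _ := by ring
  calc (c * (Real.log y + 1) ^ d + 1) * (A * y ^ θ' + 1)
      ≤ ((c * (1 / ε + 1) ^ d + 1) * y ^ (ε * d)) * ((A + 1) * y ^ θ') := by gcongr
    _ = (c * (1 / ε + 1) ^ d + 1) * (A + 1) * y ^ (ε * d + θ') := by
        rw [Real.rpow_add hy0]; ring
    _ ≤ (c * (1 / ε + 1) ^ d + 1) * (A + 1) * y ^ θ := by
        gcongr

/-- the final assembly: from the cost bound with `K` moduli and `R` rounds -/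
theorem final_assembly {A θ' a b c : ℝ} (d : ℕ) (hθ' : 0 ≤ θ') (hθ : θ' < savingExponent)
    (hA : 0 ≤ A) (ha : 0 ≤ a) (hb : 1 ≤ b) (hc : 0 ≤ c)
    (h : ∀ n : ℕ, 1 ≤ n → ∃ k K R : ℕ, Cost (dftMatrix n) k ∧
      (k : ℝ) ≤ a * n * (R + 1) * (A * (K : ℝ) ^ θ' + 1) ∧
      (K : ℝ) ≤ b * (Real.log n + 1) ∧
      (R : ℝ) ≤ c * (Real.log (b * (Real.log n + 1)) + 1) ^ d) :
    ∃ C : ℝ, ∃ N₀ : ℕ, ∀ n ≥ N₀, ∃ P : LinCircuit n,
      P.Computes (dftMatrix n) ∧
        (P.size : ℝ) ≤ C * n * Real.log n ^ savingExponent *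
          Real.log (Real.log n) ^ (4 - savingExponent) := by
  set θ := savingExponent with hθdef
  have hθ0 : 0 < θ := savingExponent_pos
  have hθ1 : θ < 1 := savingExponent_lt_one
  have hb0 : 0 < b := by linarith
  obtain ⟨C, hC0, hC⟩ := absorb (A := A) (c := c) d hθ' hθ hA hc
  refine ⟨a * C * (2 * b) ^ θ, 16, fun n hn => ?_⟩
  have hn1 : 1 ≤ n := by omega
  obtain ⟨k, K, R, hk, hk1, hK, hR⟩ := h n hn1
  obtain ⟨P, hP, hPs⟩ := exists_circuit hk
  refine ⟨P, hP, ?_⟩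
  rw [hPs]
  have hnr : (16 : ℝ) ≤ n := by exact_mod_cast hn
  have hn0 : (0 : ℝ) < n := by linarith
  -- log n ≥ e
  have he : Real.exp (Real.exp 1) ≤ 16 := by
    have h1 : Real.exp 1 < 2.7182818286 := Real.exp_one_lt_d9
    have h2 : Real.exp (Real.exp 1) ≤ Real.exp (2.7182818286) := Real.exp_le_exp.2 h1.le
    have h3 : Real.exp (2.7182818286 : ℝ) ≤ 16 := by
      rw [← Real.le_log_iff_exp_le (by norm_num)]
      have : Real.log 16 = 4 * Real.log 2 := by
        rw [show (16 : ℝ) = 2 ^ (4 : ℕ) by norm_num, Real.log_pow]; norm_num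
      rw [this]
      have := Real.log_two_gt_d9
      linarith
    linarith
  have hlogn : Real.exp 1 ≤ Real.log n := by
    rw [Real.le_log_iff_exp_le hn0]; linarith
  have hlog1 : 1 ≤ Real.log n := by
    have := Real.add_one_le_exp (1 : ℝ); linarith
  have hlog0 : 0 < Real.log n := by linarith
  have hloglog : 1 ≤ Real.log (Real.log n) := by
    rw [Real.le_log_iff_exp_le hlog0]; exact hlogn
  set y : ℝ := b * (Real.log n + 1) with hy
  have hy1 : 1 ≤ y := by nlinarith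
  have hA' : A * (K : ℝ) ^ θ' + 1 ≤ A * y ^ θ' + 1 := by gcongr
  have hR1 : (R : ℝ) + 1 ≤ c * (Real.log y + 1) ^ d + 1 := by linarith
  have hR0 : 0 ≤ c * (Real.log y + 1) ^ d + 1 := le_trans (by positivity) hR1
  have han : 0 ≤ a * n := by positivity
  calc (k : ℝ) ≤ a * n * (R + 1) * (A * (K : ℝ) ^ θ' + 1) := hk1
    _ ≤ a * n * (c * (Real.log y + 1) ^ d + 1) * (A * y ^ θ' + 1) :=
        mul_le_mul (mul_le_mul_of_nonneg_left hR1 han) hA' (by positivity)
          (mul_nonneg han hR0)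
    _ = a * n * ((c * (Real.log y + 1) ^ d + 1) * (A * y ^ θ' + 1)) := by ring
    _ ≤ a * n * (C * y ^ θ) := mul_le_mul_of_nonneg_left (hC y hy1) (by positivity)
    _ ≤ a * n * (C * (2 * b * Real.log n) ^ θ) := by
        gcongr
        rw [hy]; nlinarith
    _ = a * C * (2 * b) ^ θ * n * Real.log n ^ θ * 1 := by
        rw [Real.mul_rpow (by positivity) hlog0.le]; ring
    _ ≤ a * C * (2 * b) ^ θ * n * Real.log n ^ θ * Real.log (Real.log n) ^ (4 - θ) := by
        gcongr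
        exact Real.one_le_rpow hloglog (by linarith)

end Crest.Agent.R324
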