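import Mathlib
import Crest.Agent.R324.Layers

/-!
# Radix two FFT as a layered word, and additive Toeplitz operations through dirty registers
-/

set_option autoImplicit false
set_option linter.unusedSectionVars false
set_option linter.unusedSimpArgs false

namespace Crest.Agent.R324

open Matrix

variable {q p : Type*} [Fintype q] [DecidableEq q] [Fintype p] [DecidableEq p]

theorem LW.submatrix2 {d : ℕ} {A : Matrix q q ℂ} (hA : LW d A) (e1 e2 : p ≃ q) :
    LW (d + 1) (A.submatrix e1 e2) := by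
  have h : A.submatrix e1 e2 = monoMat (e1.trans e2.symm) (fun _ => 1) * A.submatrix e2 e2 := by
    ext i j
    rw [Matrix.mul_apply, Finset.sum_eq_single ((e1.trans e2.symm) i)]
    · simp [monoMat]
    · intro b _ hb
      have : monoMat (e1.trans e2.symm) (fun _ => 1) i b = 0 := by
        simp only [monoMat, Matrix.of_apply]
        exact if_neg (fun h' => hb h'.symm)
      rw [this, zero_mul]
    · simp
  rw [h, add_comm]
  exact LW.mul (IsMono.isStep ⟨_, _, rfl⟩).lw (hA.submatrix e2)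

/-- the Fourier matrix -/
def fmat (N : ℕ) (z : ℂ) : Matrix (Fin N) (Fin N) ℂ := Matrix.of fun j k => z ^ (j.val * k.val)

theorem isMatch_upper : IsMatch (Matrix.fromBlocks 1 1 0 1 : Matrix (q ⊕ q) (q ⊕ q) ℂ) := by
  refine ⟨Sum.swap, Sum.elim (fun _ => 1) (fun _ => 0), ?_, ?_, ?_⟩
  · rintro (i | i) <;> rfl
  · rintro (i | i) <;> simp
  · ext (i | i) (j | j) <;> simp [matchMat, Matrix.one_apply]

theorem isMatch_lower : IsMatch (Matrix.fromBlocks 1 0 1 1 : Matrix (q ⊕ q) (q ⊕ q) ℂ) := by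
  refine ⟨Sum.swap, Sum.elim (fun _ => 0) (fun _ => 1), ?_, ?_, ?_⟩
  · rintro (i | i) <;> rfl
  · rintro (i | i) <;> simp
  · ext (i | i) (j | j) <;> simp [matchMat, Matrix.one_apply]

theorem fromBlocks_diagonal' (c c' : q → ℂ) :
    Matrix.fromBlocks (Matrix.diagonal c) 0 0 (Matrix.diagonal c')
      = Matrix.diagonal (Sum.elim c c') := Matrix.fromBlocks_diagonal c c'

theorem lw_butterfly : LW 3 (Matrix.fromBlocks 1 1 1 (-1) : Matrix (q ⊕ q) (q ⊕ q) ℂ) := by
  have h : (Matrix.fromBlocks 1 1 1 (-1) : Matrix (q ⊕ q) (q ⊕ q) ℂ)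
      = (Matrix.fromBlocks 1 0 1 1 : Matrix (q ⊕ q) (q ⊕ q) ℂ) *
        (Matrix.diagonal (Sum.elim (fun _ => (1 : ℂ)) (fun _ => (-2 : ℂ))) *
        (Matrix.fromBlocks 1 1 0 1 : Matrix (q ⊕ q) (q ⊕ q) ℂ)) := by
    rw [← fromBlocks_diagonal']
    have h2 : (Matrix.diagonal fun _ : q => (-2 : ℂ)) = -1 + -1 := by
      ext i j
      by_cases hij : i = j
      · subst hij; simp; norm_num
      · simp [hij]
    rw [h2, show (Matrix.diagonal fun _ : q => (1 : ℂ)) = 1 from rfl]
    simp [Matrix.fromBlocks_multiply]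
  rw [h]
  exact LW.mul (isMatch_lower.isStep.lw) (LW.mul (LW.diagonal _) isMatch_upper.isStep.lw)

/-- even/odd splitting -/
theorem exists_evenOdd (M : ℕ) : ∃ e : Fin M ⊕ Fin M ≃ Fin (M + M),
    (∀ j, (e (Sum.inl j)).val = 2 * j.val) ∧ (∀ j, (e (Sum.inr j)).val = 2 * j.val + 1) := by
  let f : Fin M ⊕ Fin M → Fin (M + M) :=
    Sum.elim (fun j => ⟨2 * j.val, by omega⟩) (fun j => ⟨2 * j.val + 1, by omega⟩)
  have hf : Function.Injective f := by
    rintro (i | i) (j | j) h
    · have : 2 * i.val = 2 * j.val := congrArg Fin.val h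
      congr 1; ext; omega
    · have : 2 * i.val = 2 * j.val + 1 := congrArg Fin.val h
      omega
    · have : 2 * i.val + 1 = 2 * j.val := congrArg Fin.val h
      omega
    · have : 2 * i.val + 1 = 2 * j.val + 1 := congrArg Fin.val h
      congr 1; ext; omega
  have hb : Function.Bijective f := by
    rw [Fintype.bijective_iff_injective_and_card]
    exact ⟨hf, by simp⟩
  exact ⟨Equiv.ofBijective f hb, fun j => rfl, fun j => rfl⟩

theorem lw_fmat_two_pow (m : ℕ) : ∀ (N : ℕ) (z : ℂ), N = 2 ^ m → IsPrimitiveRoot z N →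
    LW (5 * m) (fmat N z) := by
  induction m with
  | zero =>
    intro N z hN hz
    have hN' : N = 1 := by simpa using hN
    subst hN'
    have : fmat 1 z = 1 := by
      ext i j
      have hi : i = 0 := Subsingleton.elim _ _
      have hj : j = 0 := Subsingleton.elim _ _
      subst hi hj
      simp [fmat]
    rw [this]; exact LW.one
  | succ m ih =>
    intro N z hN hz
    obtain ⟨M, hM⟩ : ∃ M, M = 2 ^ m := ⟨_, rfl⟩
    have hN' : N = M + M := by rw [hN, hM, pow_succ]; ring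
    subst hN'
    have hM0 : 0 < M := by rw [hM]; positivity
    have hz2 : IsPrimitiveRoot (z ^ 2) M := hz.pow (by omega) (by ring)
    have hzM : z ^ M = -1 := by
      have h1 : (z ^ M) ^ 2 = 1 := by rw [← pow_mul, mul_two]; exact hz.pow_eq_one
      have h2 : z ^ M ≠ 1 := hz.pow_ne_one_of_pos_of_lt hM0.ne' (by omega)
      have h3 : (z ^ M - 1) * (z ^ M + 1) = 0 := by linear_combination h1
      rcases mul_eq_zero.mp h3 with h | h
      · exact absurd (sub_eq_zero.mp h) h2
      · linear_combination h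
    have ih' := ih M (z ^ 2) hM hz2
    obtain ⟨e, he1, he2⟩ := exists_evenOdd M
    have key : fmat (M + M) z = (Matrix.fromBlocks (fmat M (z ^ 2)) 0 0 (fmat M (z ^ 2)) *
        (Matrix.diagonal (Sum.elim (fun _ => (1 : ℂ)) (fun k : Fin M => z ^ k.val)) *
        (Matrix.fromBlocks 1 1 1 (-1) : Matrix (Fin M ⊕ Fin M) (Fin M ⊕ Fin M) ℂ))).submatrix
          e.symm finSumFinEquiv.symm := by
      suffices h : (fmat (M + M) z).submatrix e finSumFinEquiv =
          (Matrix.fromBlocks (fmat M (z ^ 2)) 0 0 (fmat M (z ^ 2)) *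
        (Matrix.diagonal (Sum.elim (fun _ => (1 : ℂ)) (fun k : Fin M => z ^ k.val)) *
        (Matrix.fromBlocks 1 1 1 (-1) : Matrix (Fin M ⊕ Fin M) (Fin M ⊕ Fin M) ℂ))) by
        rw [← h]; ext i j; simp
      rw [← fromBlocks_diagonal', Matrix.fromBlocks_multiply, Matrix.fromBlocks_multiply]
      ext (j | j) (k | k)
      · simp [fmat, he1]
        ring
      · simp [fmat, he1]
        rw [mul_add, pow_add, mul_assoc 2 j.val M, mul_comm j.val M, ← mul_assoc, pow_mul z (2 * M),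
          mul_comm 2 M, pow_mul z M 2, hzM]
        simp
        ring
      · simp [fmat, he2]
        ring
      · simp [fmat, he2]
        have : z ^ ((2 * j.val + 1) * (k.val + M)) = (z ^ M) ^ (2 * j.val + 1) *
            (z ^ (2 * (j.val * k.val)) * z ^ k.val) := by ring
        rw [this, hzM, Odd.neg_one_pow ⟨_, rfl⟩]
        ring
    rw [key]
    have h3 := ((ih'.fromBlocks ih').mul ((LW.diagonal (Sum.elim (fun _ : Fin M => (1 : ℂ))
      (fun k : Fin M => z ^ k.val))).mul (lw_butterfly (q := Fin M)))).submatrix2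
        e.symm finSumFinEquiv.symm
    exact h3.mono (by omega)

/-! ### Convolution operators -/

theorem sum_zpow_eq {H : ℕ} {z : ℂ} (hz : IsPrimitiveRoot z H) (x : ℤ) :
    ∑ k : Fin H, z ^ (x * (k.val : ℤ)) = if (H : ℤ) ∣ x then (H : ℂ) else 0 := by
  by_cases h : (H : ℤ) ∣ x
  · rw [if_pos h]
    have : ∀ k : Fin H, z ^ (x * (k.val : ℤ)) = 1 := fun k => by
      rw [_root_.zpow_mul, (hz.zpow_eq_one_iff_dvd x).mpr h, _root_.one_zpow]
    simp [this]
  · rw [if_neg h]
    have h1 : z ^ x ≠ 1 := fun h' => h ((hz.zpow_eq_one_iff_dvd x).mp h')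
    have h2 : ∑ k : Fin H, z ^ (x * (k.val : ℤ)) = ∑ k ∈ Finset.range H, (z ^ x) ^ k := by
      rw [Finset.sum_range]
      refine Finset.sum_congr rfl fun k _ => ?_
      rw [_root_.zpow_mul, zpow_natCast]
    rw [h2, geom_sum_eq h1]
    have h3 : (z ^ x) ^ H = 1 := by
      rw [← zpow_natCast, ← _root_.zpow_mul, mul_comm, _root_.zpow_mul, zpow_natCast, hz.pow_eq_one, _root_.one_zpow]
    rw [h3]; simp

/-- the inverse Fourier matrix -/
noncomputable def fmatInv (H : ℕ) (z : ℂ) : Matrix (Fin H) (Fin H) ℂ :=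
  Matrix.diagonal (fun _ => (H : ℂ)⁻¹) * fmat H z⁻¹

theorem fmat_mul_inv {H : ℕ} (hH : 0 < H) {z : ℂ} (hz : IsPrimitiveRoot z H) :
    fmat H z * fmatInv H z = 1 := by
  have hz0 : z ≠ 0 := hz.ne_zero hH.ne'
  have hHc : (H : ℂ) ≠ 0 := by exact_mod_cast hH.ne'
  ext i j
  have h1 : (fmat H z * fmatInv H z) i j
      = (H : ℂ)⁻¹ * ∑ k : Fin H, z ^ (((i.val : ℤ) - j.val) * (k.val : ℤ)) := by
    rw [Matrix.mul_apply, Finset.mul_sum]
    refine Finset.sum_congr rfl fun k _ => ?_
    rw [fmatInv, Matrix.diagonal_mul, fmat, fmat, Matrix.of_apply, Matrix.of_apply, sub_mul,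
      zpow_sub₀ hz0, inv_pow, ← zpow_natCast, ← zpow_natCast]
    push_cast
    rw [mul_comm (k.val : ℤ) (j.val : ℤ)]
    field_simp
  rw [h1, sum_zpow_eq hz, Matrix.one_apply]
  by_cases hij : i = j
  · subst hij
    rw [if_pos rfl, sub_self, if_pos (dvd_zero _), inv_mul_cancel₀ hHc]
  · rw [if_neg hij, if_neg, mul_zero]
    intro hd
    have := Int.eq_zero_of_abs_lt_dvd hd (by rw [abs_lt]; constructor <;> omega)
    exact hij (Fin.ext (by omega))

theorem fmatInv_mul {H : ℕ} (hH : 0 < H) {z : ℂ} (hz : IsPrimitiveRoot z H) :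
    fmatInv H z * fmat H z = 1 := by
  exact mul_eq_one_comm.mp (fmat_mul_inv hH hz)

/-- convolution operator with eigenvalues `δ` -/
noncomputable def conv (H : ℕ) (z : ℂ) (δ : Fin H → ℂ) : Matrix (Fin H) (Fin H) ℂ :=
  fmatInv H z * Matrix.diagonal δ * fmat H z

theorem conv_mul_inv {H : ℕ} (hH : 0 < H) {z : ℂ} (hz : IsPrimitiveRoot z H) {δ : Fin H → ℂ}
    (hδ : ∀ k, δ k ≠ 0) : conv H z (fun k => (δ k)⁻¹) * conv H z δ = 1 := by
  unfold conv
  calc _ = fmatInv H z * Matrix.diagonal (fun k => (δ k)⁻¹) * (fmat H z * fmatInv H z) *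
        Matrix.diagonal δ * fmat H z := by simp only [Matrix.mul_assoc]
    _ = fmatInv H z * (Matrix.diagonal (fun k => (δ k)⁻¹) * Matrix.diagonal δ) * fmat H z := by
        rw [fmat_mul_inv hH hz, Matrix.mul_one]; simp only [Matrix.mul_assoc]
    _ = 1 := by
        rw [Matrix.diagonal_mul_diagonal]
        have : (fun i => (δ i)⁻¹ * δ i) = fun _ => (1 : ℂ) := by
          ext k; exact inv_mul_cancel₀ (hδ k)
        rw [this, Matrix.diagonal_one, Matrix.mul_one, fmatInv_mul hH hz]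

theorem conv_apply {H : ℕ} (hH : 0 < H) {z : ℂ} (hz : IsPrimitiveRoot z H) (δ : Fin H → ℂ)
    (r j : Fin H) : conv H z δ r j
      = (H : ℂ)⁻¹ * ∑ k : Fin H, δ k * z ^ (((j.val : ℤ) - r.val) * (k.val : ℤ)) := by
  have hz0 : z ≠ 0 := hz.ne_zero hH.ne'
  rw [conv, Matrix.mul_apply, Finset.mul_sum]
  refine Finset.sum_congr rfl fun k _ => ?_
  rw [Matrix.mul_diagonal, fmatInv, Matrix.diagonal_mul, fmat, fmat, Matrix.of_apply,
    Matrix.of_apply, sub_mul, zpow_sub₀ hz0, inv_pow, ← zpow_natCast, ← zpow_natCast]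
  push_cast
  rw [mul_comm (k.val : ℤ) (j.val : ℤ)]
  field_simp

theorem exists_symbol {H p q : ℕ} (hH : 0 < H) (hpq : p + q ≤ H) {z : ℂ}
    (hz : IsPrimitiveRoot z H) (a : ℤ → ℂ) : ∃ δ : Fin H → ℂ, (∀ k, δ k ≠ 0) ∧
      ∀ r j : Fin H, r.val < p → j.val < q → conv H z δ r j = a ((r.val : ℤ) - j.val) := by
  have hz0 : z ≠ 0 := hz.ne_zero hH.ne'
  have hHc : (H : ℂ) ≠ 0 := by exact_mod_cast hH.ne'
  set b : Fin H → ℂ := fun k => ∑ d ∈ Finset.Ioo (-(q : ℤ)) p, a d * z ^ (d * (k.val : ℤ)) with hb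
  obtain ⟨t, ht⟩ := Infinite.exists_notMem_finset
    ((Finset.univ : Finset (Fin H)).image fun k => -b k / z ^ ((p : ℤ) * (k.val : ℤ)))
  refine ⟨fun k => b k + t * z ^ ((p : ℤ) * (k.val : ℤ)), fun k hk => ht ?_, ?_⟩
  · rw [Finset.mem_image]
    refine ⟨k, Finset.mem_univ _, ?_⟩
    have hne : z ^ ((p : ℤ) * (k.val : ℤ)) ≠ 0 := zpow_ne_zero _ hz0
    field_simp
    linear_combination -hk
  · intro r j hr hj
    rw [conv_apply hH hz]
    have h1 : ∑ k : Fin H, (b k + t * z ^ ((p : ℤ) * (k.val : ℤ))) *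
        z ^ (((j.val : ℤ) - r.val) * (k.val : ℤ))
        = ∑ d ∈ Finset.Ioo (-(q : ℤ)) p, a d * (if (H : ℤ) ∣ d + (j.val - r.val) then (H : ℂ) else 0)
          + t * (if (H : ℤ) ∣ p + ((j.val : ℤ) - r.val) then (H : ℂ) else 0) := by
      rw [← sum_zpow_eq hz]
      simp_rw [← sum_zpow_eq hz]
      simp_rw [hb, add_mul, Finset.sum_mul, Finset.sum_add_distrib]
      rw [Finset.sum_comm]
      congr 1
      · refine Finset.sum_congr rfl fun d _ => ?_
        rw [Finset.mul_sum]
        refine Finset.sum_congr rfl fun k _ => ?_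
        rw [zpow_add₀ hz0]; ring
      · rw [Finset.mul_sum]
        refine Finset.sum_congr rfl fun k _ => ?_
        rw [zpow_add₀ hz0]; ring
    rw [h1, if_neg, mul_zero, add_zero, Finset.sum_eq_single ((r.val : ℤ) - j.val)]
    · rw [if_pos (by simp)]; field_simp
    · intro d hd hne
      rw [Finset.mem_Ioo] at hd
      rw [if_neg, mul_zero]
      intro hdv
      have := Int.eq_zero_of_abs_lt_dvd hdv (by rw [abs_lt]; constructor <;> omega)
      exact hne (by omega)
    · intro hn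
      exact absurd (Finset.mem_Ioo.mpr ⟨by omega, by omega⟩) hn
    · intro hdv
      have := Int.eq_zero_of_abs_lt_dvd hdv (by rw [abs_lt]; constructor <;> omega)
      omega

/-! ### Additive Toeplitz operations -/

theorem lw_fmatInv {m H : ℕ} (hH : H = 2 ^ m) {z : ℂ} (hz : IsPrimitiveRoot z H) :
    LW (5 * m + 1) (fmatInv H z) := by
  rw [add_comm]
  exact LW.mul (LW.diagonal _) (lw_fmat_two_pow m H z⁻¹ hH hz.inv)

theorem lw_conv {m H : ℕ} (hH : H = 2 ^ m) {z : ℂ} (hz : IsPrimitiveRoot z H) (δ : Fin H → ℂ) :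
    LW (10 * m + 2) (conv H z δ) :=
  (((lw_fmatInv hH hz).mul (LW.diagonal δ)).mul (lw_fmat_two_pow m H z hH hz)).mono (by omega)

variable {α β γ : Type*} [Fintype α] [DecidableEq α] [Fintype β] [DecidableEq β]
  [Fintype γ] [DecidableEq γ]

theorem loc_mul_emb {f : α → q} {g : β → q} (h : ∀ a b, f a ≠ g b) (A : Matrix α α ℂ) :
    loc f A * emb g = emb g := by
  unfold loc
  rw [Matrix.add_mul, Matrix.mul_assoc (emb f * (A - 1)), emb_transpose_mul h]
  simp

theorem emb_transpose_mul_loc {f : α → q} (hf : Function.Injective f) (A : Matrix α α ℂ) :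
    (emb f)ᵀ * loc f A = A * (emb f)ᵀ := by
  unfold loc
  rw [Matrix.mul_add, ← Matrix.mul_assoc, ← Matrix.mul_assoc, emb_transpose_mul_self hf,
    Matrix.one_mul, Matrix.sub_mul, Matrix.one_mul, Matrix.mul_one]
  abel

theorem addm_conj {f : γ → q} {w : β → q} (hw : Function.Injective w)
    (hwf : ∀ b c, w b ≠ f c) (A : Matrix γ β ℂ) {C C' : Matrix β β ℂ} (h : C' * C = 1) :
    loc w C' * addm f w A * loc w C = addm f w (A * C) := by
  have h1 : loc w C' * (emb f * A * (emb w)ᵀ) * loc w C = emb f * (A * C) * (emb w)ᵀ := by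
    calc _ = (loc w C' * emb f) * A * ((emb w)ᵀ * loc w C) := by simp only [Matrix.mul_assoc]
      _ = _ := by rw [loc_mul_emb hwf, emb_transpose_mul_loc hw]; simp only [Matrix.mul_assoc]
  unfold addm
  rw [Matrix.mul_add, Matrix.add_mul, h1, Matrix.mul_one, ← loc_mul hw, h, loc_one]

theorem isMatch_addm_emb_left {f : γ → q} {w : β → q} {c : γ → β} (hf : Function.Injective f)
    (hw : Function.Injective w) (hc : Function.Injective c) (hwf : ∀ b c, w b ≠ f c) (s : ℂ) :
    IsMatch (addm f w (s • (emb c)ᵀ)) := by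
  have : addm f w (s • (emb c)ᵀ) = addm f (w ∘ c) (Matrix.diagonal fun _ => s) := by
    unfold addm
    rw [emb_comp, Matrix.transpose_mul, ← Matrix.smul_one_eq_diagonal]
    simp [Matrix.mul_assoc]
  rw [this]
  exact isMatch_addm_diagonal hf (hw.comp hc) (fun a b => hwf _ _) _

theorem isMatch_addm_emb_right {w : β → q} {g : α → q} {e : α → β} (hg : Function.Injective g)
    (hw : Function.Injective w) (he : Function.Injective e) (hgw : ∀ a b, g a ≠ w b) (s : ℂ) :
    IsMatch (addm w g (s • emb e)) := by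
  have : addm w g (s • emb e) = addm (w ∘ e) g (Matrix.diagonal fun _ => s) := by
    unfold addm
    rw [emb_comp, ← Matrix.smul_one_eq_diagonal]
    simp [Matrix.mul_assoc]
  rw [this]
  exact isMatch_addm_diagonal (hw.comp he) hg (fun a b => hgw _ _) _

theorem emb_transpose_mul_mul_emb (c : γ → β) (e : α → β) (C : Matrix β β ℂ) :
    (emb c)ᵀ * C * emb e = C.submatrix c e := by
  ext i j
  simp [emb, Matrix.mul_apply]

/-- additive Toeplitz operation through dirty registers -/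
theorem lw_toepAdd {m p q' H : ℕ} (hH : H = 2 ^ m) (hpq : p + q' ≤ H) {f : Fin p → q}
    {g : Fin q' → q} {w : Fin H → q} (hf : Function.Injective f) (hg : Function.Injective g)
    (hw : Function.Injective w) (hgf : ∀ a c, g a ≠ f c) (hgw : ∀ a b, g a ≠ w b)
    (hwf : ∀ b c, w b ≠ f c) (a : ℤ → ℂ) :
    LW (40 * m + 12)
      (addm f g (Matrix.of fun (i : Fin p) (j : Fin q') => a ((i.val : ℤ) - j.val))) := by
  have hH0 : 0 < H := by rw [hH]; positivity
  obtain ⟨z, hz⟩ : ∃ z : ℂ, IsPrimitiveRoot z H := ⟨_, Complex.isPrimitiveRoot_exp H hH0.ne'⟩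
  obtain ⟨δ, hδ, hA⟩ := exists_symbol hH0 hpq hz a
  let c : Fin p → Fin H := Fin.castLE (by omega)
  let e : Fin q' → Fin H := Fin.castLE (by omega)
  have hc : Function.Injective c := Fin.castLE_injective _
  have he : Function.Injective e := Fin.castLE_injective _
  have hAe : (Matrix.of fun (i : Fin p) (j : Fin q') => a ((i.val : ℤ) - j.val))
      = ((emb c)ᵀ * conv H z δ) * emb e := by
    rw [emb_transpose_mul_mul_emb]
    ext i j
    rw [Matrix.submatrix_apply, hA _ _ i.2 j.2]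
    rfl
  have hC : ∀ s : ℂ, LW (20 * m + 5) (addm f w (s • (emb c)ᵀ * conv H z δ)) := fun s => by
    rw [← addm_conj hw hwf (s • (emb c)ᵀ) (conv_mul_inv hH0 hz hδ)]
    exact ((((lw_conv hH hz _).loc hw).mul
      (isMatch_addm_emb_left hf hw hc hwf s).isStep.lw).mul ((lw_conv hH hz _).loc hw)).mono
        (by omega)
  have hE : ∀ s : ℂ, LW 1 (addm w g (s • emb e)) := fun s =>
    (isMatch_addm_emb_right hg hw he hgw s).isStep.lw
  rw [hAe, ← addm_commutator hw hgf hgw hwf]
  have h1 := hC (-1)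
  have h2 := hC 1
  have h3 := hE (-1)
  have h4 := hE 1
  rw [one_smul] at h2 h4
  rw [neg_one_smul, Matrix.neg_mul] at h1
  rw [neg_one_smul] at h3
  exact (((h1.mul h3).mul h2).mul h4).mono (by omega)

end Crest.Agent.R324
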