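import Mathlib

/-!
# The q-Pascal factorisation of the discrete Fourier matrix

For `z` a primitive `N`-th root of unity, `(z ^ (j k))_{j,k<N} = D₁ T D₂ Tᵀ D₁` with `D₁, D₂`
diagonal (non-zero entries) and `T` unipotent lower triangular Toeplitz.
-/

set_option autoImplicit false

namespace Crest.Agent.R324

open Finset

namespace QPascal

variable {K : Type*} [Field K]

/-- `g m = ∏_{i=1}^m (z^i - 1)`. -/
def g (z : K) (m : ℕ) : K := ∏ i ∈ range m, (z ^ (i + 1) - 1)

@[simp] theorem g_zero (z : K) : g z 0 = 1 := by simp [g]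

theorem g_succ (z : K) (m : ℕ) : g z (m + 1) = g z m * (z ^ (m + 1) - 1) := by
  simp [g, prod_range_succ]

/-- Gaussian binomials. -/
def qb (z : K) : ℕ → ℕ → K
  | _, 0 => 1
  | 0, _ + 1 => 0
  | j + 1, i + 1 => qb z j i + z ^ (i + 1) * qb z j (i + 1)

@[simp] theorem qb_zero_right (z : K) (j : ℕ) : qb z j 0 = 1 := by
  cases j <;> rfl

@[simp] theorem qb_zero_succ (z : K) (i : ℕ) : qb z 0 (i + 1) = 0 := rfl

theorem qb_succ_succ (z : K) (j i : ℕ) :
    qb z (j + 1) (i + 1) = qb z j i + z ^ (i + 1) * qb z j (i + 1) := rfl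

theorem qb_eq_zero (z : K) {j i : ℕ} (h : j < i) : qb z j i = 0 := by
  induction j generalizing i with
  | zero =>
    obtain ⟨i', rfl⟩ : ∃ i', i = i' + 1 := ⟨i - 1, by omega⟩
    rfl
  | succ j ih =>
    obtain ⟨i', rfl⟩ : ∃ i', i = i' + 1 := ⟨i - 1, by omega⟩
    rw [qb_succ_succ, ih (by omega), ih (by omega)]; simp

theorem qb_self (z : K) (j : ℕ) : qb z j j = 1 := by
  induction j with
  | zero => rfl
  | succ j ih => rw [qb_succ_succ, ih, qb_eq_zero z (Nat.lt_succ_self j)]; simp

theorem qb_mul (z : K) (j i : ℕ) (h : i ≤ j) : qb z j i * (g z i * g z (j - i)) = g z j := by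
  induction j generalizing i with
  | zero =>
    obtain rfl : i = 0 := by omega
    simp
  | succ j ih =>
    cases i with
    | zero => simp
    | succ i =>
      rw [qb_succ_succ]
      have h1 := ih i (by omega)
      rcases Nat.lt_or_ge j (i + 1) with h2 | h2
      · obtain rfl : i = j := by omega
        rw [qb_eq_zero z (Nat.lt_succ_self i), qb_self]
        simp
      · have h3 := ih (i + 1) h2
        have e1 : j + 1 - (i + 1) = (j - (i + 1)) + 1 := by omega
        have e2 : j - i = (j - (i + 1)) + 1 := by omega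
        rw [e1, g_succ z i, g_succ z (j - (i + 1)), g_succ z j]
        rw [e2, g_succ z (j - (i + 1))] at h1
        rw [g_succ z i] at h3
        have e3 : z ^ (i + 1) * z ^ (j - (i + 1) + 1) = z ^ (j + 1) := by
          rw [← pow_add]; congr 1; omega
        linear_combination (z ^ (i + 1) - 1) * h1 +
          z ^ (i + 1) * (z ^ (j - (i + 1) + 1) - 1) * h3 + g z j * e3

/-- Newton polynomials at the nodes `z^l`. -/
def P (z x : K) (m : ℕ) : K := ∏ l ∈ range m, (x - z ^ l)

theorem P_succ (z x : K) (m : ℕ) : P z x (m + 1) = P z x m * (x - z ^ m) := by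
  simp [P, prod_range_succ]

theorem pow_eq_sum (z x : K) (j : ℕ) : x ^ j = ∑ i ∈ range (j + 1), qb z j i * P z x i := by
  induction j with
  | zero => simp [P]
  | succ j ih =>
    have h1 : ∀ i, x * P z x i = P z x (i + 1) + z ^ i * P z x i := by
      intro i; rw [P_succ]; ring
    calc x ^ (j + 1) = ∑ i ∈ range (j + 1), qb z j i * (x * P z x i) := by
          rw [pow_succ, ih, sum_mul]
          exact sum_congr rfl fun i _ => by ring
      _ = ∑ i ∈ range (j + 1), qb z j i * P z x (i + 1)
            + ∑ i ∈ range (j + 1), z ^ i * qb z j i * P z x i := by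
          rw [← sum_add_distrib]
          exact sum_congr rfl fun i _ => by rw [h1]; ring
      _ = ∑ i ∈ range (j + 1), qb z j i * P z x (i + 1)
            + ∑ i ∈ range (j + 2), z ^ i * qb z j i * P z x i := by
          congr 1
          rw [sum_range_succ _ (j + 1), qb_eq_zero z (Nat.lt_succ_self j)]
          simp
      _ = ∑ i ∈ range (j + 1), qb z j i * P z x (i + 1)
            + (∑ i ∈ range (j + 1), z ^ (i + 1) * qb z j (i + 1) * P z x (i + 1)
              + z ^ 0 * qb z j 0 * P z x 0) := by
          congr 1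
          rw [sum_range_succ']
      _ = (∑ i ∈ range (j + 1), qb z (j + 1) (i + 1) * P z x (i + 1))
            + qb z (j + 1) 0 * P z x 0 := by
          rw [← add_assoc, ← sum_add_distrib]
          congr 1
          · exact sum_congr rfl fun i _ => by rw [qb_succ_succ]; ring
          · simp
      _ = ∑ i ∈ range (j + 2), qb z (j + 1) i * P z x i := by
          rw [sum_range_succ' _ (j + 1)]

theorem P_pow_mul (z : K) (k i : ℕ) (h : i ≤ k) :
    P z (z ^ k) i * g z (k - i) = z ^ (i.choose 2) * g z k := by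
  induction i with
  | zero => simp [P]
  | succ i ih =>
    have h1 := ih (by omega)
    have e1 : k - i = (k - (i + 1)) + 1 := by omega
    rw [e1, g_succ] at h1
    have e2 : z ^ i * z ^ (k - (i + 1) + 1) = z ^ k := by
      rw [← pow_add]; congr 1; omega
    have e3 : (i + 1).choose 2 = i + i.choose 2 := by
      rw [Nat.choose_succ_succ' i 1]; simp
    rw [P_succ, e3, pow_add]
    linear_combination z ^ i * h1 - P z (z ^ k) i * g z (k - (i + 1)) * e2

theorem P_pow_eq_zero (z : K) (k i : ℕ) (h : k < i) : P z (z ^ k) i = 0 := by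
  unfold P
  exact prod_eq_zero (mem_range.2 h) (sub_self _)

/-- The key scalar identity. -/
theorem pow_mul_eq (z : K) (N : ℕ) (hg : ∀ m < N, g z m ≠ 0) (j k : ℕ) (hj : j < N) (hk : k < N) :
    z ^ (j * k) = g z j * (∑ i ∈ range N,
      (if i ≤ j then (g z (j - i))⁻¹ else 0) * (z ^ (i.choose 2) * (g z i)⁻¹) *
      (if i ≤ k then (g z (k - i))⁻¹ else 0)) * g z k := by
  have h1 : z ^ (j * k) = ∑ i ∈ range N, qb z j i * P z (z ^ k) i := by
    rw [mul_comm j k, pow_mul, pow_eq_sum z (z ^ k) j]
    apply sum_subset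
    · intro i hi; rw [mem_range] at *; omega
    · intro i _ hi
      rw [mem_range] at hi
      rw [qb_eq_zero z (by omega)]; simp
  rw [h1, mul_sum, sum_mul]
  refine sum_congr rfl fun i hi => ?_
  rw [mem_range] at hi
  by_cases h2 : i ≤ j
  · by_cases h3 : i ≤ k
    · rw [if_pos h2, if_pos h3]
      have h4 := qb_mul z j i h2
      have h5 := P_pow_mul z k i h3
      have n1 : g z (j - i) ≠ 0 := hg _ (by omega)
      have n2 : g z (k - i) ≠ 0 := hg _ (by omega)
      have n3 : g z i ≠ 0 := hg _ (by omega)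
      have h6 : qb z j i = g z j * (g z i)⁻¹ * (g z (j - i))⁻¹ := by
        field_simp; linear_combination h4
      have h7 : P z (z ^ k) i = z ^ (i.choose 2) * g z k * (g z (k - i))⁻¹ := by
        field_simp; linear_combination h5
      rw [h6, h7]; ring
    · rw [if_neg h3, P_pow_eq_zero z k i (by omega)]; ring
  · rw [if_neg h2, qb_eq_zero z (by omega)]; ring

/-- The lower triangular Toeplitz matrix with symbol `c` (entry `c (j-i)` for `i ≤ j`). -/
def toep (N : ℕ) (c : ℕ → K) : Matrix (Fin N) (Fin N) K :=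
  Matrix.of fun j i => if i.val ≤ j.val then c (j.val - i.val) else 0

/-- **q-Pascal factorisation** of `(z ^ (j k))`. -/
theorem fourier_factor (z : K) (N : ℕ) (hg : ∀ m < N, g z m ≠ 0) :
    (Matrix.of fun j k : Fin N => z ^ (j.val * k.val)) =
      Matrix.diagonal (fun j : Fin N => g z j.val) * toep N (fun m => (g z m)⁻¹) *
      Matrix.diagonal (fun i : Fin N => z ^ (i.val.choose 2) * (g z i.val)⁻¹) *
      (toep N (fun m => (g z m)⁻¹)).transpose * Matrix.diagonal (fun j : Fin N => g z j.val) := by
  ext j k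
  rw [Matrix.of_apply, pow_mul_eq z N hg j k j.2 k.2, Matrix.mul_diagonal, Matrix.mul_apply]
  congr 1
  rw [mul_sum, Finset.sum_range]
  refine sum_congr rfl fun i _ => ?_
  rw [Matrix.mul_diagonal, Matrix.diagonal_mul, Matrix.transpose_apply, toep, Matrix.of_apply,
    Matrix.of_apply]
  ring

theorem g_ne_zero_of_primitive {z : K} {N : ℕ} (hz : IsPrimitiveRoot z N) (m : ℕ) (hm : m < N) :
    g z m ≠ 0 := by
  unfold g
  rw [prod_ne_zero_iff]
  intro i hi
  rw [mem_range] at hi
  rw [sub_ne_zero]
  exact hz.pow_ne_one_of_pos_of_lt (Nat.succ_ne_zero i) (by omega)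

end QPascal

end Crest.Agent.R324
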