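import Mathlib
import Crest.Agent.R324.Layers
import Crest.Agent.R324.QPascal
import Crest.Agent.R324.Fourier2

/-!
# Unipotent Toeplitz matrices acting on a set of registers, with dirty registers around
-/

set_option autoImplicit false
set_option linter.unusedSectionVars false
set_option linter.unusedSimpArgs false

namespace Crest.Agent.R324

open Matrix

variable {q : Type*} [Fintype q] [DecidableEq q]
variable {α β γ : Type*} [Fintype α] [DecidableEq α] [Fintype β] [DecidableEq β]
  [Fintype γ] [DecidableEq γ]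

/-! ### Two by two block words -/

theorem emb_elim_inl (f : α → q) (g : β → q) (i : q) (x : α) :
    emb (Sum.elim f g) i (Sum.inl x) = emb f i x := rfl

theorem emb_elim_inr (f : α → q) (g : β → q) (i : q) (x : β) :
    emb (Sum.elim f g) i (Sum.inr x) = emb g i x := rfl

theorem loc_sum_elim (f : α → q) (g : β → q) (A : Matrix α α ℂ) (B : Matrix α β ℂ)
    (C : Matrix β α ℂ) (D : Matrix β β ℂ) :
    loc (Sum.elim f g) (Matrix.fromBlocks A B C D) = 1 + (emb f * (A - 1) * (emb f)ᵀ +
      emb f * B * (emb g)ᵀ + emb g * C * (emb f)ᵀ + emb g * (D - 1) * (emb g)ᵀ) := by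
  have h1 : (Matrix.fromBlocks A B C D - 1 : Matrix (α ⊕ β) (α ⊕ β) ℂ)
      = Matrix.fromBlocks (A - 1) B C (D - 1) := by
    rw [← Matrix.fromBlocks_one]
    ext (i | i) (j | j) <;> simp [Matrix.one_apply]
  unfold loc
  rw [h1]
  congr 1
  ext i j
  simp only [Matrix.mul_apply, Matrix.add_apply, Matrix.transpose_apply, Fintype.sum_sum_type,
    emb_elim_inl, emb_elim_inr, Matrix.fromBlocks_apply₁₁,
    Matrix.fromBlocks_apply₁₂, Matrix.fromBlocks_apply₂₁, Matrix.fromBlocks_apply₂₂, add_mul,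
    Finset.sum_add_distrib]
  ring

theorem loc_upper (f : α → q) (g : β → q) (B : Matrix α β ℂ) :
    loc (Sum.elim f g) (Matrix.fromBlocks 1 B 0 1) = addm f g B := by
  rw [loc_sum_elim]; simp [addm]

theorem loc_lower (f : α → q) (g : β → q) (C : Matrix β α ℂ) :
    loc (Sum.elim f g) (Matrix.fromBlocks 1 0 C 1) = addm g f C := by
  rw [loc_sum_elim]; simp [addm]

theorem loc_left (f : α → q) (g : β → q) (A : Matrix α α ℂ) :
    loc (Sum.elim f g) (Matrix.fromBlocks A 0 0 1) = loc f A := by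
  rw [loc_sum_elim]; simp [loc]

theorem loc_right (f : α → q) (g : β → q) (A : Matrix β β ℂ) :
    loc (Sum.elim f g) (Matrix.fromBlocks 1 0 0 A) = loc g A := by
  rw [loc_sum_elim]; simp [loc]

theorem whitehead {f g : α → q} (hf : Function.Injective f) (hg : Function.Injective g)
    (hgf : ∀ a b, g a ≠ f b) {S S' D D' T : Matrix α α ℂ} (h1 : S * S' = 1)
    (hT : T = D * S * D' * S') :
    loc f T = loc f D * (addm f g S * addm g f (-S') * addm f g S) * loc g D' *
      (addm f g (-S) * addm g f S' * addm f g (-S)) := by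
  have h2 : S' * S = 1 := mul_eq_one_comm.mp h1
  have hinj : Function.Injective (Sum.elim f g) := by
    rintro (a | a) (b | b) h
    · rw [hf h]
    · exact absurd h.symm (hgf b a)
    · exact absurd h (hgf a b)
    · rw [hg h]
  rw [← loc_left f g T, ← loc_left f g D, ← loc_right f g D', ← loc_upper f g S,
    ← loc_upper f g (-S), ← loc_lower f g (-S'), ← loc_lower f g S']
  simp only [← loc_mul hinj]
  congr 1
  simp only [Matrix.fromBlocks_multiply, Matrix.mul_one, Matrix.one_mul, Matrix.mul_zero,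
    Matrix.zero_mul, add_zero, zero_add, Matrix.mul_neg, Matrix.neg_mul, h1, h2, neg_neg,
    add_neg_cancel, neg_add_cancel, neg_zero]
  rw [hT]
  try simp [Matrix.mul_assoc]

/-! ### The Toeplitz algebra -/

/-- lower triangular Toeplitz matrix of a power series -/
noncomputable def ptoep (n : ℕ) (f : PowerSeries ℂ) : Matrix (Fin n) (Fin n) ℂ :=
  Matrix.of fun j i => if i.val ≤ j.val then PowerSeries.coeff (j.val - i.val) f else 0

theorem ptoep_one (n : ℕ) : ptoep n 1 = 1 := by
  ext j i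
  simp only [ptoep, Matrix.of_apply, PowerSeries.coeff_one, Matrix.one_apply]
  by_cases h : j = i
  · subst h; simp
  · rw [if_neg h]
    by_cases h2 : i.val ≤ j.val
    · rw [if_pos h2, if_neg]
      intro h3
      exact h (Fin.ext (by omega))
    · rw [if_neg h2]

theorem ptoep_mul (n : ℕ) (f g : PowerSeries ℂ) : ptoep n (f * g) = ptoep n f * ptoep n g := by
  ext j i
  rw [Matrix.mul_apply]
  simp only [ptoep, Matrix.of_apply]
  by_cases h : i.val ≤ j.val
  · rw [if_pos h, PowerSeries.coeff_mul, ← Finset.sum_range (f := fun k => (if k ≤ j.val then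
      PowerSeries.coeff (j.val - k) f else 0) * (if i.val ≤ k then
      PowerSeries.coeff (k - i.val) g else 0)) (n := n)]
    rw [← Finset.Nat.sum_antidiagonal_swap, Finset.Nat.sum_antidiagonal_eq_sum_range_succ_mk]
    symm
    rw [← Finset.sum_subset (s₁ := Finset.Ico i.val (j.val + 1))]
    · rw [Finset.sum_Ico_eq_sum_range]
      have : j.val + 1 - i.val = (j.val - i.val).succ := by omega
      rw [this]
      refine Finset.sum_congr rfl fun k hk => ?_
      rw [Finset.mem_range] at hk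
      rw [if_pos (by omega), if_pos (by omega)]
      simp only [Prod.fst_swap, Prod.snd_swap]
      congr 3
      · omega
      · omega
    · intro k hk
      rw [Finset.mem_Ico] at hk
      rw [Finset.mem_range]
      omega
    · intro k _ hk
      rw [Finset.mem_Ico] at hk
      by_cases h3 : k ≤ j.val
      · rw [if_neg (c := i.val ≤ k) (by omega), mul_zero]
      · rw [if_neg h3, zero_mul]
  · rw [if_neg h]
    symm
    refine Finset.sum_eq_zero fun k _ => ?_
    by_cases h3 : k.val ≤ j.val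
    · rw [if_neg (c := i.val ≤ k.val) (by omega), mul_zero]
    · rw [if_neg h3, zero_mul]

/-- solution of `s(2x) = t(x) s(x)` -/
noncomputable def sol (t : ℕ → ℂ) : ℕ → ℂ
  | 0 => 1
  | k + 1 => (∑ l : Fin (k + 1), t (k + 1 - l.val) * sol t l.val) / (2 ^ (k + 1) - 1)
decreasing_by exact l.isLt

theorem sol_zero (t : ℕ → ℂ) : sol t 0 = 1 := by rw [sol]

theorem two_pow_sub_one_ne (k : ℕ) : (2 : ℂ) ^ (k + 1) - 1 ≠ 0 := by
  have h : (2 : ℝ) ^ (k + 1) - 1 ≠ 0 := by
    have : (1 : ℝ) < 2 ^ (k + 1) := one_lt_pow₀ (by norm_num) (Nat.succ_ne_zero k)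
    linarith
  intro h'
  apply h
  exact_mod_cast h'

theorem sol_spec {t : ℕ → ℂ} (ht : t 0 = 1) (k : ℕ) :
    2 ^ k * sol t k = ∑ l ∈ Finset.range (k + 1), t (k - l) * sol t l := by
  cases k with
  | zero => simp [ht]
  | succ k =>
    rw [Finset.sum_range_succ, Nat.sub_self, ht, one_mul, Finset.sum_range]
    have h1 : (2 ^ (k + 1) - 1) * sol t (k + 1) = ∑ l : Fin (k + 1), t (k + 1 - l.val) *
        sol t l.val := by
      conv_lhs => rw [sol]
      rw [mul_div_cancel₀ _ (two_pow_sub_one_ne k)]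
    rw [← h1]; ring

theorem exists_commutator (n : ℕ) {t : ℕ → ℂ} (ht : t 0 = 1) :
    ∃ s s' : ℕ → ℂ, QPascal.toep n s * QPascal.toep n s' = 1 ∧
      QPascal.toep n t = Matrix.diagonal (fun i : Fin n => (2 : ℂ) ^ i.val) * QPascal.toep n s *
        Matrix.diagonal (fun i : Fin n => ((2 : ℂ) ^ i.val)⁻¹) * QPascal.toep n s' := by
  set S : PowerSeries ℂ := PowerSeries.mk (sol t) with hS
  have hS0 : PowerSeries.constantCoeff S ≠ 0 := by
    rw [hS, ← PowerSeries.coeff_zero_eq_constantCoeff_apply, PowerSeries.coeff_mk, sol_zero]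
    exact one_ne_zero
  have hSS : S * S⁻¹ = 1 := PowerSeries.mul_inv_cancel S hS0
  have e1 : QPascal.toep n (sol t) = ptoep n S := by
    ext j i; simp [QPascal.toep, ptoep, hS]
  have e2 : QPascal.toep n (fun k => PowerSeries.coeff k S⁻¹) = ptoep n S⁻¹ := by
    ext j i; simp [QPascal.toep, ptoep]
  have e3 : QPascal.toep n t = ptoep n (PowerSeries.mk t) := by
    ext j i; simp [QPascal.toep, ptoep]
  have h1 : ptoep n S * ptoep n S⁻¹ = 1 := by rw [← ptoep_mul, hSS, ptoep_one]
  refine ⟨sol t, fun k => PowerSeries.coeff k S⁻¹, by rw [e1, e2, h1], ?_⟩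
  have h2 : PowerSeries.mk t * S = PowerSeries.mk fun k => 2 ^ k * sol t k := by
    ext k
    rw [PowerSeries.coeff_mul, PowerSeries.coeff_mk, sol_spec ht,
      ← Finset.Nat.sum_antidiagonal_swap, Finset.Nat.sum_antidiagonal_eq_sum_range_succ_mk]
    refine Finset.sum_congr rfl fun l _ => ?_
    simp [hS]
  have h3 : Matrix.diagonal (fun i : Fin n => (2 : ℂ) ^ i.val) * ptoep n S *
        Matrix.diagonal (fun i : Fin n => ((2 : ℂ) ^ i.val)⁻¹)
      = ptoep n (PowerSeries.mk fun k => 2 ^ k * sol t k) := by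
    ext j i
    rw [Matrix.mul_diagonal, Matrix.diagonal_mul]
    simp only [ptoep, Matrix.of_apply, PowerSeries.coeff_mk, hS]
    by_cases h : i.val ≤ j.val
    · rw [if_pos h, if_pos h, pow_sub₀ _ two_ne_zero h]; ring
    · rw [if_neg h, if_neg h]; simp
  rw [e1, e2, e3, h3, ← h2, ptoep_mul, Matrix.mul_assoc, h1, Matrix.mul_one]

/-- symbol on the integers -/
def toZ (s : ℕ → ℂ) (x : ℤ) : ℂ := if 0 ≤ x then s x.toNat else 0

theorem toep_eq (n : ℕ) (s : ℕ → ℂ) : QPascal.toep n s = Matrix.of fun (i j : Fin n) =>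
    toZ s ((i.val : ℤ) - j.val) := by
  ext i j
  simp only [QPascal.toep, Matrix.of_apply, toZ]
  by_cases h : j.val ≤ i.val
  · rw [if_pos h, if_pos (by omega)]
    congr 1; omega
  · rw [if_neg h, if_neg (by omega)]

theorem neg_toep_eq (n : ℕ) (s : ℕ → ℂ) : -QPascal.toep n s = Matrix.of fun (i j : Fin n) =>
    toZ (fun k => -s k) ((i.val : ℤ) - j.val) := by
  rw [toep_eq]
  ext i j
  simp only [Matrix.neg_apply, Matrix.of_apply, toZ]
  split_ifs <;> simp

/-- `T` on the registers `range f`, all other registers unchanged -/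
theorem lw_toepLoc {m n H : ℕ} (hH : H = 2 ^ m) (hn : n + n ≤ H) {f g : Fin n → q}
    {w : Fin H → q} (hf : Function.Injective f) (hg : Function.Injective g)
    (hw : Function.Injective w) (hgf : ∀ a c, g a ≠ f c) (hgw : ∀ a b, g a ≠ w b)
    (hwf : ∀ b c, w b ≠ f c) {t : ℕ → ℂ} (ht : t 0 = 1) :
    LW (240 * m + 74) (loc f (QPascal.toep n t)) := by
  obtain ⟨s, s', h1, h2⟩ := exists_commutator n ht
  rw [whitehead hf hg hgf h1 h2]
  have hfg : ∀ a c, f a ≠ g c := fun a c h => hgf c a h.symm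
  have hfw : ∀ a c, f a ≠ w c := fun a c h => hwf c a h.symm
  have hwg : ∀ a c, w a ≠ g c := fun a c h => hgw c a h.symm
  have a1 : LW (40 * m + 12) (addm f g (QPascal.toep n s)) := by
    rw [toep_eq]; exact lw_toepAdd hH hn hf hg hw hgf hgw hwf (toZ s)
  have a2 : LW (40 * m + 12) (addm f g (-QPascal.toep n s)) := by
    rw [neg_toep_eq]; exact lw_toepAdd hH hn hf hg hw hgf hgw hwf (toZ fun k => -s k)
  have a3 : LW (40 * m + 12) (addm g f (QPascal.toep n s')) := by
    rw [toep_eq]; exact lw_toepAdd hH hn hg hf hw hfg hfw hwg (toZ s')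
  have a4 : LW (40 * m + 12) (addm g f (-QPascal.toep n s')) := by
    rw [neg_toep_eq]; exact lw_toepAdd hH hn hg hf hw hfg hfw hwg (toZ fun k => -s' k)
  have d1 := (LW.diagonal (fun i : Fin n => (2 : ℂ) ^ i.val)).loc hf
  have d2 := (LW.diagonal (fun i : Fin n => ((2 : ℂ) ^ i.val)⁻¹)).loc hg
  exact (((d1.mul ((a1.mul a4).mul a1)).mul d2).mul ((a2.mul a3).mul a2)).mono (by omega)

end Crest.Agent.R324
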