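import Mathlib
import Crest.Agent.R324.Layers
import Crest.Agent.R324.QPascal
import Crest.Agent.R324.Fourier2
import Crest.Agent.R324.ToepLoc

/-!
# The Fourier matrix of any size `N` is a product of `O(log N)` steps
-/

set_option autoImplicit false
set_option linter.unusedSectionVars false
set_option linter.unusedSimpArgs false

namespace Crest.Agent.R324

open Matrix

variable {q : Type*} [Fintype q] [DecidableEq q]
variable {α β γ : Type*} [Fintype α] [DecidableEq α] [Fintype β] [DecidableEq β]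
  [Fintype γ] [DecidableEq γ]

/-- registers avoiding a given family -/
theorem exists_disjoint (F : α → q) (n : ℕ) (h : Fintype.card α + n ≤ Fintype.card q) :
    ∃ w : Fin n → q, Function.Injective w ∧ ∀ a b, w b ≠ F a := by
  classical
  have hc : Fintype.card (Fin n) ≤ Fintype.card {x : q // x ∉ Set.range F} := by
    rw [Fintype.card_fin, Fintype.card_subtype_compl]
    have h1 : Fintype.card {x : q // x ∈ Set.range F} ≤ Fintype.card α := by
      exact Fintype.card_range_le F
    omega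
  obtain ⟨e⟩ := Function.Embedding.nonempty_of_card_le hc
  refine ⟨fun i => (e i).1, fun i j hij => e.injective (Subtype.ext hij), fun a b hab => ?_⟩
  exact (e b).2 ⟨a, hab.symm⟩

theorem loc_equiv (f : α → q) (e : β ≃ α) (M : Matrix α α ℂ) :
    loc f M = loc (f ∘ e) (M.submatrix e e) := by
  unfold loc
  rw [emb_comp]
  have h : emb (e : β → α) * (M.submatrix e e - 1) * (emb (e : β → α))ᵀ = M - 1 := by
    have h1 : (M.submatrix e e - 1 : Matrix β β ℂ) = (M - 1).submatrix e e := by
      ext i j; simp [Matrix.one_apply]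
    rw [h1]
    ext i j
    obtain ⟨i, rfl⟩ := e.surjective i
    obtain ⟨j, rfl⟩ := e.surjective j
    simp [emb, Matrix.mul_apply]
  rw [← h]
  simp only [Matrix.transpose_mul, Matrix.mul_assoc]

theorem loc_id (M : Matrix q q ℂ) : loc id M = M := by
  have : emb (id : q → q) = 1 := by
    ext i j; simp [emb, Matrix.one_apply]
  simp [loc, this]

theorem loc_split {s1 s2 : ℕ} {f : Fin (s1 + s2) → q} (hf : Function.Injective f)
    {M : Matrix (Fin (s1 + s2)) (Fin (s1 + s2)) ℂ} {T1 : Matrix (Fin s1) (Fin s1) ℂ}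
    {A : Matrix (Fin s2) (Fin s1) ℂ} {T2 : Matrix (Fin s2) (Fin s2) ℂ}
    (h11 : ∀ i j, M (Fin.castAdd s2 i) (Fin.castAdd s2 j) = T1 i j)
    (h12 : ∀ i j, M (Fin.castAdd s2 i) (Fin.natAdd s1 j) = 0)
    (h21 : ∀ i j, M (Fin.natAdd s1 i) (Fin.castAdd s2 j) = A i j)
    (h22 : ∀ i j, M (Fin.natAdd s1 i) (Fin.natAdd s1 j) = T2 i j) :
    loc f M = loc (f ∘ Fin.castAdd s2) T1 * addm (f ∘ Fin.natAdd s1) (f ∘ Fin.castAdd s2) A *
      loc (f ∘ Fin.natAdd s1) T2 := by
  have he : f ∘ (finSumFinEquiv : Fin s1 ⊕ Fin s2 ≃ Fin (s1 + s2))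
      = Sum.elim (f ∘ Fin.castAdd s2) (f ∘ Fin.natAdd s1) := by
    ext (i | i) <;> simp
  have hM : M.submatrix (finSumFinEquiv : Fin s1 ⊕ Fin s2 ≃ Fin (s1 + s2)) finSumFinEquiv
      = Matrix.fromBlocks T1 0 0 1 * Matrix.fromBlocks 1 0 A 1 * Matrix.fromBlocks 1 0 0 T2 := by
    simp only [Matrix.fromBlocks_multiply, Matrix.mul_one, Matrix.one_mul, Matrix.mul_zero,
      Matrix.zero_mul, add_zero, zero_add]
    ext (i | i) (j | j)
    · simp [h11]
    · simp [h12]
    · simp [h21]
    · simp [h22]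
  have hinj : Function.Injective (Sum.elim (f ∘ Fin.castAdd s2) (f ∘ Fin.natAdd s1)) := by
    rw [← he]; exact hf.comp (Equiv.injective _)
  rw [loc_equiv f finSumFinEquiv, he, hM, loc_mul hinj, loc_mul hinj, loc_left, loc_right,
    loc_lower]

theorem addm_split {s1 s2 : ℕ} {f : Fin (s1 + s2) → q} {g : α → q}
    (hgf : ∀ a b, g a ≠ f b) (A : Matrix (Fin (s1 + s2)) α ℂ) :
    addm f g A = addm (f ∘ Fin.castAdd s2) g (A.submatrix (Fin.castAdd s2) id) *
      addm (f ∘ Fin.natAdd s1) g (A.submatrix (Fin.natAdd s1) id) := by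
  have h1 : emb f * A = emb (f ∘ Fin.castAdd s2) * A.submatrix (Fin.castAdd s2) id +
      emb (f ∘ Fin.natAdd s1) * A.submatrix (Fin.natAdd s1) id := by
    ext i j
    simp only [Matrix.mul_apply, Matrix.add_apply, Fin.sum_univ_add]
    rfl
  have h2 : (emb g)ᵀ * emb (f ∘ Fin.natAdd s1) = 0 :=
    emb_transpose_mul fun a b => hgf a _
  have h3 : emb (f ∘ Fin.castAdd s2) * A.submatrix (Fin.castAdd s2) id * (emb g)ᵀ *
      (emb (f ∘ Fin.natAdd s1) * A.submatrix (Fin.natAdd s1) id * (emb g)ᵀ) = 0 := by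
    calc _ = emb (f ∘ Fin.castAdd s2) * A.submatrix (Fin.castAdd s2) id *
        ((emb g)ᵀ * emb (f ∘ Fin.natAdd s1)) * A.submatrix (Fin.natAdd s1) id * (emb g)ᵀ := by
          simp only [Matrix.mul_assoc]
      _ = 0 := by rw [h2]; simp
  unfold addm
  rw [h1, Matrix.mul_add, Matrix.mul_one, Matrix.add_mul, Matrix.add_mul, h3, Matrix.one_mul]
  abel

/-- interval of registers -/
def iv (N a s : ℕ) (h : a + s ≤ N) : Fin s → Fin N := fun i => ⟨a + i.val, by omega⟩

theorem iv_injective {N a s : ℕ} (h : a + s ≤ N) : Function.Injective (iv N a s h) := by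
  intro i j hij
  have : a + i.val = a + j.val := congrArg Fin.val hij
  exact Fin.ext (by omega)

theorem iv_castAdd {N a s1 s2 : ℕ} (h : a + (s1 + s2) ≤ N) :
    iv N a (s1 + s2) h ∘ Fin.castAdd s2 = iv N a s1 (by omega) := by
  ext i; simp [iv]

theorem iv_natAdd {N a s1 s2 : ℕ} (h : a + (s1 + s2) ≤ N) :
    iv N a (s1 + s2) h ∘ Fin.natAdd s1 = iv N (a + s1) s2 (by omega) := by
  ext i; simp [iv, Nat.add_assoc]

theorem iv_ne {N a s b s' : ℕ} (h : a + s ≤ N) (h' : b + s' ≤ N) (hab : a + s ≤ b)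
    (i : Fin s) (j : Fin s') : iv N a s h i ≠ iv N b s' h' j := by
  intro hij
  have : a + i.val = b + j.val := congrArg Fin.val hij
  have := i.2
  omega

/-- basic operations are available on intervals of length at most `h` -/
structure Avail (N h L : ℕ) (c : ℕ → ℂ) : Prop where
  diag : ∀ (a s : ℕ) (ha : a + s ≤ N), s ≤ h → LW L (loc (iv N a s ha) (QPascal.toep s c))
  add : ∀ (a s b s' : ℕ) (ha : a + s ≤ N) (hb : b + s' ≤ N), a + s ≤ b → s ≤ h → s' ≤ h →
    ∀ u : ℤ → ℂ, LW L (addm (iv N b s' hb) (iv N a s ha)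
      (Matrix.of fun (i : Fin s') (j : Fin s) => u ((i.val : ℤ) - j.val)))

theorem addm_of_isEmpty {f : α → q} {g : β → q} (A : Matrix α β ℂ)
    (h : IsEmpty α ∨ IsEmpty β) : addm f g A = 1 := by
  have : A = 0 := by
    ext i j
    rcases h with h | h
    · exact (h.false i).elim
    · exact (h.false j).elim
  rw [this, addm_zero]

theorem Avail.addRows {N h L : ℕ} {c : ℕ → ℂ} (H : Avail N h L c) (k : ℕ) :
    ∀ (a s b s' : ℕ) (ha : a + s ≤ N) (hb : b + s' ≤ N), a + s ≤ b → s ≤ h → s' ≤ k * h →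
    ∀ u : ℤ → ℂ, LW (k * L) (addm (iv N b s' hb) (iv N a s ha)
      (Matrix.of fun (i : Fin s') (j : Fin s) => u ((i.val : ℤ) - j.val))) := by
  induction k with
  | zero =>
    intro a s b s' ha hb hab hs hs' u
    have : s' = 0 := by omega
    subst this
    rw [addm_of_isEmpty _ (Or.inl inferInstance), Nat.zero_mul]
    exact LW.one
  | succ k ih =>
    intro a s b s' ha hb hab hs hs' u
    obtain ⟨s1, s2, rfl, h1, h2⟩ : ∃ s1 s2, s' = s1 + s2 ∧ s1 ≤ h ∧ s2 ≤ k * h := by
      refine ⟨min s' h, s' - min s' h, by omega, by omega, ?_⟩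
      rw [Nat.succ_mul] at hs'
      rcases le_total s' h with h3 | h3
      · rw [min_eq_left h3]; simp
      · rw [min_eq_right h3]; omega
    rw [addm_split (fun x y => iv_ne ha hb hab x y), iv_castAdd, iv_natAdd]
    have A1 := H.add a s b s1 ha (by omega) hab hs h1 u
    have A2 := ih a s (b + s1) s2 ha (by omega) (by omega) hs h2 (fun x => u (x + s1))
    have e1 : (Matrix.of fun (i : Fin (s1 + s2)) (j : Fin s) =>
        u ((i.val : ℤ) - j.val)).submatrix (Fin.castAdd s2) id
        = Matrix.of fun (i : Fin s1) (j : Fin s) => u ((i.val : ℤ) - j.val) := by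
      ext i j; simp
    have e2 : (Matrix.of fun (i : Fin (s1 + s2)) (j : Fin s) =>
        u ((i.val : ℤ) - j.val)).submatrix (Fin.natAdd s1) id
        = Matrix.of fun (i : Fin s2) (j : Fin s) => u ((i.val : ℤ) - j.val + s1) := by
      ext i j
      simp only [Matrix.submatrix_apply, Matrix.of_apply, Fin.val_natAdd, id]
      congr 1; push_cast; ring
    rw [e1, e2]
    exact (A1.mul A2).mono (by rw [Nat.succ_mul]; omega)

theorem Avail.diagRows {N h L : ℕ} {c : ℕ → ℂ} (H : Avail N h L c) (k : ℕ) :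
    ∀ (a s : ℕ) (ha : a + s ≤ N), s ≤ k * h →
      LW (k ^ 2 * L) (loc (iv N a s ha) (QPascal.toep s c)) := by
  induction k with
  | zero =>
    intro a s ha hs
    have : s = 0 := by omega
    subst this
    have h1 : QPascal.toep 0 c = (1 : Matrix (Fin 0) (Fin 0) ℂ) := by
      ext i j; exact i.elim0
    rw [h1, loc_one]
    exact LW.one.mono (Nat.zero_le _)
  | succ k ih =>
    intro a s ha hs
    obtain ⟨s1, s2, rfl, h1, h2⟩ : ∃ s1 s2, s = s1 + s2 ∧ s1 ≤ h ∧ s2 ≤ k * h := by
      refine ⟨min s h, s - min s h, by omega, by omega, ?_⟩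
      rw [Nat.succ_mul] at hs
      rcases le_total s h with h3 | h3
      · rw [min_eq_left h3]; simp
      · rw [min_eq_right h3]; omega
    have A1 := H.diag a s1 (by omega) h1
    have A2 := H.addRows k a s1 (a + s1) s2 (by omega) (by omega) (by omega) h1 h2
      (fun x => toZ c (x + s1))
    have A3 := ih (a + s1) s2 (by omega) h2
    rw [loc_split (iv_injective ha) (T1 := QPascal.toep s1 c) (T2 := QPascal.toep s2 c)
      (A := Matrix.of fun (i : Fin s2) (j : Fin s1) => toZ c ((i.val : ℤ) - j.val + s1)),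
      iv_castAdd, iv_natAdd]
    · refine ((A1.mul A2).mul A3).mono ?_
      nlinarith [Nat.zero_le (k * L)]
    · intro i j
      simp only [QPascal.toep, Matrix.of_apply, Fin.val_castAdd]
    · intro i j
      simp only [QPascal.toep, Matrix.of_apply, Fin.val_castAdd, Fin.val_natAdd]
      rw [if_neg (by omega)]
    · intro i j
      simp only [QPascal.toep, Matrix.of_apply, Fin.val_castAdd, Fin.val_natAdd, toZ]
      rw [if_pos (by omega), if_pos (by omega)]
      congr 1; omega
    · intro i j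
      simp only [QPascal.toep, Matrix.of_apply, Fin.val_natAdd]
      by_cases h3 : j.val ≤ i.val
      · rw [if_pos (by omega), if_pos h3]
        congr 1; omega
      · rw [if_neg (by omega), if_neg h3]

theorem Avail.full {N h L : ℕ} {c : ℕ → ℂ} (H : Avail N h L c) (k : ℕ) (hk : N ≤ k * h) :
    LW (k ^ 2 * L) (QPascal.toep N c) := by
  have h1 := H.diagRows k 0 N (by omega) hk
  have h2 : iv N 0 N (by omega) = id := by ext i; simp [iv]
  rw [h2, loc_id] at h1
  exact h1

theorem avail_one (N : ℕ) {c : ℕ → ℂ} (hc : c 0 = 1) : Avail N 1 1 c := by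
  constructor
  · intro a s ha hs
    have h1 : QPascal.toep s c = (1 : Matrix (Fin s) (Fin s) ℂ) := by
      ext i j
      have : i = j := Fin.ext (by omega)
      subst this
      simp [QPascal.toep, hc]
    rw [h1, loc_one]
    exact LW.one.mono (Nat.zero_le _)
  · intro a s b s' ha hb hab hs hs' u
    rcases Nat.eq_zero_or_pos s with h0 | h0
    · subst h0
      rw [addm_of_isEmpty _ (Or.inr inferInstance)]
      exact LW.one.mono (Nat.zero_le _)
    rcases Nat.eq_zero_or_pos s' with h0' | h0'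
    · subst h0'
      rw [addm_of_isEmpty _ (Or.inl inferInstance)]
      exact LW.one.mono (Nat.zero_le _)
    have e1 : s = 1 := by omega
    have e2 : s' = 1 := by omega
    subst e1 e2
    have h1 : (Matrix.of fun (i j : Fin 1) => u ((i.val : ℤ) - j.val))
        = Matrix.diagonal fun _ => u 0 := by
      ext i j
      have hi : i = 0 := Subsingleton.elim _ _
      have hj : j = 0 := Subsingleton.elim _ _
      subst hi hj
      simp
    rw [h1]
    exact (isMatch_addm_diagonal (iv_injective _) (iv_injective _)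
      (fun x y => iv_ne ha hb hab x y) _).isStep.lw

theorem avail_big {N h m : ℕ} (hm : h + h ≤ 2 ^ m) (hN : h + h + 2 ^ m ≤ N) {c : ℕ → ℂ}
    (hc : c 0 = 1) : Avail N h (240 * m + 74) c := by
  constructor
  · intro a s ha hs
    obtain ⟨g, hg, hgf⟩ := exists_disjoint (iv N a s ha) s (by simp; omega)
    obtain ⟨w, hw, hwF⟩ := exists_disjoint (Sum.elim (iv N a s ha) g) (2 ^ m) (by simp; omega)
    exact lw_toepLoc rfl (by omega) (iv_injective ha) hg hw (fun x y => hgf y x)
      (fun x y h' => hwF (Sum.inr x) y h'.symm) (fun x y => hwF (Sum.inl y) x) hc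
  · intro a s b s' ha hb hab hs hs' u
    obtain ⟨w, hw, hwF⟩ := exists_disjoint (Sum.elim (iv N b s' hb) (iv N a s ha)) (2 ^ m)
      (by simp; omega)
    exact (lw_toepAdd rfl (by omega) (iv_injective hb) (iv_injective ha) hw
      (fun x y => iv_ne ha hb hab x y) (fun x y h' => hwF (Sum.inr x) y h'.symm)
      (fun x y => hwF (Sum.inl y) x) u).mono (by omega)

theorem lw_toep (N : ℕ) {c : ℕ → ℂ} (hc : c 0 = 1) :
    LW (20096 * (Nat.log 2 N + 1)) (QPascal.toep N c) := by
  rcases Nat.lt_or_ge N 24 with hN | hN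
  · have h1 := (avail_one N hc).full 24 (by omega)
    exact h1.mono (by omega)
  · obtain ⟨h, hh⟩ : ∃ h, h = N / 8 + 1 := ⟨_, rfl⟩
    have h0 : h + h ≠ 0 := by omega
    have h1 : h + h < 2 ^ (Nat.log 2 (h + h) + 1) := Nat.lt_pow_succ_log_self (by norm_num) _
    have h2 : 2 ^ Nat.log 2 (h + h) ≤ h + h := Nat.pow_log_le_self 2 h0
    have h3 : Nat.log 2 (h + h) ≤ Nat.log 2 N := Nat.log_mono_right (by omega)
    have h4 : 2 ^ (Nat.log 2 (h + h) + 1) = 2 * 2 ^ Nat.log 2 (h + h) := by rw [pow_succ]; ring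
    have A := (avail_big (N := N) (h := h) (m := Nat.log 2 (h + h) + 1) h1.le (by omega)
      hc).full 8 (by omega)
    exact A.mono (by omega)

/-- **Every Fourier matrix is a product of `O(log N)` steps.** -/
theorem lw_fourier {N : ℕ} {z : ℂ} (hz : IsPrimitiveRoot z N) :
    LW (40195 * (Nat.log 2 N + 1)) (Matrix.of fun j k : Fin N => z ^ (j.val * k.val)) := by
  rw [QPascal.fourier_factor z N (QPascal.g_ne_zero_of_primitive hz)]
  have hT := lw_toep N (c := fun m => (QPascal.g z m)⁻¹) (by simp)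
  exact (((((LW.diagonal _).mul hT).mul (LW.diagonal _)).mul hT.transpose).mul
    (LW.diagonal _)).mono (by omega)

theorem fourier_LW : ∃ C : ℕ, ∀ N : ℕ, 1 ≤ N → ∀ z : ℂ, IsPrimitiveRoot z N →
    LW (C * (Nat.log 2 N + 1)) (Matrix.of fun j k : Fin N => z ^ (j.val * k.val)) :=
  ⟨40195, fun _ _ _ hz => lw_fourier hz⟩

end Crest.Agent.R324
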