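import Crest.Agent.R324.TW

/-!
Row 324: the gadget.  Wires `Fin (d+2) → Option (B × Bool)`.  The block of the tensor power of
the star is computed with fewer than `L n^L` transvections (walker with held symbols).
-/

set_option autoImplicit false
set_option linter.unusedSectionVars false

namespace Crest.Agent.R324

open Matrix

section general

variable {q : Type*} [Fintype q] [DecidableEq q]

theorem TW.one_add_sum {T : Type*} (s : Finset T) (D : T → Matrix q q ℂ) (k : T → ℕ)
    (h0 : ∀ i ∈ s, ∀ j ∈ s, D i * D j = 0) (h : ∀ i ∈ s, TW (1 + D i) (k i)) :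
    TW (1 + ∑ i ∈ s, D i) (∑ i ∈ s, k i) := by
  classical
  induction s using Finset.induction_on with
  | empty => simpa using (TW.one (q := q))
  | insert a s ha ih =>
    have ih' := ih (fun i hi j hj => h0 i (Finset.mem_insert_of_mem hi) j
      (Finset.mem_insert_of_mem hj)) fun i hi => h i (Finset.mem_insert_of_mem hi)
    have h1 := (h a (Finset.mem_insert_self _ _)).mul ih'
    rw [Finset.sum_insert ha, Finset.sum_insert ha]
    have e : (1 + D a) * (1 + ∑ i ∈ s, D i) = 1 + (D a + ∑ i ∈ s, D i) := by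
      rw [Matrix.add_mul, Matrix.one_mul, Matrix.mul_add, Matrix.mul_one, Finset.mul_sum,
        Finset.sum_eq_zero fun j hj => h0 a (Finset.mem_insert_self _ _) j
          (Finset.mem_insert_of_mem hj)]
      abel
    rwa [e] at h1

end general

section wires

variable {B : Type*} [Fintype B] [DecidableEq B] {d : ℕ}

/-- outputs -/
def ox (a : B × Bool) (b : Fin (d + 1) → B) (v : Fin (d + 1) → Bool) :
    Fin (d + 2) → Option (B × Bool) :=
  Fin.cons (some a) fun t => some (b t, v t)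

/-- root faces -/
def ow (b : Fin (d + 1) → B) (v : Fin (d + 1) → Bool) : Fin (d + 2) → Option (B × Bool) :=
  Fin.cons none fun t => some (b t, v t)

/-- faces in direction `t` -/
def oe (t : Fin (d + 1)) (a : B × Bool) (b : Fin (d + 1) → B) (v : Fin (d + 1) → Bool) :
    Fin (d + 2) → Option (B × Bool) :=
  Fin.cons (some a) (Function.update (fun t' => some (b t', v t')) t none)

theorem ox_ne_ow (a : B × Bool) (b b' : Fin (d + 1) → B) (v v' : Fin (d + 1) → Bool) :
    ox a b v ≠ ow b' v' := fun h => by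
  have := congrFun h 0
  simp [ox, ow] at this

theorem ow_ne_oe (t : Fin (d + 1)) (a : B × Bool) (b b' : Fin (d + 1) → B)
    (v v' : Fin (d + 1) → Bool) : ow b v ≠ oe t a b' v' := fun h => by
  have := congrFun h 0
  simp [oe, ow] at this

theorem ox_ne_oe (t : Fin (d + 1)) (a a' : B × Bool) (b b' : Fin (d + 1) → B)
    (v v' : Fin (d + 1) → Bool) : ox a b v ≠ oe t a' b' v' := fun h => by
  have := congrFun h t.succ
  simp [oe, ox] at this

theorem ow_injective (v : Fin (d + 1) → Bool) :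
    Function.Injective fun b : Fin (d + 1) → B => ow b v := by
  intro b b' h
  ext t
  have := congrFun h t.succ
  simpa [ow] using this

/-- same symbol in direction `t` -/
def Sm (t : Fin (d + 1)) (σ τ : (B × Bool) × (Fin (d + 1) → Bool)) : Prop :=
  σ.1 = τ.1 ∧ ∀ t' ≠ t, σ.2 t' = τ.2 t'

instance (t : Fin (d + 1)) (σ τ : (B × Bool) × (Fin (d + 1) → Bool)) : Decidable (Sm t σ τ) := by
  unfold Sm; infer_instance

theorem oe_congr (t : Fin (d + 1)) (σ τ : (B × Bool) × (Fin (d + 1) → Bool)) (h : Sm t σ τ)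
    (b : Fin (d + 1) → B) : oe t σ.1 b σ.2 = oe t τ.1 b τ.2 := by
  unfold oe
  rw [h.1]
  congr 1
  ext t'
  by_cases ht : t' = t
  · subst ht; simp
  · simp [Function.update_of_ne ht, h.2 t' ht]

theorem oe_ne (t : Fin (d + 1)) (σ τ : (B × Bool) × (Fin (d + 1) → Bool)) (h : ¬ Sm t σ τ)
    (b b' : Fin (d + 1) → B) : oe t σ.1 b σ.2 ≠ oe t τ.1 b' τ.2 := by
  intro h'
  refine h ⟨?_, fun t' ht => ?_⟩
  · have := congrFun h' 0
    simpa [oe] using this
  · have := congrFun h' t'.succ
    simp only [oe, Fin.cons_succ, Function.update_of_ne ht] at this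
    simpa using (Prod.ext_iff.1 (Option.some_injective _ this)).2

theorem oe_ins (t : Fin (d + 1)) (β : B) (b : Fin (d + 1) → B)
    (σ : (B × Bool) × (Fin (d + 1) → Bool)) :
    oe t σ.1 (Fin.insertNth t β (Fin.removeNth t b)) σ.2 = oe t σ.1 b σ.2 := by
  unfold oe
  congr 1
  ext t'
  by_cases ht : t' = t
  · subst ht; simp
  · obtain ⟨s, rfl⟩ := Fin.exists_succAbove_eq ht
    simp

theorem oe_ins_injective (t : Fin (d + 1)) (β : B) (σ : (B × Bool) × (Fin (d + 1) → Bool)) :
    Function.Injective fun k : Fin d → B => oe t σ.1 (Fin.insertNth t β k : Fin (d+1) → B) σ.2 := by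
  intro k k' h
  ext s
  have := congrFun h (t.succAbove s).succ
  simp only [oe, Fin.cons_succ, Function.update_of_ne (Fin.succAbove_ne t s)] at this
  simpa using (Prod.ext_iff.1 (Option.some_injective _ this)).1

/-! ### macros -/

/-- add the direction-`t` symbol `σ` to the targets `y b` -/
def aT (t : Fin (d + 1)) (y : (Fin (d + 1) → B) → (Fin (d + 2) → Option (B × Bool)))
    (σ : (B × Bool) × (Fin (d + 1) → Bool)) :
    Matrix (Fin (d + 2) → Option (B × Bool)) (Fin (d + 2) → Option (B × Bool)) ℂ :=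
  gsum Finset.univ y (fun b => oe t σ.1 b σ.2) 1

theorem TW.move (t : Fin (d + 1)) (y : (Fin (d + 1) → B) → (Fin (d + 2) → Option (B × Bool)))
    (hy : ∀ t a b b' v, y b ≠ oe t a b' v) (σ τ : (B × Bool) × (Fin (d + 1) → Bool)) :
    TW (1 + (aT t y τ - aT t y σ)) ((if Sm t τ σ then 0 else 1) *
      (Fintype.card B ^ (d + 1) + 2 * Fintype.card B ^ d)) := by
  split_ifs with h
  · have : aT t y τ = aT t y σ := by
      unfold aT
      congr 1
      ext b : 1
      exact oe_congr t τ σ h b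
    rw [this, sub_self, add_zero]
    exact TW.one' _
  · rcases isEmpty_or_nonempty B with hB | ⟨⟨β⟩⟩
    · have : IsEmpty (Fin (d + 1) → B) := ⟨fun f => hB.elim (f 0)⟩
      have h1 : ∀ σ, aT t y σ = 0 := fun σ => by
        unfold aT gsum
        rw [Finset.univ_eq_empty, Finset.sum_empty]
      rw [h1, h1, sub_self, add_zero]
      exact TW.one' _
    · have := TW.diff (I := Fin (d + 1) → B) (K := Fin d → B) Finset.univ Finset.univ y
        (fun k => oe t τ.1 (Fin.insertNth t β k : Fin (d+1) → B) τ.2)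
        (fun k => oe t σ.1 (Fin.insertNth t β k : Fin (d+1) → B) σ.2)
        (fun b => Fin.removeNth t b) (fun _ _ => Finset.mem_univ _)
        (oe_ins_injective t β τ) (fun b _ k _ => hy _ _ _ _ _) (fun b _ k _ => hy _ _ _ _ _)
        (fun k _ l _ => oe_ne t τ σ h _ _)
      simp only [oe_ins] at this
      rw [one_mul]
      refine (cast (congrArg₂ TW ?_ ?_) this)
      · unfold aT
        abel
      · simp

/-! ### the walker -/

/-- the base symbol of the walker -/
def v0 (d : ℕ) : Fin (d + 1) → Bool := fun _ => false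

/-- the walker wires `ow b v0` are shifted by the held symbols -/
def RR (σ : Fin (d + 1) → (B × Bool) × (Fin (d + 1) → Bool)) :
    Matrix (Fin (d + 2) → Option (B × Bool)) (Fin (d + 2) → Option (B × Bool)) ℂ :=
  ∑ t, aT t (fun b => ow b (v0 d)) (σ t)

/-- send the walker to the outputs `(a, ·, v)` -/
def SS (a : B × Bool) (v : Fin (d + 1) → Bool) :
    Matrix (Fin (d + 2) → Option (B × Bool)) (Fin (d + 2) → Option (B × Bool)) ℂ :=
  gsum Finset.univ (fun b => ox a b v) (fun b => ow b (v0 d)) 1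

/-- what the walk has to add to the outputs `(a, ·, v)` -/
def XX (a : B × Bool) (v : Fin (d + 1) → Bool) :
    Matrix (Fin (d + 2) → Option (B × Bool)) (Fin (d + 2) → Option (B × Bool)) ℂ :=
  SS a v + ∑ t, aT t (fun b => ox a b v) (a, v)

theorem aT_mul_aT (t t' : Fin (d + 1)) (y y' : (Fin (d + 1) → B) → (Fin (d + 2) → Option (B × Bool)))
    (hy : ∀ t a b b' v, y' b ≠ oe t a b' v) (σ τ : (B × Bool) × (Fin (d + 1) → Bool)) :
    aT t y σ * aT t' y' τ = 0 :=
  gsum_mul_gsum_zero _ _ _ _ _ _ _ _ fun _ _ _ _ => (hy _ _ _ _ _).symm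

theorem aT_mul_SS (t : Fin (d + 1)) (y : (Fin (d + 1) → B) → (Fin (d + 2) → Option (B × Bool)))
    (σ : (B × Bool) × (Fin (d + 1) → Bool)) (a : B × Bool) (v : Fin (d + 1) → Bool) :
    aT t y σ * SS a v = 0 :=
  gsum_mul_gsum_zero _ _ _ _ _ _ _ _ fun _ _ _ _ => (ox_ne_oe _ _ _ _ _ _ _).symm

theorem SS_mul_SS (a a' : B × Bool) (v v' : Fin (d + 1) → Bool) :
    SS a v * SS a' v' = 0 :=
  gsum_mul_gsum_zero _ _ _ _ _ _ _ _ fun _ _ _ _ => (ox_ne_ow _ _ _ _ _).symm

theorem SS_mul_aT_ox (t : Fin (d + 1)) (a a' : B × Bool) (v v' : Fin (d + 1) → Bool)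
    (σ : (B × Bool) × (Fin (d + 1) → Bool)) :
    SS a v * aT t (fun b => ox a' b v') σ = 0 :=
  gsum_mul_gsum_zero _ _ _ _ _ _ _ _ fun _ _ _ _ => (ox_ne_ow _ _ _ _ _).symm

theorem SS_mul_aT (t : Fin (d + 1)) (a : B × Bool) (v : Fin (d + 1) → Bool)
    (σ : (B × Bool) × (Fin (d + 1) → Bool)) :
    SS a v * aT t (fun b => ow b (v0 d)) σ = aT t (fun b => ox a b v) σ := by
  unfold SS aT gsum
  rw [Finset.sum_mul]
  refine Finset.sum_congr rfl fun i _ => ?_
  rw [Finset.mul_sum, Finset.sum_eq_single i]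
  · rw [Matrix.single_mul_single_same, mul_one]
  · intro k _ hk
    exact Matrix.single_mul_single_of_ne _ _ _ _ (fun h => hk (ow_injective _ h).symm) _
  · intro h
    exact absurd (Finset.mem_univ _) h

theorem RR_mul_RR (σ τ : Fin (d + 1) → (B × Bool) × (Fin (d + 1) → Bool)) :
    RR σ * RR τ = 0 := by
  unfold RR
  rw [Finset.sum_mul]
  refine Finset.sum_eq_zero fun t _ => ?_
  rw [Finset.mul_sum]
  exact Finset.sum_eq_zero fun t' _ => aT_mul_aT _ _ _ _ (fun _ _ _ _ _ => ow_ne_oe _ _ _ _ _ _) _ _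

theorem RR_mul_XX (σ : Fin (d + 1) → (B × Bool) × (Fin (d + 1) → Bool)) (a : B × Bool)
    (v : Fin (d + 1) → Bool) : RR σ * XX a v = 0 := by
  unfold RR XX
  rw [Finset.sum_mul]
  refine Finset.sum_eq_zero fun t _ => ?_
  rw [Matrix.mul_add, aT_mul_SS, zero_add, Finset.mul_sum]
  exact Finset.sum_eq_zero fun t' _ => aT_mul_aT _ _ _ _ (fun _ _ _ _ _ => ox_ne_oe _ _ _ _ _ _ _) _ _

theorem XX_mul_RR (σ : Fin (d + 1) → (B × Bool) × (Fin (d + 1) → Bool)) (a : B × Bool)
    (v : Fin (d + 1) → Bool) : XX a v * RR σ = ∑ t, aT t (fun b => ox a b v) (σ t) := by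
  unfold RR XX
  rw [Matrix.add_mul, Finset.mul_sum]
  have : (∑ t, aT t (fun b => ox a b v) (a, v)) *
      (∑ t, aT t (fun b => ow b (v0 d)) (σ t)) = 0 := by
    rw [Finset.sum_mul]
    refine Finset.sum_eq_zero fun t _ => ?_
    rw [Finset.mul_sum]
    exact Finset.sum_eq_zero fun t' _ =>
      aT_mul_aT _ _ _ _ (fun _ _ _ _ _ => ow_ne_oe _ _ _ _ _ _) _ _
  rw [this, add_zero]
  exact Finset.sum_congr rfl fun t _ => SS_mul_aT _ _ _ _

theorem XX_mul_XX (a a' : B × Bool) (v v' : Fin (d + 1) → Bool) : XX a v * XX a' v' = 0 := by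
  unfold XX
  rw [Matrix.add_mul, Matrix.mul_add, Matrix.mul_add, SS_mul_SS, zero_add]
  have h1 : SS a v * ∑ t, aT t (fun b => ox a' b v') (a', v') = 0 := by
    rw [Finset.mul_sum]
    exact Finset.sum_eq_zero fun t' _ => SS_mul_aT_ox _ _ _ _ _ _
  have h2 : (∑ t, aT t (fun b => ox a b v) (a, v)) * SS a' v' = 0 := by
    rw [Finset.sum_mul]
    exact Finset.sum_eq_zero fun t' _ => aT_mul_SS _ _ _ _ _
  have h3 : (∑ t, aT t (fun b => ox a b v) (a, v)) *
      (∑ t, aT t (fun b => ox a' b v') (a', v')) = 0 := by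
    rw [Finset.sum_mul]
    refine Finset.sum_eq_zero fun t _ => ?_
    rw [Finset.mul_sum]
    exact Finset.sum_eq_zero fun t' _ =>
      aT_mul_aT _ _ _ _ (fun _ _ _ _ _ => ox_ne_oe _ _ _ _ _ _ _) _ _
  rw [h1, h2, h3, add_zero, add_zero]

/-- cost of one symbol change -/
def mcst (B : Type*) [Fintype B] (d : ℕ) : ℕ := Fintype.card B ^ (d + 1) + 2 * Fintype.card B ^ d

/-- cost of one step of the walk -/
def scst (σ τ : Fin (d + 1) → (B × Bool) × (Fin (d + 1) → Bool)) (a : B × Bool)
    (v : Fin (d + 1) → Bool) : ℕ :=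
  Fintype.card B ^ (d + 1) + ((∑ t, if Sm t (a, v) (τ t) then 0 else 1) +
    (∑ t, if Sm t (τ t) (σ t) then 0 else 1)) * mcst B d

theorem TW.walk_step (σ τ : Fin (d + 1) → (B × Bool) × (Fin (d + 1) → Bool)) (a : B × Bool)
    (v : Fin (d + 1) → Bool) :
    TW ((1 + RR τ) * (1 + XX a v) * (1 - RR σ)) (scst σ τ a v) := by
  have w1 : TW (1 + ∑ t, (aT t (fun b => ox a b v) (a, v) - aT t (fun b => ox a b v) (τ t)))
      (∑ t, (if Sm t (a, v) (τ t) then 0 else 1) * mcst B d) := by
    refine TW.one_add_sum _ _ _ (fun i _ j _ => ?_) fun t _ =>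
      TW.move t _ (fun _ _ _ _ _ => ox_ne_oe _ _ _ _ _ _ _) _ _
    have : ∀ σ τ, aT i (fun b => ox a b v) σ * aT j (fun b => ox a b v) τ = 0 := fun σ τ =>
      aT_mul_aT _ _ _ _ (fun _ _ _ _ _ => ox_ne_oe _ _ _ _ _ _ _) _ _
    rw [Matrix.sub_mul, Matrix.mul_sub, Matrix.mul_sub, this, this, this, this]
    simp
  have w2 : TW (1 + ∑ t, (aT t (fun b => ow b (v0 d)) (τ t) - aT t (fun b => ow b (v0 d)) (σ t)))
      (∑ t, (if Sm t (τ t) (σ t) then 0 else 1) * mcst B d) := by
    refine TW.one_add_sum _ _ _ (fun i _ j _ => ?_) fun t _ =>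
      TW.move t _ (fun _ _ _ _ _ => ow_ne_oe _ _ _ _ _ _) _ _
    have : ∀ σ τ, aT i (fun b => ow b (v0 d)) σ * aT j (fun b => ow b (v0 d)) τ =
        (0 : Matrix (Fin (d + 2) → Option (B × Bool)) (Fin (d + 2) → Option (B × Bool)) ℂ) :=
      fun σ τ => aT_mul_aT _ _ _ _ (fun _ _ _ _ _ => ow_ne_oe _ _ _ _ _ _) _ _
    rw [Matrix.sub_mul, Matrix.mul_sub, Matrix.mul_sub, this, this, this, this]
    simp
  have w3 : TW (1 + SS a v) (Fintype.card B ^ (d + 1)) := by
    have := TW.gates (Finset.univ : Finset (Fin (d + 1) → B)) (fun b => ox a b v)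
      (fun b => ow b (v0 d)) 1 fun _ _ _ _ => ox_ne_ow _ _ _ _ _
    unfold SS
    simpa using this
  have w := (w1.mul w3).mul w2
  have e : (1 + ∑ t, (aT t (fun b => ox a b v) (a, v) - aT t (fun b => ox a b v) (τ t))) *
      (1 + SS a v) *
      (1 + ∑ t, (aT t (fun b => ow b (v0 d)) (τ t) - aT t (fun b => ow b (v0 d)) (σ t))) =
      (1 + RR τ) * (1 + XX a v) * (1 - RR σ) := by
    have r1 : (∑ t, (aT t (fun b => ow b (v0 d)) (τ t) - aT t (fun b => ow b (v0 d)) (σ t))) =
        RR τ - RR σ := Finset.sum_sub_distrib ..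
    have r2 : (∑ t, (aT t (fun b => ox a b v) (a, v) - aT t (fun b => ox a b v) (τ t))) =
        (∑ t, aT t (fun b => ox a b v) (a, v)) - ∑ t, aT t (fun b => ox a b v) (τ t) :=
      Finset.sum_sub_distrib ..
    have hSR : ∀ σ, SS a v * RR σ = ∑ t, aT t (fun b => ox a b v) (σ t) := fun σ => by
      unfold RR
      rw [Finset.mul_sum]
      exact Finset.sum_congr rfl fun t _ => SS_mul_aT _ _ _ _
    have hPS : ∀ σ : Fin (d + 1) → (B × Bool) × (Fin (d + 1) → Bool),
        (∑ t, aT t (fun b => ox a b v) (σ t)) * SS a v = 0 := fun σ => by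
      rw [Finset.sum_mul]
      exact Finset.sum_eq_zero fun t _ => aT_mul_SS _ _ _ _ _
    have hPR : ∀ σ τ : Fin (d + 1) → (B × Bool) × (Fin (d + 1) → Bool),
        (∑ t, aT t (fun b => ox a b v) (σ t)) * RR τ = 0 := fun σ τ => by
      unfold RR
      rw [Finset.sum_mul]
      refine Finset.sum_eq_zero fun t _ => ?_
      rw [Finset.mul_sum]
      exact Finset.sum_eq_zero fun t' _ =>
        aT_mul_aT _ _ _ _ (fun _ _ _ _ _ => ow_ne_oe _ _ _ _ _ _) _ _
    have hRX := RR_mul_XX τ a v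
    have hRR := RR_mul_RR τ σ
    have hXR := XX_mul_RR σ a v
    rw [r1, r2]
    have hS1 := hSR τ
    have hS2 := hSR σ
    have hP1 := hPS fun _ => (a, v)
    have hP2 := hPS τ
    have hP3 := hPR (fun _ => (a, v)) τ
    have hP4 := hPR (fun _ => (a, v)) σ
    have hP5 := hPR τ τ
    have hP6 := hPR τ σ
    have hX : XX a v = SS a v + ∑ t, aT t (fun b => ox a b v) (a, v) := rfl
    generalize (∑ t, aT t (fun b => ox a b v) (a, v)) = P0 at *
    generalize (∑ t, aT t (fun b => ox a b v) (τ t)) = Pt at *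
    generalize (∑ t, aT t (fun b => ox a b v) (σ t)) = Ps at *
    generalize RR τ = Rt at *
    generalize RR σ = Rs at *
    generalize SS a v = S at *
    generalize XX a v = X at *
    have l : (1 + (P0 - Pt)) * (1 + S) * (1 + (Rt - Rs)) =
        1 + P0 - Pt + S + (P0 * S - Pt * S) + (Rt - Rs) + (P0 * Rt - P0 * Rs - Pt * Rt + Pt * Rs)
          + (S * Rt - S * Rs) + (P0 * S - Pt * S) * (Rt - Rs) := by noncomm_ring
    have r : (1 + Rt) * (1 + X) * (1 - Rs) = 1 + Rt + X + Rt * X - Rs - Rt * Rs - X * Rs -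
        Rt * X * Rs := by noncomm_ring
    rw [l, r, hRX, hRR, hXR, hP1, hP2, hP3, hP4, hP5, hP6, hS1, hS2, hX]
    simp only [sub_zero, zero_mul, add_zero, sub_self]
    abel
  rw [e] at w
  refine w.mono (le_of_eq ?_)
  unfold scst
  rw [← Finset.sum_mul, ← Finset.sum_mul]
  ring

/-- symbols held -/
abbrev Hd (B : Type*) (d : ℕ) := Fin (d + 1) → (B × Bool) × (Fin (d + 1) → Bool)

/-- a visit: the symbols held by the walker and the output visited -/
abbrev Vis (B : Type*) (d : ℕ) := Hd B d × ((B × Bool) × (Fin (d + 1) → Bool))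

/-- the symbols held at the end of a list of visits -/
def runEnd (σ : Hd B d) : List (Vis B d) → Hd B d
  | [] => σ
  | x :: l => runEnd x.1 l

/-- the cost of a list of visits -/
def runCost (σ : Hd B d) : List (Vis B d) → ℕ
  | [] => 0
  | x :: l => scst σ x.1 x.2.1 x.2.2 + runCost x.1 l

theorem runCost_append (σ : Hd B d) (l l' : List (Vis B d)) :
    runCost σ (l ++ l') = runCost σ l + runCost (runEnd σ l) l' := by
  induction l generalizing σ with
  | nil => simp [runCost, runEnd]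
  | cons x l ih => simp [runCost, runEnd, ih, add_assoc]

theorem TW.walk (l : List (Vis B d)) (σ : Hd B d) :
    TW ((1 + RR (runEnd σ l)) * (1 + (l.map fun x => XX x.2.1 x.2.2).sum) * (1 - RR σ))
      (runCost σ l) := by
  induction l generalizing σ with
  | nil =>
    have : (1 + RR σ) * (1 + 0) * (1 - RR σ) = 1 := by
      have h := RR_mul_RR σ σ
      generalize RR σ = R at *
      have : (1 + R) * (1 + 0) * (1 - R) = 1 - R * R := by noncomm_ring
      rw [this, h, sub_zero]
    simp only [runEnd, List.map_nil, List.sum_nil, this, runCost]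
    exact TW.one
  | cons x l ih =>
    have w := (ih x.1).mul (TW.walk_step σ x.1 x.2.1 x.2.2)
    have hz : (l.map fun x => XX x.2.1 x.2.2).sum * XX x.2.1 x.2.2 = 0 := by
      clear w ih
      induction l with
      | nil => simp
      | cons y l ihl =>
        rw [List.map_cons, List.sum_cons, Matrix.add_mul, ihl, XX_mul_XX, add_zero]
    have h := RR_mul_RR x.1 x.1
    have e : (1 + RR (runEnd x.1 l)) * (1 + (l.map fun x => XX x.2.1 x.2.2).sum) *
        (1 - RR x.1) * ((1 + RR x.1) * (1 + XX x.2.1 x.2.2) * (1 - RR σ)) =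
        (1 + RR (runEnd σ (x :: l))) * (1 + ((x :: l).map fun x => XX x.2.1 x.2.2).sum) *
        (1 - RR σ) := by
      simp only [runEnd, List.map_cons, List.sum_cons]
      generalize RR (runEnd x.1 l) = E at *
      generalize RR x.1 = R at *
      generalize RR σ = R0 at *
      generalize (l.map fun x => XX x.2.1 x.2.2).sum = Y at *
      generalize XX x.2.1 x.2.2 = X at *
      have h1 : (1 + E) * (1 + Y) * (1 - R) * ((1 + R) * (1 + X) * (1 - R0)) =
          (1 + E) * (1 + Y) * (1 - R * R) * (1 + X) * (1 - R0) := by noncomm_ring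
      have h2 : (1 + E) * (1 + Y) * (1 + X) * (1 - R0) =
          (1 + E) * (1 + (X + Y) + Y * X) * (1 - R0) := by noncomm_ring
      rw [h1, h, sub_zero, Matrix.mul_one, h2, hz, add_zero]
    rw [e] at w
    simp only [runCost]
    exact w.mono (by omega)

theorem TW.RR (σ : Hd B d) : TW (1 + RR σ) ((d + 1) * Fintype.card B ^ (d + 1)) := by
  have := TW.one_add_sum Finset.univ (fun t => aT t (fun b => ow b (v0 d)) (σ t))
    (fun _ => Fintype.card B ^ (d + 1))
    (fun i _ j _ => aT_mul_aT _ _ _ _ (fun _ _ _ _ _ => ow_ne_oe _ _ _ _ _ _) _ _)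
    (fun t _ => by
      have := TW.gates (Finset.univ : Finset (Fin (d + 1) → B)) (fun b => ow b (v0 d))
        (fun b => oe t (σ t).1 b (σ t).2) 1 fun _ _ _ _ => ow_ne_oe _ _ _ _ _ _
      unfold aT
      simpa using this)
  simpa [Crest.Agent.R324.RR] using this

theorem TW.neg_RR (σ : Hd B d) :
    TW (1 - Crest.Agent.R324.RR σ) ((d + 1) * Fintype.card B ^ (d + 1)) := by
  have hneg : ∀ t, gsum (Finset.univ : Finset (Fin (d + 1) → B)) (fun b => ow b (v0 d))
        (fun b => oe t (σ t).1 b (σ t).2) (-1) = - aT t (fun b => ow b (v0 d)) (σ t) := fun t => by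
    unfold aT gsum
    rw [← Finset.sum_neg_distrib]
    refine Finset.sum_congr rfl fun i _ => ?_
    ext a b
    simp [Matrix.single_apply]
    split_ifs <;> simp
  have := TW.one_add_sum Finset.univ (fun t => - aT t (fun b => ow b (v0 d)) (σ t))
    (fun _ => Fintype.card B ^ (d + 1))
    (fun i _ j _ => by
      rw [neg_mul_neg]
      exact aT_mul_aT _ _ _ _ (fun _ _ _ _ _ => ow_ne_oe _ _ _ _ _ _) _ _)
    (fun t _ => by
      have := TW.gates (Finset.univ : Finset (Fin (d + 1) → B)) (fun b => ow b (v0 d))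
        (fun b => oe t (σ t).1 b (σ t).2) (-1) fun _ _ _ _ => ow_ne_oe _ _ _ _ _ _
      rw [← hneg]
      simpa using this)
  rw [Finset.sum_neg_distrib, ← sub_eq_add_neg] at this
  simpa [Crest.Agent.R324.RR] using this

/-- the whole walk, including loading and unloading the walker -/
theorem TW.walk_total (l : List (Vis B d)) (σ : Hd B d) :
    TW (1 + (l.map fun x => XX x.2.1 x.2.2).sum)
      (runCost σ l + 2 * ((d + 1) * Fintype.card B ^ (d + 1))) := by
  have w := ((TW.neg_RR (runEnd σ l)).mul (TW.walk l σ)).mul (TW.RR σ)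
  have h1 := RR_mul_RR (runEnd σ l) (runEnd σ l)
  have h2 := RR_mul_RR σ σ
  generalize Crest.Agent.R324.RR (runEnd σ l) = E at *
  generalize Crest.Agent.R324.RR σ = R at *
  generalize (l.map fun x => XX x.2.1 x.2.2).sum = Y at *
  have e : (1 - E) * ((1 + E) * (1 + Y) * (1 - R)) * (1 + R) =
      (1 - E * E) * (1 + Y) * (1 - R * R) := by noncomm_ring
  rw [e, h1, h2, sub_zero, Matrix.one_mul, Matrix.mul_one] at w
  exact w.mono (by omega)

end wires

end Crest.Agent.R324
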