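import Crest.Agent.R324.Gadget

/-!
Row 324: the walk with three held symbols on boxes `{0,1}^3`.
-/

set_option autoImplicit false
set_option linter.unusedSectionVars false

namespace Crest.Agent.R324

open Matrix

variable {B : Type*} [Fintype B] [DecidableEq B] {d : ℕ}

/-- number of symbol changes and pendants of a list of visits -/
def runMoves (σ : Hd B d) : List (Vis B d) → ℕ
  | [] => 0
  | x :: l => ((∑ t, if Sm t x.2 (x.1 t) then 0 else 1) +
    (∑ t, if Sm t (x.1 t) (σ t) then 0 else 1)) + runMoves x.1 l

theorem runCost_eq (σ : Hd B d) (l : List (Vis B d)) :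
    runCost σ l = l.length * Fintype.card B ^ (d + 1) + runMoves σ l * mcst B d := by
  induction l generalizing σ with
  | nil => simp [runCost, runMoves]
  | cons x l ih =>
    simp only [runCost, runMoves, ih, scst, List.length_cons]
    ring

theorem runMoves_append (σ : Hd B d) (l l' : List (Vis B d)) :
    runMoves σ (l ++ l') = runMoves σ l + runMoves (runEnd σ l) l' := by
  induction l generalizing σ with
  | nil => simp [runMoves, runEnd]
  | cons x l ih => simp [runMoves, runEnd, ih, add_assoc]

/-- the vertex with binary expansion `m` -/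
def bv (m : ℕ) : Fin 3 → Bool := fun t => m.testBit t

/-- held symbols, all in slice `a` -/
def held (a : B × Bool) (h : Fin 3 → ℕ) : Hd B 2 := fun t => (a, bv (h t))

/-- number of directions whose symbol is not the held one -/
def missN (m : ℕ) (h : Fin 3 → ℕ) : ℕ :=
  ∑ t : Fin 3, if (∀ t' ≠ t, bv m t' = bv (h t) t') then 0 else 1

/-- number of changes -/
def chgN (h g : Fin 3 → ℕ) : ℕ :=
  ∑ t : Fin 3, if (∀ t' ≠ t, bv (h t) t' = bv (g t) t') then 0 else 1

theorem Sm_same (t : Fin (d + 1)) (a : B × Bool) (u u' : Fin (d + 1) → Bool) :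
    Sm t (a, u) (a, u') ↔ ∀ t' ≠ t, u t' = u' t' := by
  simp [Sm]

theorem runMoves_held (a : B × Bool) (g h : Fin 3 → ℕ) (m : ℕ) (l : List (Vis B 2)) :
    runMoves (held a g) ((held a h, (a, bv m)) :: l) =
      missN m h + chgN h g + runMoves (held a h) l := by
  simp only [runMoves, missN, chgN]
  congr 2
  · refine Finset.sum_congr rfl fun t _ => ?_
    simp only [held, Sm_same]
  · refine Finset.sum_congr rfl fun t _ => ?_
    simp only [held, Sm_same]

theorem runMoves_first (σ : Hd B 2) (a : B × Bool) (h : Fin 3 → ℕ) (m : ℕ) (l : List (Vis B 2)) :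
    runMoves σ ((held a h, (a, bv m)) :: l) ≤ missN m h + 3 + runMoves (held a h) l := by
  have e : runMoves σ ((held a h, (a, bv m)) :: l) = missN m h +
      (∑ t, if Sm t (held a h t) (σ t) then 0 else 1) + runMoves (held a h) l := by
    simp only [runMoves, missN]
    congr 2
    refine Finset.sum_congr rfl fun t _ => ?_
    simp only [held, Sm_same]
  have h1 : (∑ t, if Sm t (held a h t) (σ t) then 0 else 1) ≤ 3 := by
    have : (∑ t : Fin 3, if Sm t (held a h t) (σ t) then 0 else 1) ≤ ∑ _t : Fin 3, 1 :=
      Finset.sum_le_sum fun t _ => by split_ifs <;> simp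
    simpa using this
  omega

/-- the visits of one slice -/
def slice (a : B × Bool) : List (Vis B 2) :=
  [(held a ![4, 4, 1], (a, bv 6)), (held a ![4, 4, 1], (a, bv 4)),
   (held a ![4, 5, 1], (a, bv 5)), (held a ![0, 5, 1], (a, bv 1)),
   (held a ![0, 5, 3], (a, bv 7)), (held a ![0, 0, 3], (a, bv 0)),
   (held a ![2, 0, 3], (a, bv 2)), (held a ![2, 0, 3], (a, bv 3))]

theorem slice_moves (a : B × Bool) (σ : Hd B 2) : runMoves σ (slice a) ≤ 16 := by
  unfold slice
  refine (runMoves_first _ _ _ _ _).trans ?_
  simp only [runMoves_held]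
  have m1 : missN 6 ![4, 4, 1] = 2 := by decide
  have m2 : missN 4 ![4, 4, 1] = 1 := by decide
  have m3 : missN 5 ![4, 5, 1] = 0 := by decide
  have m4 : missN 1 ![0, 5, 1] = 1 := by decide
  have m5 : missN 7 ![0, 5, 3] = 1 := by decide
  have m6 : missN 0 ![0, 0, 3] = 1 := by decide
  have m7 : missN 2 ![2, 0, 3] = 1 := by decide
  have m8 : missN 3 ![2, 0, 3] = 1 := by decide
  have c1 : chgN ![4, 4, 1] ![4, 4, 1] = 0 := by decide
  have c2 : chgN ![4, 5, 1] ![4, 4, 1] = 1 := by decide
  have c3 : chgN ![0, 5, 1] ![4, 5, 1] = 1 := by decide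
  have c4 : chgN ![0, 5, 3] ![0, 5, 1] = 1 := by decide
  have c5 : chgN ![0, 0, 3] ![0, 5, 3] = 1 := by decide
  have c6 : chgN ![2, 0, 3] ![0, 0, 3] = 1 := by decide
  have c7 : chgN ![2, 0, 3] ![2, 0, 3] = 0 := by decide
  rw [m1, m2, m3, m4, m5, m6, m7, m8, c1, c2, c3, c4, c5, c6, c7]
  simp [runMoves]

theorem slices_moves (L : List (B × Bool)) (σ : Hd B 2) :
    runMoves σ (L.flatMap slice) ≤ 16 * L.length := by
  induction L generalizing σ with
  | nil => simp [runMoves]
  | cons a L ih =>
    rw [List.flatMap_cons, runMoves_append, List.length_cons]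
    have h1 := slice_moves a σ
    have h2 := ih (runEnd σ (slice a))
    omega

theorem slices_cost (L : List (B × Bool)) (σ : Hd B 2) :
    runCost σ (L.flatMap slice) ≤
      L.length * (24 * Fintype.card B ^ 3 + 32 * Fintype.card B ^ 2) := by
  rw [runCost_eq]
  have h1 : (L.flatMap (slice (B := B))).length = 8 * L.length := by
    induction L with
    | nil => simp
    | cons a L ih =>
      rw [List.flatMap_cons, List.length_append, ih, List.length_cons]
      simp only [slice, List.length_cons, List.length_nil]
      ring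
  have h2 := Nat.mul_le_mul_right (mcst B 2) (slices_moves L σ)
  rw [h1]
  refine (Nat.add_le_add_left h2 _).trans (le_of_eq ?_)
  unfold mcst
  ring

theorem slices_sum (L : List (B × Bool)) :
    ((L.flatMap slice).map fun x => XX x.2.1 x.2.2).sum =
      (L.map fun a => ∑ v : Fin 3 → Bool, XX (d := 2) a v).sum := by
  induction L with
  | nil => simp
  | cons a L ih =>
    rw [List.flatMap_cons, List.map_append, List.sum_append, ih, List.map_cons, List.sum_cons]
    congr 1
    simp only [slice, List.map_cons, List.map_nil, List.sum_cons, List.sum_nil]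
    have e : (Finset.univ : Finset (Fin 3 → Bool)) =
        {bv 6, bv 4, bv 5, bv 1, bv 7, bv 0, bv 2, bv 3} := by decide
    rw [e]
    rw [Finset.sum_insert (by decide), Finset.sum_insert (by decide),
      Finset.sum_insert (by decide), Finset.sum_insert (by decide),
      Finset.sum_insert (by decide), Finset.sum_insert (by decide),
      Finset.sum_insert (by decide), Finset.sum_singleton]
    abel

theorem TW.walk_all : TW (1 + ∑ a : B × Bool, ∑ v : Fin 3 → Bool, XX (d := 2) a v)
    (2 * Fintype.card B * (24 * Fintype.card B ^ 3 + 32 * Fintype.card B ^ 2) +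
      6 * Fintype.card B ^ 3) := by
  rcases isEmpty_or_nonempty B with hB | ⟨⟨β⟩⟩
  · simp only [Finset.univ_eq_empty, Finset.sum_empty, add_zero]
    exact TW.one' _
  · have w := TW.walk_total ((Finset.univ : Finset (B × Bool)).toList.flatMap slice)
      (held (β, false) ![0, 0, 0])
    rw [slices_sum, Finset.sum_map_toList] at w
    refine w.mono ?_
    have := slices_cost (Finset.univ : Finset (B × Bool)).toList (held (β, false) ![0, 0, 0])
    rw [Finset.length_toList, Finset.card_univ, Fintype.card_prod, Fintype.card_bool] at this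
    have e : Fintype.card B * 2 = 2 * Fintype.card B := by ring
    rw [e] at this
    have e2 : 2 * ((2 + 1) * Fintype.card B ^ (2 + 1)) = 6 * Fintype.card B ^ 3 := by ring
    rw [e2]
    omega

end Crest.Agent.R324
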