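import Crest.Agent.R324.Gadget2

/-!
Row 324: the block of the fourth tensor power of a star.
-/

set_option autoImplicit false
set_option linter.unusedSectionVars false

namespace Crest.Agent.R324

open Matrix

variable {B : Type*} [Fintype B] [DecidableEq B]

/-- the block: every output (no `none`) receives all its `L` faces -/
def blk (L : ℕ) (N : Type*) [Fintype N] [DecidableEq N] :
    Matrix (Fin L → Option N) (Fin L → Option N) ℂ :=
  ∑ α : Fin L → N, ∑ s : Fin L,
    Matrix.single (fun i => some (α i)) (Function.update (fun i => some (α i)) s none) 1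

/-- root differences -/
def DD (v : Fin 3 → Bool) :
    Matrix (Fin 4 → Option (B × Bool)) (Fin 4 → Option (B × Bool)) ℂ :=
  gsum (Finset.univ : Finset ((B × Bool) × (Fin 3 → B))) (fun i => ox i.1 i.2 v)
    (fun i => ow i.2 v) 1 -
  gsum (Finset.univ : Finset ((B × Bool) × (Fin 3 → B))) (fun i => ox i.1 i.2 v)
    (fun i => ow i.2 (v0 2)) 1

theorem TW.DD (v : Fin 3 → Bool) (hv : v ≠ v0 2) :
    TW (1 + Crest.Agent.R324.DD (B := B) v)
      (2 * Fintype.card B * Fintype.card B ^ 3 + 2 * Fintype.card B ^ 3) := by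
  have := TW.diff (Finset.univ : Finset ((B × Bool) × (Fin 3 → B)))
    (Finset.univ : Finset (Fin 3 → B)) (fun i => ox i.1 i.2 v) (fun k => ow k v)
    (fun k => ow k (v0 2)) (fun i => i.2) (fun _ _ => Finset.mem_univ _) (ow_injective v)
    (fun _ _ _ _ => ox_ne_ow _ _ _ _ _) (fun _ _ _ _ => ox_ne_ow _ _ _ _ _)
    (fun k _ l _ h => hv (by
      ext t
      have := congrFun h t.succ
      simpa [ow] using (Prod.ext_iff.1 (Option.some_injective _ this)).2))
  refine (cast (congrArg₂ TW ?_ ?_) this)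
  · unfold Crest.Agent.R324.DD
    abel
  · simp only [Finset.card_univ, Fintype.card_prod, Fintype.card_fun, Fintype.card_fin,
      Fintype.card_bool]
    ring

theorem DD_mul_DD (v v' : Fin 3 → Bool) : DD (B := B) v * DD v' = 0 := by
  unfold DD
  have h : ∀ u u' w w' : Fin 3 → Bool,
      gsum (Finset.univ : Finset ((B × Bool) × (Fin 3 → B))) (fun i => ox i.1 i.2 u)
        (fun i => ow i.2 u') 1 *
      gsum (Finset.univ : Finset ((B × Bool) × (Fin 3 → B))) (fun i => ox i.1 i.2 w)
        (fun i => ow i.2 w') 1 = 0 := fun u u' w w' =>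
    gsum_mul_gsum_zero _ _ _ _ _ _ _ _ fun _ _ _ _ => (ox_ne_ow _ _ _ _ _).symm
  rw [Matrix.sub_mul, Matrix.mul_sub, Matrix.mul_sub, h, h, h, h]
  simp

theorem XX_mul_DD (a : B × Bool) (v v' : Fin 3 → Bool) : XX (d := 2) a v * DD v' = 0 := by
  unfold DD XX SS aT
  have h1 : ∀ u, gsum (Finset.univ : Finset (Fin 3 → B)) (fun b => ox a b v)
        (fun b => ow b (v0 2)) 1 *
      gsum (Finset.univ : Finset ((B × Bool) × (Fin 3 → B))) (fun i => ox i.1 i.2 v')
        (fun i => ow i.2 u) 1 = 0 := fun u =>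
    gsum_mul_gsum_zero _ _ _ _ _ _ _ _ fun _ _ _ _ => (ox_ne_ow _ _ _ _ _).symm
  have h2 : ∀ u, (∑ t, gsum (Finset.univ : Finset (Fin 3 → B)) (fun b => ox a b v)
        (fun b => oe t a b v) 1) *
      gsum (Finset.univ : Finset ((B × Bool) × (Fin 3 → B))) (fun i => ox i.1 i.2 v')
        (fun i => ow i.2 u) 1 = 0 := fun u => by
    rw [Finset.sum_mul]
    exact Finset.sum_eq_zero fun t _ =>
      gsum_mul_gsum_zero _ _ _ _ _ _ _ _ fun _ _ _ _ => (ox_ne_oe _ _ _ _ _ _ _).symm
  rw [Matrix.add_mul, Matrix.mul_sub, Matrix.mul_sub, h1, h1, h2, h2]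
  simp

theorem gsum_prod (u u' : Fin 3 → Bool) :
    gsum (Finset.univ : Finset ((B × Bool) × (Fin 3 → B))) (fun i => ox i.1 i.2 u)
        (fun i => ow i.2 u') 1 = ∑ a : B × Bool, ∑ b : Fin 3 → B,
          Matrix.single (ox a b u) (ow b u') (1 : ℂ) := by
  unfold gsum
  rw [Fintype.sum_prod_type]

theorem blk_eq : blk 4 (B × Bool) = ∑ a : B × Bool, ∑ v : Fin 3 → Bool, ∑ b : Fin 3 → B,
    (Matrix.single (ox a b v) (ow b v) 1 +
      ∑ t, Matrix.single (ox a b v) (oe t a b v) (1 : ℂ)) := by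
  unfold blk
  rw [← (Fin.consEquiv fun _ : Fin 4 => B × Bool).sum_comp, Fintype.sum_prod_type]
  refine Finset.sum_congr rfl fun a _ => ?_
  rw [← (Equiv.arrowProdEquivProdArrow (Fin 3) (fun _ => B) (fun _ => Bool)).symm.sum_comp,
    Fintype.sum_prod_type, Finset.sum_comm]
  refine Finset.sum_congr rfl fun v _ => Finset.sum_congr rfl fun b _ => ?_
  rw [Fin.sum_univ_succ]
  have e : (fun i => some ((Fin.consEquiv fun _ : Fin 4 => B × Bool)
      (a, (Equiv.arrowProdEquivProdArrow (Fin 3) (fun _ => B) (fun _ => Bool)).symm (b, v)) i)) =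
      ox a b v := by
    funext i
    refine Fin.cases ?_ (fun i => ?_) i
    · simp [ox]
    · simp [ox, Equiv.arrowProdEquivProdArrow]
  simp only [e]
  congr 1
  · congr 1
    unfold ox ow
    rw [Fin.update_cons_zero]
  · refine Finset.sum_congr rfl fun t _ => ?_
    congr 1
    unfold ox oe
    rw [Fin.cons_update]

theorem TW.block : TW (1 + blk 4 (B × Bool))
    (2 * Fintype.card B * (31 * Fintype.card B ^ 3 + 32 * Fintype.card B ^ 2) +
      20 * Fintype.card B ^ 3) := by
  have w2 := TW.one_add_sum (Finset.univ.erase (v0 2)) (fun v => Crest.Agent.R324.DD (B := B) v)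
    (fun _ => 2 * Fintype.card B * Fintype.card B ^ 3 + 2 * Fintype.card B ^ 3)
    (fun _ _ _ _ => DD_mul_DD _ _) (fun v hv => TW.DD v (Finset.mem_erase.1 hv).1)
  have w := (TW.walk_all (B := B)).mul w2
  have hz : (∑ a : B × Bool, ∑ v : Fin 3 → Bool, XX (d := 2) a v) *
      (∑ v ∈ Finset.univ.erase (v0 2), Crest.Agent.R324.DD (B := B) v) = 0 := by
    rw [Finset.sum_mul]
    refine Finset.sum_eq_zero fun a _ => ?_
    rw [Finset.sum_mul]
    refine Finset.sum_eq_zero fun v _ => ?_
    rw [Finset.mul_sum]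
    exact Finset.sum_eq_zero fun v' _ => XX_mul_DD _ _ _
  have e : (1 + ∑ a : B × Bool, ∑ v : Fin 3 → Bool, XX (d := 2) a v) *
      (1 + ∑ v ∈ Finset.univ.erase (v0 2), Crest.Agent.R324.DD (B := B) v) =
      1 + blk 4 (B × Bool) := by
    rw [Matrix.add_mul, Matrix.one_mul, Matrix.mul_add, Matrix.mul_one, hz, add_zero,
      add_assoc]
    congr 1
    rw [blk_eq]
    have h1 : (∑ v ∈ Finset.univ.erase (v0 2), Crest.Agent.R324.DD (B := B) v) =
        ∑ v : Fin 3 → Bool, Crest.Agent.R324.DD (B := B) v := by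
      rw [← Finset.add_sum_erase Finset.univ _ (Finset.mem_univ (v0 2))]
      have : Crest.Agent.R324.DD (B := B) (v0 2) = 0 := by
        unfold Crest.Agent.R324.DD
        rw [sub_self]
      rw [this, zero_add]
    rw [h1]
    have h2 : (∑ v : Fin 3 → Bool, Crest.Agent.R324.DD (B := B) v) =
        ∑ a : B × Bool, ∑ v : Fin 3 → Bool, ∑ b : Fin 3 → B,
          (Matrix.single (ox a b v) (ow b v) (1 : ℂ) -
            Matrix.single (ox a b v) (ow b (v0 2)) 1) := by
      rw [Finset.sum_comm]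
      refine Finset.sum_congr rfl fun v _ => ?_
      unfold Crest.Agent.R324.DD
      rw [gsum_prod, gsum_prod, ← Finset.sum_sub_distrib]
      refine Finset.sum_congr rfl fun a _ => ?_
      rw [← Finset.sum_sub_distrib]
    rw [h2, ← Finset.sum_add_distrib]
    refine Finset.sum_congr rfl fun a _ => ?_
    rw [← Finset.sum_add_distrib]
    refine Finset.sum_congr rfl fun v _ => ?_
    unfold XX SS aT gsum
    rw [Finset.sum_comm (s := Finset.univ) (t := Finset.univ), ← Finset.sum_add_distrib,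
      ← Finset.sum_add_distrib]
    refine Finset.sum_congr rfl fun b _ => ?_
    abel
  rw [e] at w
  refine w.mono (le_of_eq ?_)
  rw [Finset.sum_const, Finset.card_erase_of_mem (Finset.mem_univ _), Finset.card_univ,
    Fintype.card_fun, Fintype.card_bool, Fintype.card_fin, smul_eq_mul]
  ring

end Crest.Agent.R324
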