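import Crest.Agent.R324.Gadget3
import Crest.Agent.R324.Double

/-!
Row 324: the fourth tensor power of a star is `Post * Block * Pre`.
-/

set_option autoImplicit false
set_option linter.unusedSectionVars false

namespace Crest.Agent.R324

open Matrix

section ptp

variable {L : ℕ} {q : Type*} [Fintype q] [DecidableEq q]

/-- tensor product of matrices -/
def ptp (M : Fin L → Matrix q q ℂ) : Matrix (Fin L → q) (Fin L → q) ℂ :=
  Matrix.of fun x y => ∏ i, M i (x i) (y i)

theorem ptp_mul (M M' : Fin L → Matrix q q ℂ) : ptp M * ptp M' = ptp fun i => M i * M' i := by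
  ext x y
  simp only [ptp, Matrix.mul_apply, Matrix.of_apply]
  rw [Finset.prod_univ_sum, Fintype.piFinset_univ]
  exact Finset.sum_congr rfl fun z _ => Finset.prod_mul_distrib.symm

end ptp

variable {N : Type*} [Fintype N] [DecidableEq N] {L : ℕ}

/-- number of gates in direction `s` into the wires `x` satisfying `P` -/
def cnt (s : Fin L) (P : (Fin L → Option N) → Prop) [DecidablePred P] : ℕ :=
  (Finset.univ.filter fun x : Fin L → Option N => x s ≠ none ∧ P x).card

/-- gates in direction `s` into the wires `x` satisfying `P` -/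
def gt (s : Fin L) (P : (Fin L → Option N) → Prop) [DecidablePred P] :
    Matrix (Fin L → Option N) (Fin L → Option N) ℂ :=
  gsum (Finset.univ.filter fun x : Fin L → Option N => x s ≠ none ∧ P x) id
    (fun x => Function.update x s none) 1

theorem gt_mul_gt (s s' : Fin L) (P P' : (Fin L → Option N) → Prop) [DecidablePred P]
    [DecidablePred P'] (h : ∀ x x', x s ≠ none → P x → x' s' ≠ none → P' x' →
      Function.update x s none ≠ x') : gt s P * gt s' P' = 0 := by
  refine gsum_mul_gsum_zero _ _ _ _ _ _ _ _ fun x hx x' hx' => ?_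
  rw [Finset.mem_filter] at hx hx'
  exact h x x' hx.2.1 hx.2.2 hx'.2.1 hx'.2.2

theorem gt_mul_gt_same (s : Fin L) (P P' : (Fin L → Option N) → Prop) [DecidablePred P]
    [DecidablePred P'] : gt s P * gt s P' = 0 :=
  gt_mul_gt s s P P' fun x x' _ _ h _ e => h (by rw [← e]; simp)

theorem TW.gt (s : Fin L) (P : (Fin L → Option N) → Prop) [DecidablePred P] :
    TW (1 + Crest.Agent.R324.gt s P) (cnt s P) := by
  refine TW.gates _ _ _ _ fun x hx x' _ h => ?_
  rw [Finset.mem_filter] at hx
  refine hx.2.1 ?_
  have h' : x = Function.update x' s none := h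
  rw [h']
  simp

theorem gt_add (s : Fin L) (P Q R : (Fin L → Option N) → Prop) [DecidablePred P]
    [DecidablePred Q] [DecidablePred R] (h : ∀ x, x s ≠ none → (P x ↔ (Q x ∨ R x)))
    (h' : ∀ x, ¬ (Q x ∧ R x)) :
    gt s P = gt s Q + gt s R := by
  unfold gt gsum
  rw [← Finset.sum_union]
  · refine Finset.sum_congr ?_ fun _ _ => rfl
    ext x
    simp only [Finset.mem_filter, Finset.mem_univ, true_and, Finset.mem_union]
    by_cases hx : x s = none
    · simp [hx]
    · rw [h x hx]
      tauto
  · rw [Finset.disjoint_left]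
    intro x hx hx'
    rw [Finset.mem_filter] at hx hx'
    exact h' x ⟨hx.2.2, hx'.2.2⟩

theorem gt_apply (s : Fin L) (P : (Fin L → Option N) → Prop) [DecidablePred P]
    (x y : Fin L → Option N) : gt s P x y =
      if (x s ≠ none ∧ P x) ∧ Function.update x s none = y then 1 else 0 := by
  unfold gt gsum
  rw [Matrix.sum_apply]
  simp only [Matrix.single_apply, id]
  by_cases hx : x s ≠ none ∧ P x
  · rw [Finset.sum_eq_single_of_mem x (by simp [hx])]
    · simp [hx]
    · intro b _ hb
      rw [if_neg fun h => hb h.1]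
  · rw [if_neg fun h => hx h.1]
    refine Finset.sum_eq_zero fun b hb => ?_
    rw [if_neg]
    rintro ⟨rfl, _⟩
    exact hx (Finset.mem_filter.1 hb).2

/-- one direction -/
theorem ptp_update (s : Fin L) :
    ptp (fun i => if i = s then starO N else (1 : Matrix (Option N) (Option N) ℂ)) =
      1 + gt s fun _ => True := by
  ext x y
  rw [Matrix.add_apply, gt_apply, Matrix.one_apply]
  simp only [ptp, Matrix.of_apply]
  by_cases h : ∀ i, i ≠ s → x i = y i
  · have h1 : ∏ i, (if i = s then starO N else (1 : Matrix (Option N) (Option N) ℂ)) (x i) (y i) =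
        starO N (x s) (y s) := by
      rw [Finset.prod_eq_single s]
      · rw [if_pos rfl]
      · intro i _ hi
        rw [if_neg hi, h i hi, Matrix.one_apply_eq]
      · intro h
        exact absurd (Finset.mem_univ _) h
    rw [h1]
    have e1 : x = y ↔ x s = y s := by
      refine ⟨fun h => by rw [h], fun h' => ?_⟩
      funext i
      by_cases hi : i = s
      · rw [hi, h']
      · exact h i hi
    have e2 : Function.update x s none = y ↔ y s = none := by
      refine ⟨fun h => by rw [← h]; simp, fun h' => ?_⟩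
      funext i
      by_cases hi : i = s
      · rw [hi, h']; simp
      · rw [Function.update_of_ne hi]
        exact h i hi
    simp only [e1, e2, and_true, starO, Matrix.of_apply]
    by_cases h3 : x s = y s
    · by_cases h4 : y s = none
      · simp [h3, h4]
      · simp [h3, h4]
    · by_cases h4 : y s = none
      · have h5 : x s ≠ none := fun h5 => h3 (h5.trans h4.symm)
        simp [h4, h5]
      · simp [h3, h4]
  · have h' := h
    push Not at h
    obtain ⟨i, hi, hxy⟩ := h
    rw [Finset.prod_eq_zero (Finset.mem_univ i) (by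
      rw [if_neg hi, Matrix.one_apply_ne hxy]), if_neg, if_neg, add_zero]
    · rintro ⟨_, h2⟩
      refine h' fun j hj => ?_
      rw [← h2, Function.update_of_ne hj]
    · rintro rfl
      exact hxy rfl

/-- into outputs -/
def isB (_s : Fin L) (x : Fin L → Option N) : Prop := ∀ i, x i ≠ none
/-- first zero after `s` -/
def isP (s : Fin L) (x : Fin L → Option N) : Prop := (∃ i, x i = none) ∧ ∀ i, x i = none → s < i
/-- a zero before `s` -/
def isQ (s : Fin L) (x : Fin L → Option N) : Prop := ∃ i, x i = none ∧ i < s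

instance (s : Fin L) : DecidablePred (isB (N := N) s) := fun x => by unfold isB; infer_instance
instance (s : Fin L) : DecidablePred (isP (N := N) s) := fun x => by unfold isP; infer_instance
instance (s : Fin L) : DecidablePred (isQ (N := N) s) := fun x => by unfold isQ; infer_instance

theorem dir_eq (s : Fin L) : (1 + gt (N := N) s fun _ => True) =
    (1 + gt s (isQ s)) * (1 + gt s (isB s)) * (1 + gt s (isP s)) := by
  have h1 : gt (N := N) s (fun _ => True) =
      gt s (isQ s) + gt s (fun x => isB s x ∨ isP s x) := by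
    refine gt_add s _ _ _ (fun x hx => ?_) fun x => ?_
    · simp only [true_iff, isQ, isB, isP]
      by_cases h : ∃ i, x i = none
      · by_cases h' : ∃ i, x i = none ∧ i < s
        · exact Or.inl h'
        · refine Or.inr (Or.inr ⟨h, fun i hi => ?_⟩)
          push Not at h'
          refine lt_of_le_of_ne (h' i hi) ?_
          rintro rfl
          exact hx hi
      · push Not at h
        exact Or.inr (Or.inl h)
    · simp only [isQ, isB, isP]
      rintro ⟨⟨i, h1, h2⟩, h3 | h3⟩
      · exact h3 i h1
      · exact absurd h2 (not_lt.2 (h3.2 i h1).le)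
  have h2 : gt (N := N) s (fun x => isB s x ∨ isP s x) = gt s (isB s) + gt s (isP s) := by
    refine gt_add s _ _ _ (fun x _ => Iff.rfl) fun x => ?_
    simp only [isB, isP]
    rintro ⟨h1, ⟨i, hi⟩, _⟩
    exact h1 i hi
  rw [h1, h2]
  have z1 := gt_mul_gt_same (N := N) s (isQ s) (isB s)
  have z2 := gt_mul_gt_same (N := N) s (isQ s) (isP s)
  have z3 := gt_mul_gt_same (N := N) s (isB s) (isP s)
  generalize gt (N := N) s (isQ s) = Q at *
  generalize gt (N := N) s (isB s) = B at *
  generalize gt (N := N) s (isP s) = P at *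
  have : (1 + Q) * (1 + B) * (1 + P) = 1 + (Q + (B + P)) + Q * B + Q * P + B * P + Q * B * P := by
    noncomm_ring
  rw [this, z1, z2, z3]
  simp

theorem comm_of {A B : Matrix (Fin L → Option N) (Fin L → Option N) ℂ} (h : A * B = 0)
    (h' : B * A = 0) : Commute (1 + A) (1 + B) := by
  change (1 + A) * (1 + B) = (1 + B) * (1 + A)
  have e1 : (1 + A) * (1 + B) = 1 + A + B + A * B := by noncomm_ring
  have e2 : (1 + B) * (1 + A) = 1 + A + B + B * A := by noncomm_ring
  rw [e1, e2, h, h']

theorem comm_QB (s s' : Fin L) (h : s < s') :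
    Commute (1 + gt (N := N) s' (isB s')) (1 + gt s (isQ s)) := by
  refine comm_of (gt_mul_gt _ _ _ _ fun x x' _ hx _ hx' e => ?_)
    (gt_mul_gt _ _ _ _ fun x x' _ _ _ hx' e => ?_)
  · obtain ⟨i, hi, his⟩ := hx'
    have : i ≠ s' := (his.trans h).ne
    rw [← e, Function.update_of_ne this] at hi
    exact hx i hi
  · exact hx' s (by rw [← e]; simp)

theorem comm_QP (s s' : Fin L) (h : s < s') :
    Commute (1 + gt (N := N) s' (isP s')) (1 + gt s (isQ s)) := by
  refine comm_of (gt_mul_gt _ _ _ _ fun x x' _ hx _ hx' e => ?_)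
    (gt_mul_gt _ _ _ _ fun x x' _ _ _ hx' e => ?_)
  · obtain ⟨i, hi, his⟩ := hx'
    have : i ≠ s' := (his.trans h).ne
    rw [← e, Function.update_of_ne this] at hi
    exact absurd (hx.2 i hi) (not_lt.2 (his.trans h).le)
  · have := hx'.2 s (by rw [← e]; simp)
    exact absurd this (not_lt.2 h.le)

theorem comm_BP (s s' : Fin L) (h : s < s') :
    Commute (1 + gt (N := N) s' (isP s')) (1 + gt s (isB s)) := by
  refine comm_of (gt_mul_gt _ _ _ _ fun x x' _ hx _ hx' e => ?_)
    (gt_mul_gt _ _ _ _ fun x x' _ _ _ hx' e => ?_)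
  · exact hx' s' (by rw [← e]; simp)
  · have := hx'.2 s (by rw [← e]; simp)
    exact absurd this (not_lt.2 h.le)

theorem reorder {M : Type*} [Monoid M] (Q K P QQ KK PP : M) (h1 : Commute K QQ)
    (h2 : Commute P QQ) (h3 : Commute P KK) :
    (Q * K * P) * (QQ * KK * PP) = (Q * QQ) * (K * KK) * (P * PP) := by
  calc (Q * K * P) * (QQ * KK * PP) = Q * K * (P * QQ) * KK * PP := by simp only [mul_assoc]
    _ = Q * (K * QQ) * (P * KK) * PP := by rw [h2.eq]; simp only [mul_assoc]
    _ = (Q * QQ) * (K * KK) * (P * PP) := by rw [h1.eq, h3.eq]; simp only [mul_assoc]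

theorem assemble {M : Type*} [Monoid M] (Q K P : Fin 4 → M)
    (h1 : ∀ s s', s < s' → Commute (K s') (Q s)) (h2 : ∀ s s', s < s' → Commute (P s') (Q s))
    (h3 : ∀ s s', s < s' → Commute (P s') (K s)) :
    (Q 3 * K 3 * P 3) * ((Q 2 * K 2 * P 2) * ((Q 1 * K 1 * P 1) * (Q 0 * K 0 * P 0))) =
    (Q 3 * (Q 2 * (Q 1 * Q 0))) * (K 3 * (K 2 * (K 1 * K 0))) * (P 3 * (P 2 * (P 1 * P 0))) := by
  rw [reorder _ _ _ _ _ _ (h1 0 1 (by decide)) (h2 0 1 (by decide)) (h3 0 1 (by decide)),
    reorder _ _ _ _ _ _ ((h1 1 2 (by decide)).mul_right (h1 0 2 (by decide)))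
      ((h2 1 2 (by decide)).mul_right (h2 0 2 (by decide)))
      ((h3 1 2 (by decide)).mul_right (h3 0 2 (by decide))),
    reorder _ _ _ _ _ _
      ((h1 2 3 (by decide)).mul_right ((h1 1 3 (by decide)).mul_right (h1 0 3 (by decide))))
      ((h2 2 3 (by decide)).mul_right ((h2 1 3 (by decide)).mul_right (h2 0 3 (by decide))))
      ((h3 2 3 (by decide)).mul_right ((h3 1 3 (by decide)).mul_right (h3 0 3 (by decide))))]

theorem gtB_sum (s : Fin L) : gt (N := N) s (isB s) = ∑ α : Fin L → N,
    Matrix.single (fun i => some (α i)) (Function.update (fun i => some (α i)) s none) (1 : ℂ) := by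
  unfold gt gsum
  symm
  refine Finset.sum_bij (fun α _ => fun i => some (α i)) (fun α _ => ?_) (fun α _ β _ h => ?_)
    (fun x hx => ?_) (fun _ _ => rfl)
  · rw [Finset.mem_filter]
    exact ⟨Finset.mem_univ _, by simp, fun i => by simp⟩
  · funext i
    exact Option.some_injective _ (congrFun h i)
  · rw [Finset.mem_filter] at hx
    have : ∀ i, ∃ a, some a = x i := fun i => by
      obtain ⟨a, ha⟩ := Option.ne_none_iff_exists.1 (hx.2.2 i)
      exact ⟨a, ha⟩
    choose α hα using this
    exact ⟨α, Finset.mem_univ _, funext hα⟩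

theorem tpow_starO_four : ptp (fun _ : Fin 4 => starO N) =
    ((1 + gt (3 : Fin 4) (isQ 3)) * ((1 + gt 2 (isQ 2)) * ((1 + gt 1 (isQ 1)) *
      (1 + gt 0 (isQ 0))))) * (1 + blk 4 N) *
    ((1 + gt (3 : Fin 4) (isP 3)) * ((1 + gt 2 (isP 2)) * ((1 + gt 1 (isP 1)) *
      (1 + gt 0 (isP 0))))) := by
  have h0 : ptp (fun _ : Fin 4 => starO N) =
      ptp (fun i => if i = 3 then starO N else (1 : Matrix (Option N) (Option N) ℂ)) *
      (ptp (fun i => if i = 2 then starO N else (1 : Matrix (Option N) (Option N) ℂ)) *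
      (ptp (fun i => if i = 1 then starO N else (1 : Matrix (Option N) (Option N) ℂ)) *
      ptp (fun i => if i = 0 then starO N else (1 : Matrix (Option N) (Option N) ℂ)))) := by
    rw [ptp_mul, ptp_mul, ptp_mul]
    congr 1
    funext i
    fin_cases i <;> simp
  have hb : (1 + blk 4 N) = (1 + gt (3 : Fin 4) (isB 3)) * ((1 + gt 2 (isB 2)) *
      ((1 + gt 1 (isB 1)) * (1 + gt 0 (isB 0)))) := by
    have hz : ∀ s s' : Fin 4, gt (N := N) s (isB s) * gt s' (isB s') = 0 := fun s s' =>
      gt_mul_gt _ _ _ _ fun x x' _ _ _ hx' e => hx' s (by rw [← e]; simp)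
    have hs : blk 4 N = gt (0 : Fin 4) (isB 0) + gt 1 (isB 1) + gt 2 (isB 2) + gt 3 (isB 3) := by
      unfold blk
      rw [Finset.sum_comm, Fin.sum_univ_four]
      simp only [gtB_sum]
    rw [hs]
    have z1 := hz 3 2
    have z2 := hz 3 1
    have z3 := hz 3 0
    have z4 := hz 2 1
    have z5 := hz 2 0
    have z6 := hz 1 0
    generalize gt (N := N) (3 : Fin 4) (isB 3) = A3 at *
    generalize gt (N := N) (2 : Fin 4) (isB 2) = A2 at *
    generalize gt (N := N) (1 : Fin 4) (isB 1) = A1 at *
    generalize gt (N := N) (0 : Fin 4) (isB 0) = A0 at *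
    have : (1 + A3) * ((1 + A2) * ((1 + A1) * (1 + A0))) =
        1 + (A0 + A1 + A2 + A3) + A3 * A2 + A3 * A1 + A3 * A0 + A2 * A1 + A2 * A0 + A1 * A0 +
        A3 * A2 * A1 + A3 * A2 * A0 + A3 * A1 * A0 + A2 * A1 * A0 + A3 * A2 * A1 * A0 := by
      noncomm_ring
    rw [this, z1, z2, z3, z4, z5, z6]
    simp
  rw [h0, ptp_update, ptp_update, ptp_update, ptp_update, dir_eq, dir_eq, dir_eq, dir_eq, hb]
  exact assemble (fun s => 1 + gt s (isQ s)) (fun s => 1 + gt s (isB s))
    (fun s => 1 + gt s (isP s)) (fun s s' h => comm_QB s s' h) (fun s s' h => comm_QP s s' h)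
    fun s s' h => comm_BP s s' h

theorem card_ne (s : Fin (L + 1)) :
    (Finset.univ.filter fun x : Fin (L + 1) → Option N => x s ≠ none).card =
      Fintype.card N * (Fintype.card N + 1) ^ L := by
  have h : (Finset.univ.filter fun x : Fin (L + 1) → Option N => x s ≠ none) =
      Fintype.piFinset fun i => if i = s then Finset.univ.erase none else Finset.univ := by
    ext x
    simp only [Finset.mem_filter, Finset.mem_univ, true_and, Fintype.mem_piFinset]
    constructor
    · intro h i
      split_ifs with hi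
      · subst hi; simpa using h
      · simp
    · intro h
      have := h s
      rw [if_pos rfl] at this
      simpa using this
  rw [h, Fintype.card_piFinset, ← Finset.mul_prod_erase Finset.univ _ (Finset.mem_univ s),
    if_pos rfl, Finset.card_erase_of_mem (Finset.mem_univ _), Finset.card_univ,
    Fintype.card_option, Nat.add_sub_cancel]
  congr 1
  rw [Finset.prod_congr rfl (g := fun _ => Fintype.card N + 1)]
  · rw [Finset.prod_const, Finset.card_erase_of_mem (Finset.mem_univ _), Finset.card_univ,
      Fintype.card_fin, Nat.add_sub_cancel]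
  · intro i hi
    rw [if_neg (Finset.mem_erase.1 hi).1, Finset.card_univ, Fintype.card_option]

theorem card_all :
    (Finset.univ.filter fun x : Fin L → Option N => ∀ i, x i ≠ none).card =
      Fintype.card N ^ L := by
  have h : (Finset.univ.filter fun x : Fin L → Option N => ∀ i, x i ≠ none) =
      Fintype.piFinset fun _ => Finset.univ.erase none := by
    ext x
    simp [Fintype.mem_piFinset]
  rw [h, Fintype.card_piFinset, Finset.prod_const, Finset.card_erase_of_mem (Finset.mem_univ _),
    Finset.card_univ, Fintype.card_option, Nat.add_sub_cancel, Finset.card_univ, Fintype.card_fin]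

theorem card_QP (s : Fin (L + 1)) :
    cnt (N := N) s (isQ s) + cnt (N := N) s (isP s) +
      Fintype.card N ^ (L + 1) ≤ Fintype.card N * (Fintype.card N + 1) ^ L := by
  unfold cnt
  rw [← card_ne s, ← card_all (N := N) (L := L + 1), ← Finset.card_union_of_disjoint,
    ← Finset.card_union_of_disjoint]
  · refine Finset.card_le_card fun x hx => ?_
    simp only [Finset.mem_union, Finset.mem_filter, Finset.mem_univ, true_and] at hx ⊢
    rcases hx with (hx | hx) | hx
    · exact hx.1
    · exact hx.1
    · exact hx s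
  · rw [Finset.disjoint_left]
    intro x hx hx'
    simp only [Finset.mem_union, Finset.mem_filter, Finset.mem_univ, true_and] at hx hx'
    rcases hx with ⟨_, i, hi, _⟩ | ⟨_, ⟨i, hi⟩, _⟩
    · exact hx' i hi
    · exact hx' i hi
  · rw [Finset.disjoint_left]
    intro x hx hx'
    simp only [Finset.mem_filter, Finset.mem_univ, true_and] at hx hx'
    obtain ⟨_, i, hi, his⟩ := hx
    exact absurd his (not_lt.2 (hx'.2.2 i hi).le)

/-- the gadget -/
theorem TW.star_four {B : Type*} [Fintype B] [DecidableEq B] :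
    ∃ W, TW (ptp (fun _ : Fin 4 => starO (B × Bool))) W ∧
      W + 4 * (2 * Fintype.card B) ^ 4 ≤
        4 * ((2 * Fintype.card B) * (2 * Fintype.card B + 1) ^ 3) +
        (2 * Fintype.card B * (31 * Fintype.card B ^ 3 + 32 * Fintype.card B ^ 2) +
        20 * Fintype.card B ^ 3) := by
  rw [tpow_starO_four]
  refine ⟨_, (((TW.gt _ _).mul ((TW.gt _ _).mul ((TW.gt _ _).mul (TW.gt _ _)))).mul
    TW.block).mul ((TW.gt _ _).mul ((TW.gt _ _).mul ((TW.gt _ _).mul (TW.gt _ _)))), ?_⟩
  have hc : Fintype.card (B × Bool) = 2 * Fintype.card B := by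
    rw [Fintype.card_prod, Fintype.card_bool, mul_comm]
  have key : ∀ s : Fin 4, cnt (N := B × Bool) s (isQ s) + cnt (N := B × Bool) s (isP s) +
      (2 * Fintype.card B) ^ 4 ≤ 2 * Fintype.card B * (2 * Fintype.card B + 1) ^ 3 := fun s => by
    have h := card_QP (N := B × Bool) s
    rwa [hc] at h
  have h0 := key 0
  have h1 := key 1
  have h2 := key 2
  have h3 := key 3
  omega

end Crest.Agent.R324
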