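import Crest.Agent.R324.Double
import Crest.Prelude.Def_LinCircuit

/-!
Row 324: solving the doubling recursion.
-/

set_option autoImplicit false
set_option linter.unusedSectionVars false

namespace Crest.Agent.R324

open Matrix

/-- abstract vector recursion -/
theorem vector_recursion {s m : ℕ} (hm : 2 ≤ m) {θ ρ D : ℝ} (h0 : 0 < θ)
    (hρ0 : 0 ≤ ρ) (hρ1 : ρ < 1) (hD : 0 ≤ D) (t : ℕ → ℕ → ℝ) (c d : ℕ → ℝ) (g : ℝ)
    (hc : ∀ i ≤ s, 0 < c i)
    (ht0 : ∀ i ≤ s, t i 0 = 0) (htn : ∀ i ≤ s, ∀ K, 0 ≤ t i K)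
    (hadd : ∀ i ≤ s, ∀ a b, t i (a + b) ≤ t i a + t i b)
    (hmul : ∀ i ≤ s, ∀ a, t i a ≤ a * t i 1)
    (hdbl : ∀ i < s, ∀ K, ∀ A : ℝ, 0 ≤ A → (∀ j ≤ K, t i j ≤ A * c i * (j : ℝ) ^ θ) →
      (∀ j ≤ K, t (i + 1) j ≤ A * c (i + 1) * (j : ℝ) ^ θ) →
        t i (2 * K) ≤ A * d i * (K : ℝ) ^ θ)
    (hgad : ∀ K, ∀ A : ℝ, 0 ≤ A → (∀ j ≤ K, t 0 j ≤ A * c 0 * (j : ℝ) ^ θ) →
      t s (m * K) ≤ A * g * (K : ℝ) ^ θ + D)
    (hI : ∀ i < s, d i ≤ ρ * c i * 2 ^ θ)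
    (hG : g ≤ ρ * c s * (m : ℝ) ^ θ) :
    ∃ A : ℝ, 0 ≤ A ∧ ∀ i ≤ s, ∀ K, t i K ≤ A * c i * (K : ℝ) ^ θ := by
  set E : ℝ := ∑ i ∈ Finset.range (s + 1), (m * t i 1 + D) / c i with hE
  have hE0 : 0 ≤ E := Finset.sum_nonneg fun i hi => by
    have hi' : i ≤ s := Nat.lt_succ_iff.1 (Finset.mem_range.1 hi)
    have := hc i hi'
    have := htn i hi' 1
    positivity
  have hEi : ∀ i ≤ s, m * t i 1 + D ≤ E * c i := by
    intro i hi
    have h1 := hc i hi
    rw [← div_le_iff₀ h1]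
    exact Finset.single_le_sum (f := fun i => (m * t i 1 + D) / c i) (fun j hj => by
      have hj' : j ≤ s := Nat.lt_succ_iff.1 (Finset.mem_range.1 hj)
      have := hc j hj'
      have := htn j hj' 1
      positivity) (Finset.mem_range.2 (Nat.lt_succ_iff.2 hi))
  have hρ' : 0 < 1 - ρ := by linarith
  refine ⟨E / (1 - ρ), div_nonneg hE0 hρ'.le, ?_⟩
  set A := E / (1 - ρ) with hA
  have hA0 : 0 ≤ A := div_nonneg hE0 hρ'.le
  have hAE : A * ρ + E = A := by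
    rw [hA]; field_simp; ring
  have main : ∀ N, ∀ i ≤ s, t i N ≤ A * c i * (N : ℝ) ^ θ := by
    intro N
    induction N using Nat.strong_induction_on with
    | _ N ih =>
      intro i hi
      have hci := hc i hi
      rcases Nat.eq_zero_or_pos N with hN | hN
      · subst hN
        rw [ht0 i hi]
        positivity
      have hN1 : (1 : ℝ) ≤ (N : ℝ) ^ θ := by
        have : (1 : ℝ) ≤ N := by exact_mod_cast hN
        exact Real.one_le_rpow this h0.le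
      -- the common step
      have step : ∀ l K r : ℕ, 2 ≤ l → l ≤ m → r < l → N = l * K + r →
          t i (l * K) ≤ A * (ρ * c i * (l : ℝ) ^ θ) * (K : ℝ) ^ θ + D →
          t i N ≤ A * c i * (N : ℝ) ^ θ := by
        intro l K r hl hlm hr hNK hk
        have h1 : t i r ≤ (m : ℝ) * t i 1 := by
          refine (hmul i hi r).trans ?_
          have h2 := htn i hi 1
          have h3 : (r : ℝ) ≤ m := by exact_mod_cast (hr.le.trans hlm)
          gcongr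
        have h4 : ((l : ℝ) ^ θ * (K : ℝ) ^ θ) ≤ (N : ℝ) ^ θ := by
          rw [← Real.mul_rpow (by positivity) (by positivity)]
          refine Real.rpow_le_rpow (by positivity) ?_ h0.le
          have : l * K ≤ N := by omega
          exact_mod_cast this
        have hlK : (0 : ℝ) ≤ (l : ℝ) ^ θ * (K : ℝ) ^ θ := by positivity
        have h5 := hEi i hi
        calc t i N ≤ t i (l * K) + t i r := by rw [hNK]; exact hadd i hi _ _
          _ ≤ (A * (ρ * c i * (l : ℝ) ^ θ) * (K : ℝ) ^ θ + D) + m * t i 1 := by gcongr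
          _ = A * ρ * c i * ((l : ℝ) ^ θ * (K : ℝ) ^ θ) + (m * t i 1 + D) := by ring
          _ ≤ A * ρ * c i * (N : ℝ) ^ θ + E * c i * (N : ℝ) ^ θ := by
              have h6 : m * t i 1 + D ≤ E * c i * (N : ℝ) ^ θ :=
                h5.trans (le_mul_of_one_le_right (by positivity) hN1)
              gcongr
          _ = (A * ρ + E) * c i * (N : ℝ) ^ θ := by ring
          _ = A * c i * (N : ℝ) ^ θ := by rw [hAE]
      rcases Nat.lt_or_ge i s with his | his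
      · -- doubling
        have hK : N / 2 < N := Nat.div_lt_self hN (by norm_num)
        have h1 := hdbl i his (N / 2) A hA0 (fun j hj => ih j (lt_of_le_of_lt hj hK) i hi)
          (fun j hj => ih j (lt_of_le_of_lt hj hK) (i + 1) his)
        refine step 2 (N / 2) (N % 2) le_rfl hm (Nat.mod_lt _ (by norm_num))
          (Nat.div_add_mod N 2).symm (h1.trans ?_)
        have h2 := hI i his
        have h3 : A * d i * ((N / 2 : ℕ) : ℝ) ^ θ ≤
            A * (ρ * c i * 2 ^ θ) * ((N / 2 : ℕ) : ℝ) ^ θ := by gcongr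
        push_cast at h3 ⊢
        linarith
      · -- gadget
        have his' : i = s := le_antisymm hi his
        subst his'
        have hK : N / m < N := Nat.div_lt_self hN (by omega)
        have h1 := hgad (N / m) A hA0 (fun j hj => ih j (lt_of_le_of_lt hj hK) 0 (Nat.zero_le _))
        refine step m (N / m) (N % m) hm le_rfl (Nat.mod_lt _ (by omega))
          (Nat.div_add_mod N m).symm (h1.trans ?_)
        gcongr
  exact fun i hi K => main K i hi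

/-! ### powers close to one -/

theorem rpow_le_of_small {x η δ : ℝ} {k : ℕ} (hx : 0 < x) (hxk : 1 ≤ x * 2 ^ k)
    (hη : 0 ≤ η) (hδ : δ ≤ 1) (hδ0 : 0 ≤ δ) (h : η * k ≤ δ / 2) :
    x ^ (1 - η) ≤ x * (1 + δ) := by
  have hlog : -(k : ℝ) ≤ Real.log x := by
    have h1 : 0 ≤ Real.log (x * 2 ^ k) := Real.log_nonneg hxk
    rw [Real.log_mul hx.ne' (by positivity), Real.log_pow] at h1
    have h2 : Real.log 2 ≤ 1 := by
      have := Real.log_two_lt_d9
      linarith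
    have h3 : (k : ℝ) * Real.log 2 ≤ k * 1 := by gcongr
    linarith
  have h1 : x ^ (1 - η) = x * x ^ (-η) := by
    rw [sub_eq_add_neg, Real.rpow_add hx, Real.rpow_one]
  rw [h1]
  refine mul_le_mul_of_nonneg_left ?_ hx.le
  rw [Real.rpow_def_of_pos hx]
  have h2 : Real.log x * -η ≤ δ / 2 := by nlinarith
  calc Real.exp (Real.log x * -η) ≤ Real.exp (δ / 2) := Real.exp_le_exp.2 h2
    _ ≤ 1 / (1 - δ / 2) :=
        Real.exp_bound_div_one_sub_of_interval (by linarith) (by linarith)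
    _ ≤ 1 + δ := by
        rw [div_le_iff₀ (by linarith)]
        nlinarith

theorem le_rpow_of_small {y η δ : ℝ} {k : ℕ} (hy : 0 < y) (hyk : y ≤ 2 ^ k)
    (hη : 0 ≤ η) (hδ0 : 0 ≤ δ) (h : η * k ≤ δ / 2) :
    y * (1 - δ) ≤ y ^ (1 - η) := by
  have hlog : Real.log y ≤ k := by
    have h1 : Real.log y ≤ Real.log (2 ^ k) := Real.log_le_log hy hyk
    rw [Real.log_pow] at h1
    have h2 : Real.log 2 ≤ 1 := by
      have := Real.log_two_lt_d9
      linarith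
    have h3 : (k : ℝ) * Real.log 2 ≤ k * 1 := by gcongr
    linarith
  have h1 : y ^ (1 - η) = y * y ^ (-η) := by
    rw [sub_eq_add_neg, Real.rpow_add hy, Real.rpow_one]
  rw [h1]
  refine mul_le_mul_of_nonneg_left ?_ hy.le
  rw [Real.rpow_def_of_pos hy]
  have h2 : -(δ / 2) ≤ Real.log y * -η := by nlinarith
  have h3 := Real.add_one_le_exp (Real.log y * -η)
  linarith

/-- the gadget step, real form -/
theorem nc_star_gadget {n m W r : ℕ} (hm : 1 ≤ m) (hn : 1 ≤ n)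
    (hIP : IP (tpow (Fin m) (star n)) W r) {θ : ℝ} (h0 : 0 < θ) (h1 : θ ≤ 1) {A : ℝ}
    (hA : 0 ≤ A) (K : ℕ) (h : ∀ j ≤ K, nc (star 1) j ≤ A * (j : ℝ) ^ θ) :
    nc (star n) (m * K) ≤ A * (W * (2 / ((n : ℝ) + 1) ^ m) ^ θ) * (K : ℝ) ^ θ +
      (2 * W + r) := by
  have h3 := hIP.mc_le K
  rw [← mc_tpow_eq] at h3
  have hcard : Fintype.card (Fin m → Fin (n + 1)) = (n + 1) ^ m := by simp
  rw [hcard] at h3
  have h4 : (mc (star n) (m * K) : ℝ) ≤ W * ((FK K ((n + 1) ^ m) : ℝ) +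
      2 * (((n : ℝ) + 1) ^ m) ^ K) + r * (((n : ℝ) + 1) ^ m) ^ K := by exact_mod_cast h3
  have hF := FK_le (K := K) (Q := (n + 1) ^ m) h0 h1 hA
    (by calc 2 ≤ (n + 1) ^ 1 := by rw [pow_one]; omega
          _ ≤ (n + 1) ^ m := Nat.pow_le_pow_right (by omega) hm)
    (fun j hj => by
      have := h j hj
      rw [star_one] at this
      unfold nc at this
      unfold tau tz
      simpa using this)
  push_cast at hF
  unfold nc
  have hc : (Fintype.card (Fin (n + 1)) : ℝ) = (n : ℝ) + 1 := by simp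
  rw [hc, div_le_iff₀ (by positivity), pow_mul]
  have e1 : ((K : ℝ) * (2 / ((n : ℝ) + 1) ^ m)) ^ θ =
      (K : ℝ) ^ θ * (2 / ((n : ℝ) + 1) ^ m) ^ θ :=
    Real.mul_rpow (by positivity) (by positivity)
  calc (mc (star n) (m * K) : ℝ) ≤ _ := h4
    _ ≤ W * ((((n : ℝ) + 1) ^ m) ^ K * (A * ((K : ℝ) * (2 / ((n : ℝ) + 1) ^ m)) ^ θ) +
      2 * (((n : ℝ) + 1) ^ m) ^ K) + r * (((n : ℝ) + 1) ^ m) ^ K := by gcongr
    _ = _ := by rw [e1]; ring

theorem dbl_ineq {a u t δ η : ℝ} {k : ℕ} (ha1 : 1 ≤ a) (hk1 : 1 ≤ k) (hak : a + 1 ≤ 2 ^ k)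
    (hη0 : 0 < η) (hδ0 : 0 < δ) (hδ1 : δ ≤ 1 / 12) (hkδ : η * k ≤ δ / 2) (hu0 : 0 < u)
    (hδu : 6 * δ * (a + 1) ≤ u) (ht0 : 0 ≤ t) (ht1 : t + u ≤ 1) :
    2 * (a / (a + 1) * (1 - t)) * (a / (a + 1)) ^ (1 - η) +
      (2 * a / (2 * a + 1) * (1 - (t + u))) * ((2 * a + 1) / (a + 1) ^ 2) ^ (1 - η) ≤
      (1 - δ) * (a / (a + 1) * (1 - t)) * 2 ^ (1 - η) := by
  have hp : 0 ≤ 1 - t := by linarith
  have hp1 : 0 ≤ 1 - (t + u) := by linarith
  have h2k : (2 : ℝ) ≤ 2 ^ k := by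
    calc (2 : ℝ) = 2 ^ 1 := (pow_one _).symm
      _ ≤ 2 ^ k := pow_le_pow_right₀ (by norm_num) hk1
  have h1 : (a / (a + 1)) ^ (1 - η) ≤ a / (a + 1) * (1 + δ) := by
    refine rpow_le_of_small (k := k) (by positivity) ?_ hη0.le (by linarith) hδ0.le hkδ
    calc (1 : ℝ) ≤ a / (a + 1) * 2 := by
          rw [div_mul_eq_mul_div, le_div_iff₀ (by positivity)]; linarith
      _ ≤ _ := by gcongr
  have h2 : ((2 * a + 1) / (a + 1) ^ 2) ^ (1 - η) ≤
      (2 * a + 1) / (a + 1) ^ 2 * (1 + δ) := by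
    refine rpow_le_of_small (k := k) (by positivity) ?_ hη0.le (by linarith) hδ0.le hkδ
    calc (1 : ℝ) ≤ (2 * a + 1) / (a + 1) ^ 2 * (a + 1) := by
          rw [div_mul_eq_mul_div, le_div_iff₀ (by positivity)]; nlinarith
      _ ≤ _ := by gcongr
  have h3 : 2 * (1 - δ) ≤ (2 : ℝ) ^ (1 - η) :=
    le_rpow_of_small (k := k) (by norm_num) h2k hη0.le hδ0.le hkδ
  have key : (1 + δ) * ((a + 1) * (1 - t) - u) ≤ (1 - δ) ^ 2 * ((a + 1) * (1 - t)) := by
    have hG1 : (a + 1) * (1 - t) ≤ a + 1 := by nlinarith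
    have hG0 : 0 ≤ (a + 1) * (1 - t) := by positivity
    have h6 : 3 * δ * ((a + 1) * (1 - t)) ≤ 3 * δ * (a + 1) := by gcongr
    have h7 : 0 ≤ δ * u := by positivity
    have h8 : 0 ≤ δ ^ 2 * ((a + 1) * (1 - t)) := by positivity
    have h9 : (1 - δ) ^ 2 * ((a + 1) * (1 - t)) - (1 + δ) * ((a + 1) * (1 - t) - u) =
      (u + δ * u) + δ ^ 2 * ((a + 1) * (1 - t)) - 3 * δ * ((a + 1) * (1 - t)) := by ring
    have h10 : 3 * δ * (a + 1) ≤ u := by
      have : 0 ≤ δ * (a + 1) := by positivity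
      linarith
    linarith
  calc _ ≤ 2 * (a / (a + 1) * (1 - t)) * (a / (a + 1) * (1 + δ)) +
          (2 * a / (2 * a + 1) * (1 - (t + u))) * ((2 * a + 1) / (a + 1) ^ 2 * (1 + δ)) := by
        gcongr
    _ = 2 * a / (a + 1) ^ 2 * ((1 + δ) * ((a + 1) * (1 - t) - u)) := by
        field_simp; ring
    _ ≤ 2 * a / (a + 1) ^ 2 * ((1 - δ) ^ 2 * ((a + 1) * (1 - t))) := by gcongr
    _ = (1 - δ) * (a / (a + 1) * (1 - t)) * (2 * (1 - δ)) := by field_simp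
    _ ≤ _ := by
        have : 0 ≤ (1 - δ) * (a / (a + 1) * (1 - t)) :=
          mul_nonneg (by linarith) (by positivity)
        gcongr

theorem gad_ineq {n u w t δ η W : ℝ} {m k : ℕ} (hn1 : 1 ≤ n) (hm : 1 ≤ m)
    (hmk : m ≤ k) (hnk : (n + 1) ^ m ≤ 2 ^ k)
    (hη0 : 0 < η) (hδ0 : 0 < δ) (hδ1 : δ ≤ 1 / 12) (hkδ : η * k ≤ δ / 2) (hu0 : 0 < u)
    (hδu : 12 * δ ≤ u) (hw0 : 0 ≤ w) (hw1 : w ≤ 1) (ht : t + u = w) (hW0 : 0 ≤ W)
    (hW : W ≤ (1 - w) * m * n * (n + 1) ^ (m - 1)) :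
    W * (1 / 2) * (2 / (n + 1) ^ m) ^ (1 - η) ≤
      (1 - δ) * (n / (n + 1) * (1 - t)) * (m : ℝ) ^ (1 - η) := by
  have hm0 : (0 : ℝ) < m := by exact_mod_cast hm
  have h1 : (2 / (n + 1) ^ m) ^ (1 - η) ≤ 2 / (n + 1) ^ m * (1 + δ) := by
    refine rpow_le_of_small (k := k) (by positivity) ?_ hη0.le (by linarith) hδ0.le hkδ
    rw [div_mul_eq_mul_div, le_div_iff₀ (by positivity), one_mul]
    have : (0 : ℝ) ≤ 2 ^ k := by positivity
    linarith
  have h2 : m * (1 - δ) ≤ (m : ℝ) ^ (1 - η) := by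
    refine le_rpow_of_small (k := k) hm0 ?_ hη0.le hδ0.le hkδ
    have h3 : m ≤ 2 ^ k := (Nat.lt_two_pow_self (n := m)).le.trans
      (Nat.pow_le_pow_right (by norm_num) hmk)
    exact_mod_cast h3
  have key : (1 - w) * (1 + δ) ≤ (1 - δ) ^ 2 * (1 - t) := by
    have e : 1 - t = 1 - w + u := by linarith
    rw [e]
    have h7 : 0 ≤ δ * (1 - w) := mul_nonneg hδ0.le (by linarith)
    have h8 : 0 ≤ δ ^ 2 * (1 - w + u) := mul_nonneg (by positivity) (by linarith)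
    have h9 : (1 - δ) ^ 2 * (1 - w + u) - (1 - w) * (1 + δ) =
      δ ^ 2 * (1 - w + u) - 3 * (δ * (1 - w)) + u - 2 * (δ * u) := by ring
    have h10 : δ * (1 - w) ≤ δ := by nlinarith
    have h11 : δ * u ≤ 1 / 12 * u := by gcongr
    linarith
  have hpow : (n + 1) ^ m = (n + 1) ^ (m - 1) * (n + 1) := by
    rw [← pow_succ]; congr 1; omega
  calc _ ≤ W * (1 / 2) * (2 / (n + 1) ^ m * (1 + δ)) := by gcongr
    _ = W / (n + 1) ^ m * (1 + δ) := by field_simp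
    _ ≤ ((1 - w) * m * n * (n + 1) ^ (m - 1)) / (n + 1) ^ m * (1 + δ) := by gcongr
    _ = m * (n / (n + 1)) * ((1 - w) * (1 + δ)) := by rw [hpow]; field_simp
    _ ≤ m * (n / (n + 1)) * ((1 - δ) ^ 2 * (1 - t)) := by gcongr
    _ = (1 - δ) * (n / (n + 1) * (1 - t)) * (m * (1 - δ)) := by ring
    _ ≤ _ := by
        have : 0 ≤ (1 - δ) * (n / (n + 1) * (1 - t)) :=
          mul_nonneg (by linarith) (mul_nonneg (by positivity) (by linarith))
        gcongr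

/-- **Solution of the doubling recursion.** -/
theorem nc_le_of_gadget {s m W r : ℕ} (hm : 2 ≤ m)
    (hIP : IP (tpow (Fin m) (star (2 ^ s))) W r) {w η : ℝ} (hw0 : 0 < w) (hw1 : w ≤ 1)
    (hW : (W : ℝ) ≤ (1 - w) * m * 2 ^ s * (2 ^ s + 1) ^ (m - 1))
    (hη0 : 0 < η) (hη1 : 12 * η * m * (s + 1) ^ 2 * (2 ^ s + 1) ≤ w) :
    ∃ A : ℝ, 0 ≤ A ∧ ∀ K, nc (star 1) K ≤ A * (K : ℝ) ^ (1 - η) := by
  -- parameters
  set u : ℝ := w / (s + 1) with hu
  set δ : ℝ := 2 * η * (m * (s + 1)) with hδ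
  have hs1 : (0 : ℝ) < (s : ℝ) + 1 := by positivity
  have hm2 : (2 : ℝ) ≤ m := by exact_mod_cast hm
  have hm0 : (0 : ℝ) < m := by linarith
  have hδ0 : 0 < δ := by positivity
  have hu0 : 0 < u := by positivity
  have hsu : (s : ℝ) * u + u = w := by rw [hu]; field_simp
  have hδu : 6 * δ * (2 ^ s + 1) ≤ u := by
    rw [hu, le_div_iff₀ hs1, hδ]
    calc 6 * (2 * η * (m * (s + 1))) * (2 ^ s + 1) * ((s : ℝ) + 1)
        = 12 * η * m * (s + 1) ^ 2 * (2 ^ s + 1) := by ring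
      _ ≤ w := hη1
  have h2s : (1 : ℝ) ≤ 2 ^ s := one_le_pow₀ (by norm_num)
  have hu1 : u ≤ 1 := by nlinarith [mul_nonneg (Nat.cast_nonneg (α := ℝ) s) hu0.le]
  have hδ1 : δ ≤ 1 / 12 := by nlinarith
  set k : ℕ := m * (s + 1) with hk
  have hkδ : η * k ≤ δ / 2 := by
    rw [hk, hδ]; push_cast; linarith
  have hk1 : s + 1 ≤ k := by rw [hk]; nlinarith [Nat.zero_le s]
  set θ : ℝ := 1 - η with hθ
  have hη1' : η ≤ 1 / 12 := by
    have : η * 2 ≤ δ := by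
      rw [hδ]
      have : (1 : ℝ) ≤ m * (s + 1) := by nlinarith [Nat.cast_nonneg (α := ℝ) s]
      nlinarith
    linarith
  have hθ0 : 0 < θ := by rw [hθ]; linarith
  have hθ1 : θ ≤ 1 := by rw [hθ]; linarith
  -- weights
  set c : ℕ → ℝ := fun i => (2 ^ i / (2 ^ i + 1)) * (1 - i * u) with hc
  have hiu : ∀ i ≤ s, (i : ℝ) * u ≤ s * u := fun i hi => by
    have : (i : ℝ) ≤ s := by exact_mod_cast hi
    gcongr
  have hpos : ∀ i ≤ s, 0 < 1 - (i : ℝ) * u := fun i hi => by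
    have := hiu i hi
    linarith
  have hcpos : ∀ i ≤ s, 0 < c i := fun i hi => by
    have := hpos i hi
    simp only [hc]
    positivity
  set d : ℕ → ℝ := fun i => 2 * c i * ((2 : ℝ) ^ i / (2 ^ i + 1)) ^ θ +
    c (i + 1) * ((2 * (2 : ℝ) ^ i + 1) / ((2 : ℝ) ^ i + 1) ^ 2) ^ θ with hd
  obtain ⟨A, hA, hmain⟩ := vector_recursion (s := s) (m := m) hm (θ := θ) (ρ := 1 - δ)
    (D := 2 * W + r) hθ0 (by linarith) (by linarith) (by positivity)
    (fun i K => nc (star (2 ^ i)) K) c d (W * c 0 * (2 / ((2 : ℝ) ^ s + 1) ^ m) ^ θ) hcpos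
    (fun i _ => nc_zero _) (fun i _ K => nc_nonneg _ K) (fun i _ a b => nc_add_le _ a b)
    (fun i _ a => nc_le_mul _ a)
    (by
      intro i hi K A hA h h'
      have h2 := nc_star_two_mul_le hθ0 hθ1 (A := A * c i) (B := A * c (i + 1))
        (mul_nonneg hA (hcpos i hi.le).le) (mul_nonneg hA (hcpos (i + 1) hi).le) (2 ^ i) K h
        (by
          intro j hj
          have := h' j hj
          rwa [pow_succ, mul_comm] at this)
      refine h2.trans (le_of_eq ?_)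
      simp only [hd]
      push_cast
      ring)
    (by
      intro K A hA h
      have h2 := nc_star_gadget (n := 2 ^ s) (by omega) Nat.one_le_two_pow hIP hθ0 hθ1
        (A := A * c 0) (mul_nonneg hA (hcpos 0 (Nat.zero_le _)).le) K (by simpa using h)
      refine h2.trans (le_of_eq ?_)
      push_cast
      ring)
    (by
      intro i hi
      have hpi1 := hpos (i + 1) hi
      push_cast at hpi1
      have has : (2 : ℝ) ^ i ≤ 2 ^ s := pow_le_pow_right₀ (by norm_num) hi.le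
      have h4 : (2 : ℝ) ^ (s + 1) ≤ 2 ^ k := pow_le_pow_right₀ (by norm_num) hk1
      have h := dbl_ineq (a := 2 ^ i) (u := u) (t := i * u) (k := k)
        (one_le_pow₀ (by norm_num)) (by omega) (by rw [pow_succ] at h4; linarith)
        hη0 hδ0 hδ1 hkδ hu0 (le_trans (by gcongr) hδu) (by positivity) (by linarith)
      refine le_trans (le_of_eq ?_) h
      simp only [hd, hc]
      rw [pow_succ]
      push_cast
      ring)
    (by
      have h4 : ((2 : ℝ) ^ s + 1) ^ m ≤ 2 ^ k := by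
        have h5 : (2 : ℝ) ^ s + 1 ≤ 2 ^ (s + 1) := by rw [pow_succ]; linarith
        calc ((2 : ℝ) ^ s + 1) ^ m ≤ (2 ^ (s + 1)) ^ m := by gcongr
          _ = 2 ^ k := by rw [← pow_mul, hk, mul_comm]
      have h := gad_ineq (n := 2 ^ s) (u := u) (w := w) (t := s * u) (m := m) (k := k)
        (W := W) h2s (by omega) (by rw [hk]; nlinarith [Nat.zero_le s]) h4 hη0 hδ0 hδ1 hkδ hu0
        (by nlinarith) hw0.le hw1 hsu (by positivity) hW
      refine le_trans (le_of_eq ?_) h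
      simp only [hc]
      rw [hθ]
      norm_num)
  refine ⟨A * c 0, mul_nonneg hA (hcpos 0 (Nat.zero_le _)).le, fun K => ?_⟩
  simpa using hmain 0 (Nat.zero_le _) K

theorem savingExponent_gt : 1 - 1 / 10 ^ 12 < Crest.FourierCircuit.savingExponent := by
  unfold Crest.FourierCircuit.savingExponent Real.logb
  have h10 : (10 : ℝ) < Real.log (10 ^ 6) := by
    rw [Real.log_pow]
    have h1 : Real.log 8 < Real.log 10 := Real.log_lt_log (by norm_num) (by norm_num)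
    have h2 : Real.log 8 = 3 * Real.log 2 := by
      rw [show (8 : ℝ) = 2 ^ 3 by norm_num, Real.log_pow]; norm_num
    have h3 := Real.log_two_gt_d9
    push_cast
    linarith
  have hx : (10 ^ 6 - 6871402692000000 / 2 ^ 71 : ℝ) =
      10 ^ 6 * (1 - 6871402692000000 / 2 ^ 71 / 10 ^ 6) := by norm_num
  have hlog : Real.log (10 ^ 6) - 5 / 10 ^ 12 <
      Real.log (10 ^ 6 - 6871402692000000 / 2 ^ 71) := by
    rw [hx, Real.log_mul (by norm_num) (by norm_num)]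
    have h4 := Real.one_sub_inv_le_log_of_pos
      (x := 1 - 6871402692000000 / 2 ^ 71 / 10 ^ 6) (by norm_num)
    have h5 : (-(5 / 10 ^ 12) : ℝ) <
        1 - (1 - 6871402692000000 / 2 ^ 71 / 10 ^ 6 : ℝ)⁻¹ := by norm_num
    linarith
  rw [lt_div_iff₀ (by linarith)]
  have : (1 - 1 / 10 ^ 12) * Real.log (10 ^ 6) =
      Real.log (10 ^ 6) - Real.log (10 ^ 6) / 10 ^ 12 := by ring
  rw [this]
  have h6 : (5 / 10 ^ 12 : ℝ) < Real.log (10 ^ 6) / 10 ^ 12 := by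
    gcongr
    linarith
  linarith

/-- **The zeta transform from a star gadget.** -/
theorem zeta_of_gadget {s m W r : ℕ} (hm : 2 ≤ m)
    (hIP : IP (tpow (Fin m) (star (2 ^ s))) W r) {w : ℝ} (hw0 : 0 < w) (hw1 : w ≤ 1)
    (hW : (W : ℝ) ≤ (1 - w) * m * 2 ^ s * (2 ^ s + 1) ^ (m - 1))
    (hη1 : 12 * (1 / 10 ^ 12) * m * ((s : ℝ) + 1) ^ 2 * (2 ^ s + 1) ≤ w) :
    ∃ A θ : ℝ, 0 ≤ A ∧ 0 < θ ∧ θ < Crest.FourierCircuit.savingExponent ∧
      ∀ K : ℕ, ∃ k : ℕ, Cost (tpow (Fin K) L) k ∧ (k : ℝ) ≤ A * 2 ^ K * (K : ℝ) ^ θ := by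
  obtain ⟨A, hA, h⟩ := nc_le_of_gadget hm hIP hw0 hw1 hW (η := 1 / 10 ^ 12) (by norm_num) hη1
  refine ⟨A, 1 - 1 / 10 ^ 12, hA, by norm_num, savingExponent_gt, fun K => ?_⟩
  refine ⟨mc L K, cost_mc L K, ?_⟩
  have := h K
  rw [star_one] at this
  unfold nc at this
  rw [div_le_iff₀ (by positivity)] at this
  simp only [Fintype.card_fin] at this
  calc (mc L K : ℝ) ≤ _ := this
    _ = _ := by push_cast; ring

/-- integer form of the hypotheses -/
theorem zeta_of_gadget_nat {s m W r : ℕ} (hm : 2 ≤ m) (hm8 : m ≤ 8) (hs : s ≤ 14)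
    (hIP : IP (tpow (Fin m) (star (2 ^ s))) W r)
    (hW : 100 * W ≤ 99 * m * 2 ^ s * (2 ^ s + 1) ^ (m - 1)) :
    ∃ A θ : ℝ, 0 ≤ A ∧ 0 < θ ∧ θ < Crest.FourierCircuit.savingExponent ∧
      ∀ K : ℕ, ∃ k : ℕ, Cost (tpow (Fin K) L) k ∧ (k : ℝ) ≤ A * 2 ^ K * (K : ℝ) ^ θ := by
  refine zeta_of_gadget hm hIP (w := 1 / 100) (by norm_num) (by norm_num) ?_ ?_
  · have h : (100 : ℝ) * W ≤ 99 * m * 2 ^ s * (2 ^ s + 1) ^ (m - 1) := by exact_mod_cast hW
    linarith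
  · have h1 : (m : ℝ) ≤ 8 := by exact_mod_cast hm8
    have h2 : (s : ℝ) + 1 ≤ 15 := by
      have : (s : ℝ) ≤ 14 := by exact_mod_cast hs
      linarith
    have h3 : (2 : ℝ) ^ s + 1 ≤ 2 ^ 14 + 1 := by
      have : (2 : ℝ) ^ s ≤ 2 ^ 14 := pow_le_pow_right₀ (by norm_num) hs
      linarith
    calc 12 * (1 / 10 ^ 12) * (m : ℝ) * ((s : ℝ) + 1) ^ 2 * (2 ^ s + 1)
        ≤ 12 * (1 / 10 ^ 12) * 8 * 15 ^ 2 * (2 ^ 14 + 1) := by gcongr
      _ ≤ 1 / 100 := by norm_num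

end Crest.Agent.R324
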