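import Crest.Agent.R324.Gadget4
import Crest.Agent.R324.Solve

/-!
Row 324: the gadget in the form needed by `zeta_of_gadget_nat`, and the zeta transform.
-/

set_option autoImplicit false
set_option linter.unusedSectionVars false

namespace Crest.Agent.R324

open Matrix

section

variable {q q' : Type*} [Fintype q] [DecidableEq q] [Fintype q'] [DecidableEq q']

theorem TW.toIP {M : Matrix q q ℂ} {k : ℕ} (h : TW M k) : ∃ k' ≤ k, IP M k' 0 := by
  induction h with
  | one => exact ⟨0, le_refl _, IP.one⟩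
  | skip _ ih =>
    obtain ⟨k', hk, h⟩ := ih
    exact ⟨k', hk.trans (Nat.le_succ _), h⟩
  | step a b hab c _ ih =>
    obtain ⟨k', hk, h⟩ := ih
    exact ⟨k' + 1, Nat.succ_le_succ hk, h.trans_mul hab c⟩

theorem TW.reindex {M : Matrix q q ℂ} {k : ℕ} (h : TW M k) (e : q' ≃ q) :
    TW (M.submatrix e e) k := by
  induction h with
  | one =>
    rw [Matrix.submatrix_one_equiv]
    exact TW.one
  | skip _ ih => exact ih.skip
  | @step M k a b hab c _ ih =>
    rw [← Matrix.submatrix_mul_equiv (Matrix.transvection a b c) M e e e]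
    have : (Matrix.transvection a b c).submatrix e e =
        Matrix.transvection (e.symm a) (e.symm b) c := by
      ext i j
      simp only [Matrix.submatrix_apply, Matrix.transvection, Matrix.add_apply,
        Matrix.one_apply, Matrix.single_apply, EmbeddingLike.apply_eq_iff_eq,
        Equiv.symm_apply_eq]
    rw [this]
    exact ih.step _ _ (fun h => hab (e.symm.injective h)) c

end

/-- **The gadget**: the fourth tensor power of the star with 256 leaves. -/
theorem gadget_IP : ∃ W, IP (tpow (Fin 4) (star (2 ^ 8))) W 0 ∧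
    100 * W ≤ 99 * 4 * 2 ^ 8 * (2 ^ 8 + 1) ^ (4 - 1) := by
  obtain ⟨W, hW, hle⟩ := TW.star_four (B := Fin 128)
  let e1 : Fin (2 ^ 8) ≃ Fin 128 × Bool := Fintype.equivOfCardEq (by simp)
  let e2 : Fin (2 ^ 8 + 1) ≃ Option (Fin 128 × Bool) :=
    (finSuccEquiv (2 ^ 8)).trans (Equiv.optionCongr e1)
  have h1 := hW.reindex (Equiv.arrowCongr (Equiv.refl (Fin 4)) e2)
  have h2 : (ptp (fun _ : Fin 4 => starO (Fin 128 × Bool))).submatrix
      (Equiv.arrowCongr (Equiv.refl (Fin 4)) e2) (Equiv.arrowCongr (Equiv.refl (Fin 4)) e2) =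
      tpow (Fin 4) (star (2 ^ 8)) := by
    rw [star_eq, ← starO_submatrix e1, Matrix.submatrix_submatrix]
    ext x y
    simp only [Matrix.submatrix_apply, ptp, tpow_apply, Matrix.of_apply]
    rfl
  rw [h2] at h1
  obtain ⟨W', hW', h⟩ := h1.toIP
  refine ⟨W', h, ?_⟩
  rw [Fintype.card_fin] at hle
  norm_num at hle ⊢
  omega

/-- **The zeta transform in `O(2^K K^θ)` gates with `θ` below the saving exponent.** -/
theorem zeta_cost : ∃ A θ : ℝ, 0 ≤ A ∧ 0 < θ ∧ θ < Crest.FourierCircuit.savingExponent ∧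
      ∀ K : ℕ, ∃ k : ℕ, Cost (tpow (Fin K) L) k ∧ (k : ℝ) ≤ A * 2 ^ K * (K : ℝ) ^ θ := by
  obtain ⟨W, h, hW⟩ := gadget_IP
  exact zeta_of_gadget_nat (by norm_num) (by norm_num) (by norm_num) h hW

end Crest.Agent.R324
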