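import Mathlib

/-!
Row 324: pairwise coprime small moduli whose product lies in `[2n, 8n]`: the prime power
components of a central binomial coefficient (no distribution of primes needed).
-/

set_option autoImplicit false

namespace Crest.Agent.R324

open Finset

theorem two_pow_le_centralBinom (m : ℕ) : 2 ^ m ≤ Nat.centralBinom m := by
  rcases Nat.eq_zero_or_pos m with rfl | hm
  · simp
  have h1 := Nat.four_pow_le_two_mul_self_mul_centralBinom m hm
  have h2 : 2 * m ≤ 2 ^ m := by
    obtain ⟨k, rfl⟩ : ∃ k, m = k + 1 := ⟨m - 1, by omega⟩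
    have : k < 2 ^ k := Nat.lt_two_pow_self
    rw [pow_succ]; omega
  have h3 : 2 ^ m * 2 ^ m ≤ 2 ^ m * Nat.centralBinom m := by
    calc 2 ^ m * 2 ^ m = 4 ^ m := by rw [← mul_pow]; norm_num
      _ ≤ 2 * m * Nat.centralBinom m := h1
      _ ≤ 2 ^ m * Nat.centralBinom m := Nat.mul_le_mul_right _ h2
  exact Nat.le_of_mul_le_mul_left h3 (by positivity)

theorem centralBinom_succ_le (m : ℕ) : Nat.centralBinom (m + 1) ≤ 4 * Nat.centralBinom m := by
  have h := Nat.succ_mul_centralBinom_succ m
  have h1 : (m + 1) * Nat.centralBinom (m + 1) ≤ (m + 1) * (4 * Nat.centralBinom m) := by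
    rw [h]
    nlinarith [Nat.centralBinom_pos m]
  exact Nat.le_of_mul_le_mul_left h1 (by omega)

theorem exists_centralBinom (n : ℕ) (hn : 1 ≤ n) :
    ∃ m, 2 * n ≤ Nat.centralBinom m ∧ Nat.centralBinom m ≤ 8 * n ∧ m ≤ Nat.log 2 n + 3 := by
  have hex : ∃ m, 2 * n ≤ Nat.centralBinom m := by
    refine ⟨2 * n, ?_⟩
    have := two_pow_le_centralBinom (2 * n)
    have h2 : 2 * n < 2 ^ (2 * n) := Nat.lt_two_pow_self
    omega
  classical
  have h1 := Nat.find_spec hex
  set m := Nat.find hex with hm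
  have hm0 : m ≠ 0 := by
    intro h0
    rw [h0, Nat.centralBinom_zero] at h1
    omega
  have h2 : Nat.centralBinom (m - 1) < 2 * n := by
    have := Nat.find_min hex (m := m - 1) (by omega)
    omega
  have h3 : Nat.centralBinom m ≤ 8 * n := by
    have := centralBinom_succ_le (m - 1)
    rw [Nat.sub_add_cancel (by omega)] at this
    omega
  refine ⟨m, h1, h3, ?_⟩
  have h4 : 2 ^ (m - 1) < 2 * n := (two_pow_le_centralBinom (m - 1)).trans_lt h2
  have h5 : m - 1 ≤ Nat.log 2 (2 * n) := Nat.le_log_of_pow_le (by norm_num) h4.le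
  rw [mul_comm, Nat.log_mul_base (by norm_num) (by omega)] at h5
  omega

/-- pairwise coprime moduli `q i ≤ K ≤ 2 log₂ n + 7` with product between `2 n` and `8 n` -/
theorem moduli (n : ℕ) (hn : 1 ≤ n) :
    ∃ (K : ℕ) (q : Fin K → ℕ), (∀ i, 0 < q i) ∧ Pairwise (Function.onFun Nat.Coprime q) ∧
      (∀ i, q i ≤ K) ∧ K ≤ 2 * Nat.log 2 n + 7 ∧ 2 * n ≤ ∏ i, q i ∧ ∏ i, q i ≤ 8 * n := by
  obtain ⟨m, h1, h2, h3⟩ := exists_centralBinom n hn
  have hm : 0 < m := by
    rcases Nat.eq_zero_or_pos m with rfl | h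
    · rw [Nat.centralBinom_zero] at h1; omega
    · exact h
  have hprod : ∏ i : Fin (2 * m + 1), (i : ℕ) ^ (Nat.centralBinom m).factorization i =
      Nat.centralBinom m := by
    rw [← Nat.prod_pow_factorization_centralBinom m]
    conv_rhs => rw [Finset.prod_range]
    rw [Nat.prod_pow_factorization_centralBinom m]
  refine ⟨2 * m + 1, fun i => (i : ℕ) ^ (Nat.centralBinom m).factorization i, ?_, ?_, ?_, ?_, ?_, ?_⟩
  · intro i
    rcases Nat.eq_zero_or_pos (i : ℕ) with h | h
    · simp [h]
    · exact Nat.pow_pos h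
  · intro i j hij
    simp only [Function.onFun]
    by_cases hi : (i : ℕ).Prime
    · by_cases hj : (j : ℕ).Prime
      · exact Nat.Coprime.pow _ _ ((Nat.coprime_primes hi hj).2 fun h => hij (Fin.ext h))
      · rw [Nat.factorization_eq_zero_of_not_prime _ hj, pow_zero]
        exact Nat.coprime_one_right _
    · rw [Nat.factorization_eq_zero_of_not_prime _ hi, pow_zero]
      exact Nat.coprime_one_left _
  · intro i
    have := Nat.pow_factorization_choose_le (p := (i : ℕ)) (n := 2 * m) (k := m) (by omega)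
    rw [← Nat.centralBinom_eq_two_mul_choose] at this
    exact this.trans (Nat.le_succ _)
  · omega
  · rw [hprod]; exact h1
  · rw [hprod]; exact h2

end Crest.Agent.R324
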