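import Crest.Agent.R324.Bluestein

/-!
Row 324: the pairing on `∏ ZMod (q i)` given by primitive roots of unity, and Bluestein's reduction
for it: the DFT of any order `n` costs two "mixed radix tensor products" of small Fourier matrices.
-/

set_option autoImplicit false
set_option linter.unusedSectionVars false

namespace Crest.Agent.R324

open Matrix Crest.FourierCircuit

theorem pow_mod_of_eq_one {z : ℂ} {N : ℕ} (h : z ^ N = 1) (k : ℕ) : z ^ (k % N) = z ^ k := by
  conv_rhs => rw [← Nat.mod_add_div k N, pow_add, pow_mul, h, one_pow, mul_one]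

/-- the pairing of `ZMod N` -/
theorem isPairing_zmod {N : ℕ} [NeZero N] {z : ℂ} (hz : IsPrimitiveRoot z N) :
    IsPairing (A := ZMod N) (fun a b => z ^ (a.val * b.val)) where
  symm a b := by rw [mul_comm]
  add a b c := by
    have h1 : z ^ (a + b).val = z ^ (a.val + b.val) := by
      rw [ZMod.val_add]
      exact pow_mod_of_eq_one hz.pow_eq_one (a.val + b.val)
    rw [pow_mul, h1, ← pow_mul, ← pow_add]
    congr 1
    ring
  orth a := by
    have hN : N ≠ 0 := NeZero.ne N
    obtain ⟨n, rfl⟩ : ∃ n, N = n + 1 := ⟨N - 1, by omega⟩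
    have h0 : ∑ b : ZMod (n + 1), z ^ (a.val * b.val) =
        ∑ i ∈ Finset.range (n + 1), (z ^ a.val) ^ i := by
      have h := Fin.sum_univ_eq_sum_range (fun i => (z ^ a.val) ^ i) (n + 1)
      rw [← h]
      refine Finset.sum_congr rfl fun b _ => ?_
      rw [pow_mul]
      rfl
    rw [h0]
    by_cases ha : a = 0
    · subst ha
      simp
    · rw [if_neg ha]
      have h1 : z ^ a.val ≠ 1 := by
        refine hz.pow_ne_one_of_pos_of_lt ?_ (ZMod.val_lt a)
        exact fun h => ha ((ZMod.val_eq_zero a).1 h)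
      have h2 : (z ^ a.val) ^ (n + 1) = 1 := by
        rw [← pow_mul, mul_comm, pow_mul, hz.pow_eq_one, one_pow]
      have h3 := mul_geom_sum (z ^ a.val) (n + 1)
      rw [h2, sub_self] at h3
      exact (mul_eq_zero.1 h3).resolve_left (sub_ne_zero.2 h1)

section Pi

variable {κ : Type*} [Fintype κ] [DecidableEq κ]

/-- products of pairings -/
theorem IsPairing.pi {A : κ → Type*} [∀ i, AddCommGroup (A i)] [∀ i, Fintype (A i)]
    [∀ i, DecidableEq (A i)] {e : ∀ i, A i → A i → ℂ} (he : ∀ i, IsPairing (e i)) :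
    IsPairing (A := ∀ i, A i) (fun a b => ∏ i, e i (a i) (b i)) where
  symm a b := Finset.prod_congr rfl fun i _ => (he i).symm _ _
  add a b c := by
    rw [← Finset.prod_mul_distrib]
    exact Finset.prod_congr rfl fun i _ => (he i).add _ _ _
  orth a := by
    have h1 : ∑ b : (∀ i, A i), ∏ i, e i (a i) (b i) = ∏ i, ∑ b, e i (a i) b := by
      rw [Finset.prod_univ_sum, Fintype.piFinset_univ]
    rw [h1, Finset.prod_congr rfl fun i _ => (he i).orth (a i)]
    by_cases ha : a = 0
    · subst ha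
      simp [Fintype.card_pi]
    · rw [if_neg ha]
      obtain ⟨i, hi⟩ := Function.ne_iff.1 ha
      exact Finset.prod_eq_zero (Finset.mem_univ i) (if_neg hi)

theorem prod_le_addOrderOf_one {q : κ → ℕ} [∀ i, NeZero (q i)]
    (hc : Pairwise (Function.onFun Nat.Coprime q)) :
    ∏ i, q i ≤ addOrderOf (1 : ∀ i, ZMod (q i)) := by
  have h1 : ∀ i, q i ∣ addOrderOf (1 : ∀ i, ZMod (q i)) := by
    intro i
    have h := addOrderOf_nsmul_eq_zero (1 : ∀ i, ZMod (q i))
    have h' := congrFun h i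
    simp only [Pi.smul_apply, Pi.one_apply, nsmul_eq_mul, mul_one, Pi.zero_apply] at h'
    exact (ZMod.natCast_eq_zero_iff _ _).1 h'
  have h2 : ∏ i, q i ∣ addOrderOf (1 : ∀ i, ZMod (q i)) :=
    Finset.prod_dvd_of_isRelPrime (fun i _ j _ hij => Nat.coprime_iff_isRelPrime.1 (hc hij)) fun i _ => h1 i
  exact Nat.le_of_dvd (addOrderOf_pos _) h2

/-- the mixed tensor product of the small Fourier matrices `(z_i ^ (j k))` -/
noncomputable def tensorF (q : κ → ℕ) (z : κ → ℂ) :
    Matrix (∀ i, Fin (q i)) (∀ i, Fin (q i)) ℂ :=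
  Matrix.of fun x y => ∏ i, z i ^ ((x i : ℕ) * (y i : ℕ))

/-- the DFT of any order `n` with `2 n - 1 ≤ ∏ q i` costs two mixed tensor products -/
theorem Cost.bluestein_prod {q : κ → ℕ} (hq : ∀ i, q i ≠ 0)
    (hc : Pairwise (Function.onFun Nat.Coprime q)) {z : κ → ℂ}
    (hz : ∀ i, IsPrimitiveRoot (z i) (q i)) {n k : ℕ} (hn : 2 * n ≤ ∏ i, q i + 1)
    (hF : Cost (tensorF q z) k) :
    Cost (dftMatrix n) (2 * k + ∏ i, q i + 2 * n) := by
  have : ∀ i, NeZero (q i) := fun i => ⟨hq i⟩
  have hp := IsPairing.pi (κ := κ) (fun i => isPairing_zmod (hz i))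
  have hv : ∀ i : κ, ∃ f : ZMod (q i) ≃ Fin (q i), ∀ a, ((f a : Fin (q i)) : ℕ) = a.val := by
    intro i
    obtain ⟨m, hm⟩ : ∃ m, q i = m + 1 := ⟨q i - 1, by have := hq i; omega⟩
    rw [hm]
    exact ⟨Equiv.refl (Fin (m + 1)), fun a => rfl⟩
  choose f hf using hv
  have h1 := hF.reindex (Equiv.piCongrRight f) (Equiv.piCongrRight f)
  have h2 : Cost (Matrix.of fun a b : (∀ i, ZMod (q i)) =>
      ∏ i, z i ^ ((a i).val * (b i).val)) k := by
    convert h1 using 1
    ext a b
    simp only [Matrix.of_apply, Matrix.submatrix_apply, tensorF, Equiv.piCongrRight_apply,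
      Pi.map_apply, hf]
  have h3 := Cost.bluestein hp (n := n) (1 : ∀ i, ZMod (q i))
    (hn.trans (Nat.add_le_add_right (prod_le_addOrderOf_one hc) 1)) h2
  have h4 : Fintype.card (∀ i, ZMod (q i)) = ∏ i, q i := by
    rw [Fintype.card_pi]
    exact Finset.prod_congr rfl fun i _ => ZMod.card (q i)
  rwa [h4] at h3

end Pi

end Crest.Agent.R324
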