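import Crest.Agent.R324.Final
import Crest.Agent.R324.DRounds
import Crest.Agent.R324.ProdPairing
import Crest.Agent.R324.Primes

/-!
Row 324: glue. The two remaining inputs are the layered words for the Fourier matrices (`hG`)
and the bound for the zeta transform (`hZ`).
-/

set_option autoImplicit false

namespace Crest.Agent.R324

open Matrix Crest.FourierCircuit

theorem zetaFin_two : zetaFin 2 = L := by
  ext i j
  fin_cases i <;> fin_cases j <;> simp [zetaFin, L]

/-- S0501 from (hG) and (hZ) -/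
theorem glue
    (hG : ∃ C : ℕ, ∀ N : ℕ, 1 ≤ N → ∀ z : ℂ, IsPrimitiveRoot z N →
      LW (C * (Nat.log 2 N + 1)) (Matrix.of fun j k : Fin N => z ^ (j.val * k.val)))
    (hZ : ∃ A θ : ℝ, 0 ≤ A ∧ 0 < θ ∧ θ < savingExponent ∧
      ∀ K : ℕ, ∃ k : ℕ, Cost (tpow (Fin K) L) k ∧ (k : ℝ) ≤ A * 2 ^ K * (K : ℝ) ^ θ) :
    ∃ C : ℝ, ∃ N₀ : ℕ, ∀ n ≥ N₀, ∃ P : LinCircuit n,
      P.Computes (dftMatrix n) ∧
        (P.size : ℝ) ≤ C * n * Real.log n ^ savingExponent *
          Real.log (Real.log n) ^ (4 - savingExponent) := by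
  obtain ⟨C, hG⟩ := hG
  obtain ⟨A, θ, hA, hθ0, hθ, hZ⟩ := hZ
  refine final_assembly (A := A) (θ' := θ) (a := 64) (b := 7) (c := 2 * C) 1 hθ0.le hθ hA
    (by norm_num) (by norm_num) (by positivity) ?_
  intro n hn
  obtain ⟨K, q, hq0, hcop, hqK, hK, hprod1, hprod2⟩ := moduli n hn
  -- primitive roots
  let z : Fin K → ℂ := fun i => Complex.exp (2 * Real.pi * Complex.I / q i)
  have hz : ∀ i, IsPrimitiveRoot (z i) (q i) := fun i =>
    Complex.isPrimitiveRoot_exp (q i) (hq0 i).ne'
  set R : ℕ := C * (Nat.log 2 K + 1) with hR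
  have hLW : ∀ i, LW R (Matrix.of fun j k : Fin (q i) => z i ^ (j.val * k.val)) := by
    intro i
    refine (hG (q i) (hq0 i) (z i) (hz i)).mono ?_
    rw [hR]
    have := Nat.log_mono_right (b := 2) (hqK i)
    gcongr
  have hmono : Monotone (fun m : ℕ => A * (m : ℝ) ^ θ) := by
    intro a b hab
    have : (a : ℝ) ≤ b := by exact_mod_cast hab
    show A * (a : ℝ) ^ θ ≤ A * (b : ℝ) ^ θ
    gcongr
  have hten := CostR.piKron_LW (fun m : ℕ => A * (m : ℝ) ^ θ) hmono
    (fun m => by positivity)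
    (by
      intro m
      obtain ⟨k, hk, hk'⟩ := hZ m
      rw [zetaFin_two]
      exact ⟨k, by linarith, hk⟩)
    (fun i : Fin K => Fin (q i)) R
    (fun i => Matrix.of fun j k : Fin (q i) => z i ^ (j.val * k.val)) hLW
  obtain ⟨k, hk, hcost⟩ := hten
  have hcost' : Cost (tensorF q z) k := hcost
  have hb := Cost.bluestein_prod (fun i => (hq0 i).ne') hcop hz (n := n) (k := k)
    (by omega) hcost'
  have hKy : (K : ℝ) ≤ 7 * (Real.log n + 1) := by
    have h1 : (K : ℝ) ≤ 2 * Nat.log 2 n + 7 := by exact_mod_cast hK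
    have h2 := Real.natLog_le_logb n 2
    have h3 : Real.logb (2 : ℕ) n ≤ 3 * Real.log n := by
      unfold Real.logb
      push_cast
      have hl := Real.log_two_gt_d9
      rw [div_le_iff₀ (by linarith)]
      have h4 : 0 ≤ Real.log n := Real.log_natCast_nonneg n
      nlinarith
    have h4 : 0 ≤ Real.log n := Real.log_natCast_nonneg n
    linarith
  refine ⟨_, K, R, hb, ?_, hKy, ?_⟩
  · have hP : (∏ i, (Fintype.card (Fin (q i)) : ℝ)) ≤ 8 * n := by
      simp only [Fintype.card_fin]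
      exact_mod_cast hprod2
    have hP' : ((∏ i, q i : ℕ) : ℝ) ≤ 8 * n := by exact_mod_cast hprod2
    have hAK : 0 ≤ A * (K : ℝ) ^ θ := by positivity
    have h1 : (k : ℝ) ≤ R * ((8 * n) * (A * (K : ℝ) ^ θ + 4)) := hk.trans (by gcongr)
    have hn1 : (1 : ℝ) ≤ n := by exact_mod_cast hn
    have hR0 : (0 : ℝ) ≤ R := by positivity
    push_cast at hP' ⊢
    have h2 : (R : ℝ) * ((8 * n) * (A * (K : ℝ) ^ θ + 4)) ≤
        R * ((8 * n) * (4 * (A * (K : ℝ) ^ θ + 1))) := by
      gcongr
      linarith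
    have h3 : (0 : ℝ) ≤ n * (A * (K : ℝ) ^ θ) := by positivity
    nlinarith
  · have hlogn : 0 ≤ Real.log n := Real.log_natCast_nonneg n
    set y : ℝ := 7 * (Real.log n + 1) with hy
    have hy1 : 1 ≤ y := by rw [hy]; linarith
    have hly : 0 ≤ Real.log y := Real.log_nonneg hy1
    have h1 : (Nat.log 2 K : ℝ) ≤ 2 * Real.log y := by
      have h2 := Real.natLog_le_logb K 2
      refine h2.trans ?_
      unfold Real.logb
      push_cast
      have hl := Real.log_two_gt_d9
      rw [div_le_iff₀ (by linarith)]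
      have h3 : Real.log K ≤ Real.log y := by
        rcases Nat.eq_zero_or_pos K with h0 | h0
        · rw [h0]; simpa using hly
        · exact Real.log_le_log (by exact_mod_cast h0) hKy
      nlinarith
    rw [hR, pow_one]
    push_cast
    have hC : (0 : ℝ) ≤ C := by positivity
    nlinarith

end Crest.Agent.R324
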