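import Crest.Agent.R324.Word

/-!
Row 324, module D: the star matrix on the light symbols, grouped in triples (helper683).
-/

set_option autoImplicit false
set_option linter.unusedSectionVars false

namespace Crest.Agent.R324

open Matrix

variable {p q r : Type*} [Fintype p] [DecidableEq p] [Fintype q] [DecidableEq q]
  [Fintype r] [DecidableEq r]

/-- cost per entry of the `K`-th tensor power -/
noncomputable def pcost (A : Matrix q q ℂ) (K : ℕ) : ℝ := (mc A K : ℝ) / (Fintype.card q : ℝ) ^ K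

theorem pcost_nonneg (A : Matrix q q ℂ) (K : ℕ) : 0 ≤ pcost A K := by
  unfold pcost; positivity

theorem pcost_L (K : ℕ) : pcost L K = tau K := by
  simp [pcost, tau, tz]

theorem mc_zero [Nonempty q] (A : Matrix q q ℂ) : mc A 0 = 0 := by
  refine Nat.le_zero.1 (mc_le ?_)
  have : tpow (Fin 0) A = 1 := by
    ext x y
    rw [Subsingleton.elim x y]
    simp
  rw [this]
  exact Cost.one

theorem pcost_zero [Nonempty q] (A : Matrix q q ℂ) : pcost A 0 = 0 := by
  simp [pcost, mc_zero]

theorem pcost_mul_le (A B : Matrix q q ℂ) (K : ℕ) : pcost (A * B) K ≤ pcost A K + pcost B K := by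
  unfold pcost
  rw [← add_div]
  have := mc_mul_le A B K
  have h : (mc (A * B) K : ℝ) ≤ mc A K + mc B K := by exact_mod_cast this
  gcongr

theorem pcost_add_le [Nonempty q] (A : Matrix q q ℂ) (a b : ℕ) :
    pcost A (a + b) ≤ pcost A a + pcost A b := by
  have hQ : (0 : ℝ) < Fintype.card q := by exact_mod_cast Fintype.card_pos
  unfold pcost
  have h := mc_add_le A a b
  have h' : (mc A (a + b) : ℝ) ≤ (Fintype.card q : ℝ) ^ b * mc A a +
      (Fintype.card q : ℝ) ^ a * mc A b := by exact_mod_cast h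
  rw [div_le_iff₀ (by positivity)]
  calc (mc A (a + b) : ℝ) ≤ (Fintype.card q : ℝ) ^ b * mc A a +
        (Fintype.card q : ℝ) ^ a * mc A b := h'
    _ = (mc A a / (Fintype.card q : ℝ) ^ a + mc A b / (Fintype.card q : ℝ) ^ b) *
        (Fintype.card q : ℝ) ^ (a + b) := by
      rw [pow_add]; field_simp

theorem pcost_tpow (A : Matrix q q ℂ) (m K : ℕ) : pcost (tpow (Fin m) A) K = pcost A (m * K) := by
  unfold pcost
  rw [mc_tpow_eq, Fintype.card_fun, Fintype.card_fin, Nat.cast_pow, ← pow_mul]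

theorem pcost_le_mul [Nonempty q] (A : Matrix q q ℂ) (K : ℕ) : pcost A K ≤ K * pcost A 1 := by
  induction K with
  | zero => simp [pcost_zero]
  | succ K ih =>
    refine (pcost_add_le A K 1).trans ?_
    push_cast
    nlinarith [ih]

/-- Grouping the tensor factors in blocks of `m`. -/
theorem pcost_group [Nonempty q] (A : Matrix q q ℂ) {m : ℕ} (hm : 0 < m) (l : ℕ) :
    pcost A l ≤ pcost (tpow (Fin m) A) (l / m) + (m - 1 : ℕ) * pcost A 1 := by
  have h1 : l = m * (l / m) + l % m := (Nat.div_add_mod l m).symm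
  have h2 : l % m ≤ m - 1 := by have := Nat.mod_lt l hm; omega
  calc pcost A l = pcost A (m * (l / m) + l % m) := by rw [← h1]
    _ ≤ pcost A (m * (l / m)) + pcost A (l % m) := pcost_add_le A _ _
    _ ≤ pcost (tpow (Fin m) A) (l / m) + (m - 1 : ℕ) * pcost A 1 := by
      rw [pcost_tpow]
      have h3 := pcost_le_mul A (l % m)
      have h4 : ((l % m : ℕ) : ℝ) ≤ ((m - 1 : ℕ) : ℝ) := by exact_mod_cast h2
      have h5 := pcost_nonneg A 1
      have h6 := mul_le_mul_of_nonneg_right h4 h5
      linarith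

/-- binomial mean -/
noncomputable def binE (K : ℕ) (x : ℝ) (f : ℕ → ℝ) : ℝ :=
  ∑ j ∈ Finset.range (K + 1), (K.choose j : ℝ) * x ^ j * (1 - x) ^ (K - j) * f j

/-- `FK` per entry is a binomial mean of `tau`. -/
theorem FK_div_eq {Q : ℕ} (hQ : 2 ≤ Q) (K : ℕ) :
    (FK K Q : ℝ) / (Q : ℝ) ^ K = binE K (2 / Q) tau := by
  have hQ0 : (0 : ℝ) < Q := by exact_mod_cast (by omega : 0 < Q)
  have hcast : ((Q - 2 : ℕ) : ℝ) = Q - 2 := by
    rw [Nat.cast_sub hQ]; norm_num
  unfold FK binE tau
  push_cast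
  rw [hcast, Finset.sum_div]
  refine Finset.sum_congr rfl fun j hj => ?_
  have hjK : j ≤ K := Nat.lt_succ_iff.1 (Finset.mem_range.1 hj)
  have e1 : (Q : ℝ) ^ K = Q ^ j * Q ^ (K - j) := by
    rw [← pow_add]; congr 1; omega
  have e2 : (1 - 2 / (Q : ℝ)) = (Q - 2) / Q := by field_simp
  rw [e1, e2, div_pow, div_pow]
  field_simp

/-- per entry form of `IP.mc_le` -/
theorem IP.pcost_le {M : Matrix q q ℂ} {r s : ℕ} (h : IP M r s) (hq : 2 ≤ Fintype.card q)
    (K : ℕ) :
    pcost M K ≤ r * (binE K (2 / Fintype.card q) tau + 2) + s := by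
  have hQ0 : (0 : ℝ) < Fintype.card q := by exact_mod_cast (by omega : 0 < Fintype.card q)
  have h1 := h.mc_le K
  have h2 : (mc M K : ℝ) ≤ r * ((FK K (Fintype.card q) : ℝ) + 2 * (Fintype.card q : ℝ) ^ K) +
      s * (Fintype.card q : ℝ) ^ K := by exact_mod_cast h1
  rw [← FK_div_eq hq]
  unfold pcost
  rw [div_le_iff₀ (by positivity)]
  refine h2.trans (le_of_eq ?_)
  field_simp

/-! ### the star matrix -/

/-- the star `y_0 = x_0`, `y_i = x_i + x_0` -/
def Astar (b : ℕ) : Matrix (Fin (b + 1)) (Fin (b + 1)) ℂ :=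
  Matrix.of fun i j => if i = j then 1 else if j = 0 then 1 else 0

theorem ip_partial_star (b : ℕ) (s : Finset (Fin (b + 1))) (hs : (0 : Fin (b + 1)) ∉ s) :
    IP (Matrix.of fun i j : Fin (b + 1) => if i = j then (1 : ℂ) else
      if j = 0 ∧ i ∈ s then 1 else 0) s.card 0 := by
  induction s using Finset.induction_on with
  | empty =>
    have : (Matrix.of fun i j : Fin (b + 1) => if i = j then (1 : ℂ) else
      if j = 0 ∧ i ∈ (∅ : Finset (Fin (b + 1))) then 1 else 0) = 1 := by
      ext i j; simp [Matrix.one_apply]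
    rw [this]
    exact IP.one
  | insert a s ha ih =>
    have ha0 : a ≠ 0 := fun h => hs (h ▸ Finset.mem_insert_self a s)
    have hs0 : (0 : Fin (b + 1)) ∉ s := fun h => hs (Finset.mem_insert_of_mem h)
    have h := (ih hs0).trans_mul ha0 (1 : ℂ)
    rw [Finset.card_insert_of_notMem ha]
    convert h using 1
    ext i j
    rw [Matrix.transvection, Matrix.add_mul, Matrix.one_mul, Matrix.add_apply]
    by_cases hi : i = a
    · subst hi
      rw [Matrix.single_mul_apply_same]
      simp only [Matrix.of_apply, one_mul]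
      by_cases hj : j = 0
      · subst hj; simp [ha0, ha]
      · simp [hj, Ne.symm hj]
    · rw [Matrix.single_mul_apply_of_ne (h := fun h => hi h)]
      simp [Matrix.of_apply, Finset.mem_insert, hi]

theorem ip_Astar (b : ℕ) : IP (Astar b) b 0 := by
  have h := ip_partial_star b (Finset.univ.erase 0) (by simp)
  have hc : (Finset.univ.erase (0 : Fin (b + 1))).card = b := by simp
  rw [hc] at h
  convert h using 1
  ext i j
  simp only [Astar, Matrix.of_apply, Finset.mem_erase, Finset.mem_univ, and_true]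
  by_cases hij : i = j
  · simp [hij]
  · by_cases hj : j = 0
    · subst hj; simp [hij]
    · simp [hij, hj]

theorem cost_L : Cost L 1 := by
  have h1 : Reach (coords (Fin 2)) 0 {(Pi.single 0 1 : Fin 2 → ℂ)} :=
    Reach.of_subset (by rintro _ rfl; exact ⟨0, rfl⟩) 0
  have h2 : Reach (coords (Fin 2)) 1 {(Pi.single 0 1 : Fin 2 → ℂ) + Pi.single 1 1} :=
    (Reach.add _ _).mono_left (by
      rintro x hx
      rcases hx with rfl | hx
      · exact ⟨0, rfl⟩
      · rw [Set.mem_singleton_iff] at hx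
        subst hx
        exact ⟨1, rfl⟩)
  have h3 := Reach.union h1 h2
  rw [Set.union_self, Nat.zero_add] at h3
  refine Reach.mono_right h3 ?_
  rintro _ ⟨j, rfl⟩
  fin_cases j
  · left
    rw [Set.mem_singleton_iff]
    ext i
    fin_cases i <;> simp [L]
  · right
    rw [Set.mem_singleton_iff]
    ext i
    fin_cases i <;> simp [L]

theorem tz_one_le : tz 1 ≤ 1 := by
  refine mc_le ?_
  have h := cost_L.reindex (Equiv.funUnique (Fin 1) (Fin 2)) (Equiv.funUnique (Fin 1) (Fin 2))
  convert h using 1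
  ext x y
  simp

theorem binE_one (x : ℝ) (f : ℕ → ℝ) : binE 1 x f = (1 - x) * f 0 + x * f 1 := by
  simp [binE, Finset.sum_range_succ]

theorem pcost_Astar_one_le {b : ℕ} (hb : 1 ≤ b) : pcost (Astar b) 1 ≤ 3 * b := by
  have h := (ip_Astar b).pcost_le (by rw [Fintype.card_fin]; omega) 1
  rw [Fintype.card_fin, binE_one, tau_zero, mul_zero, zero_add] at h
  have h1 : tau 1 ≤ 1 / 2 := by
    have := tz_one_le
    have h' : (tz 1 : ℝ) ≤ 1 := by exact_mod_cast this
    unfold tau
    linarith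
  have h2 : (2 : ℝ) / ((b + 1 : ℕ) : ℝ) ≤ 1 := by
    rw [div_le_one (by positivity)]
    have : (1 : ℝ) ≤ b := by exact_mod_cast hb
    push_cast
    linarith
  have h3 : (2 : ℝ) / ((b + 1 : ℕ) : ℝ) * tau 1 ≤ 1 := by
    have h4 := tau_nonneg 1
    have h5 : (0 : ℝ) ≤ 2 / ((b + 1 : ℕ) : ℝ) := by positivity
    nlinarith
  have h6 : (0 : ℝ) ≤ b := by positivity
  push_cast at h h3
  nlinarith

/-- (i) grouping the light positions in triples -/
theorem pcost_Astar_le_triples {b : ℕ} (hb : 1 ≤ b) (l : ℕ) :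
    pcost (Astar b) l ≤ pcost (tpow (Fin 3) (Astar b)) (l / 3) + 6 * b := by
  have h1 := pcost_group (Astar b) (m := 3) (by norm_num) l
  have h2 := pcost_Astar_one_le hb
  norm_num at h1
  linarith

/-- (ii) with a word for the third tensor power -/
theorem pcost_Astar_le_of_IP {b T s : ℕ} (hb : 1 ≤ b) (h : IP (tpow (Fin 3) (Astar b)) T s)
    (l : ℕ) :
    pcost (Astar b) l ≤ T * (binE (l / 3) (2 / ((b : ℝ) + 1) ^ 3) tau + 2) + s + 6 * b := by
  have h1 := pcost_Astar_le_triples hb l
  have hcard : Fintype.card (Fin 3 → Fin (b + 1)) = (b + 1) ^ 3 := by simp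
  have h2 := h.pcost_le (by rw [hcard]; calc 2 ≤ 2 ^ 3 := by norm_num
    _ ≤ (b + 1) ^ 3 := Nat.pow_le_pow_left (by omega) 3) (l / 3)
  rw [hcard] at h2
  push_cast at h2
  linarith

end Crest.Agent.R324
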