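import Mathlib
import Crest.Prelude.Def_LinCircuit

/-!
Row 324: abstract linear straight-line programs.

`Reach S k T`: starting from the available vectors `S` (and `0`), `k` gates
(`u + v`, `u - v`, `c • u`) suffice to make all vectors of `T` available.
`Cost A k`: the rows of `A` are reachable from the coordinate forms with `k` gates.
-/

set_option autoImplicit false
set_option linter.unusedSectionVars false

namespace Crest.Agent.R324

open Crest.FourierCircuit

section Reach

variable {M N : Type*} [AddCommGroup M] [Module ℂ M] [AddCommGroup N] [Module ℂ N]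

/-- the vector `m` is the output of one gate with inputs in `S` -/
inductive Gate (S : Set M) : M → Prop
  | add {u v : M} (hu : u ∈ S) (hv : v ∈ S) : Gate S (u + v)
  | sub {u v : M} (hu : u ∈ S) (hv : v ∈ S) : Gate S (u - v)
  | smul (c : ℂ) {u : M} (hu : u ∈ S) : Gate S (c • u)

theorem Gate.mono {S S' : Set M} (h : S ⊆ S') {m : M} (hm : Gate S m) : Gate S' m := by
  cases hm with
  | add hu hv => exact .add (h hu) (h hv)
  | sub hu hv => exact .sub (h hu) (h hv)
  | smul c hu => exact .smul c (h hu)

theorem Gate.map (f : M →ₗ[ℂ] N) {S : Set M} {m : M} (hm : Gate S m) : Gate (f '' S) (f m) := by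
  cases hm with
  | add hu hv => rw [map_add]; exact .add ⟨_, hu, rfl⟩ ⟨_, hv, rfl⟩
  | sub hu hv => rw [map_sub]; exact .sub ⟨_, hu, rfl⟩ ⟨_, hv, rfl⟩
  | smul c hu => rw [map_smul]; exact .smul c ⟨_, hu, rfl⟩

/-- `k` gates suffice to make all vectors of `T` available, starting from `S` and `0` -/
inductive Reach : Set M → ℕ → Set M → Prop
  | refl {S T : Set M} (h : T ⊆ insert 0 S) : Reach S 0 T
  | step {S T : Set M} {m : M} {k : ℕ} (hg : Gate (insert 0 S) m)
      (h : Reach (insert m S) k T) : Reach S (k + 1) T

theorem Reach.mono_left {S S' T : Set M} {k : ℕ} (h : Reach S k T) (hS : S ⊆ S') :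
    Reach S' k T := by
  induction h generalizing S' with
  | refl h => exact .refl (h.trans (Set.insert_subset_insert hS))
  | step hg _ ih =>
    exact .step (hg.mono (Set.insert_subset_insert hS)) (ih (Set.insert_subset_insert hS))

theorem Reach.mono_right {S T T' : Set M} {k : ℕ} (h : Reach S k T) (hT : T' ⊆ T) :
    Reach S k T' := by
  induction h with
  | refl h => exact .refl (hT.trans h)
  | step hg _ ih => exact .step hg (ih hT)

theorem Reach.succ {S T : Set M} {k : ℕ} (h : Reach S k T) : Reach S (k + 1) T := by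
  refine .step (m := (0 : M)) ?_ (h.mono_left (Set.subset_insert _ _))
  have h0 : (0 : M) ∈ insert (0 : M) S := Set.mem_insert _ _
  have := Gate.add h0 h0
  simpa using this

theorem Reach.mono {S T : Set M} {k l : ℕ} (h : Reach S k T) (hkl : k ≤ l) : Reach S l T := by
  induction hkl with
  | refl => exact h
  | step _ ih => exact ih.succ

theorem Reach.of_subset {S T : Set M} (h : T ⊆ S) (k : ℕ) : Reach S k T :=
  (Reach.refl (h.trans (Set.subset_insert _ _))).mono (Nat.zero_le _)

/-- the initial vectors stay available -/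
theorem Reach.union_left {S T : Set M} {k : ℕ} (h : Reach S k T) : Reach S k (insert 0 S ∪ T) := by
  induction h with
  | refl h => exact .refl (Set.union_subset (le_refl _) h)
  | step hg _ ih =>
    refine .step hg (ih.mono_right ?_)
    refine Set.union_subset_union_left _ ?_
    exact Set.insert_subset_insert (Set.subset_insert _ _)

theorem Reach.trans {S T U : Set M} {k l : ℕ} (h : Reach S k T) (h' : Reach (S ∪ T) l U) :
    Reach S (k + l) U := by
  induction h generalizing l U with
  | refl h =>
    rename_i S T
    rw [Nat.zero_add]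
    have : Reach (insert 0 S) l U := h'.mono_left (Set.union_subset (Set.subset_insert _ _) h)
    clear h h'
    generalize hS0 : insert (0 : M) S = S0 at this
    induction this generalizing S with
    | refl h =>
      refine .refl (h.trans ?_)
      rw [← hS0, Set.insert_idem]
    | step hg _ ih =>
      rename_i S1 T1 m k1 _
      refine .step ?_ (ih (S := insert m S) ?_)
      · refine hg.mono ?_
        rw [← hS0, Set.insert_idem]
      · rw [← hS0, Set.insert_comm]
  | step hg _ ih =>
    rename_i S T m k _
    rw [Nat.add_right_comm]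
    refine .step hg (ih (h'.mono_left ?_))
    exact Set.union_subset_union_left _ (Set.subset_insert _ _)

theorem Reach.trans' {S T U : Set M} {k l : ℕ} (h : Reach S k T) (h' : Reach T l U) :
    Reach S (k + l) U :=
  h.trans (h'.mono_left Set.subset_union_right)

theorem Reach.union {S S' T T' : Set M} {k l : ℕ} (h : Reach S k T) (h' : Reach S' l T') :
    Reach (S ∪ S') (k + l) (T ∪ T') := by
  have h1 : Reach (S ∪ S') k (insert 0 (S ∪ S') ∪ T) :=
    (h.mono_left Set.subset_union_left).union_left
  refine h1.trans' ?_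
  have h2 : Reach (insert 0 (S ∪ S') ∪ T) l (insert 0 (insert 0 (S ∪ S') ∪ T) ∪ T') := by
    refine (h'.mono_left ?_).union_left
    exact (Set.subset_union_right.trans (Set.subset_insert _ _)).trans Set.subset_union_left
  refine h2.mono_right (Set.union_subset_union_left _ ?_)
  exact Set.subset_union_right.trans (Set.subset_insert _ _)

theorem Reach.iUnion {ι : Type*} (s : Finset ι) {S T : ι → Set M} {k : ι → ℕ}
    (h : ∀ i ∈ s, Reach (S i) (k i) (T i)) :
    Reach (⋃ i ∈ s, S i) (∑ i ∈ s, k i) (⋃ i ∈ s, T i) := by
  classical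
  induction s using Finset.induction_on with
  | empty => simpa using Reach.of_subset (le_refl (∅ : Set M)) 0
  | insert a s ha ih =>
    rw [Finset.sum_insert ha, Finset.set_biUnion_insert, Finset.set_biUnion_insert]
    exact (h a (Finset.mem_insert_self _ _)).union
      (ih fun i hi => h i (Finset.mem_insert_of_mem hi))

theorem Reach.iUnion_univ {ι : Type*} [Fintype ι] {S T : ι → Set M} {k : ι → ℕ}
    (h : ∀ i, Reach (S i) (k i) (T i)) :
    Reach (⋃ i, S i) (∑ i, k i) (⋃ i, T i) := by
  have := Reach.iUnion (Finset.univ) (S := S) (T := T) (k := k) (fun i _ => h i)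
  simpa using this

theorem Reach.map (f : M →ₗ[ℂ] N) {S T : Set M} {k : ℕ} (h : Reach S k T) :
    Reach (f '' S) k (f '' T) := by
  induction h with
  | refl h =>
    refine .refl ?_
    have := Set.image_mono (f := f) h
    rwa [Set.image_insert_eq, map_zero] at this
  | step hg _ ih =>
    rename_i S T m k _
    refine .step (m := f m) ?_ (ih.mono_left ?_)
    · have := hg.map f
      rwa [Set.image_insert_eq, map_zero] at this
    · rw [Set.image_insert_eq]

theorem Reach.gate {S : Set M} {m : M} (h : Gate S m) : Reach S 1 {m} := by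
  refine .step (h.mono (Set.subset_insert _ _)) (.refl ?_)
  intro x hx
  rw [Set.mem_singleton_iff] at hx
  subst hx
  exact Set.mem_insert_of_mem _ (Set.mem_insert _ _)

theorem Reach.smul (c : ℂ) (u : M) : Reach {u} 1 {c • u} :=
  Reach.gate (.smul c rfl)

theorem Reach.add (u v : M) : Reach {u, v} 1 {u + v} :=
  Reach.gate (.add (by simp) (by simp))

theorem Reach.sub (u v : M) : Reach {u, v} 1 {u - v} :=
  Reach.gate (.sub (by simp) (by simp))

theorem Reach.add_smul (u v : M) (c : ℂ) : Reach {u, v} 2 {u + c • v} := by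
  have h1 : Reach ({u, v} : Set M) 1 {c • v} := (Reach.smul c v).mono_left (by simp)
  refine h1.trans (l := 1) ((Reach.add u (c • v)).mono_left ?_)
  intro x hx
  simp only [Set.mem_insert_iff, Set.mem_singleton_iff] at hx
  rcases hx with rfl | rfl
  · simp
  · simp

end Reach

/-! ### Bridge to `LinCircuit` -/

section Bridge

variable {n : ℕ}

/-- the linear form a gate produces -/
def gform {M : Type*} [AddCommGroup M] [Module ℂ M] (F : List M) : LGate → M
  | LGate.add j k => F.getD j 0 + F.getD k 0
  | LGate.sub j k => F.getD j 0 - F.getD k 0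
  | LGate.smul c j => c • F.getD j 0

theorem exists_gates {M : Type*} [AddCommGroup M] [Module ℂ M] {S T : Set M} {k : ℕ}
    (h : Reach S k T) (F : List M) (hF : ∀ m ∈ insert 0 S, m ∈ F) :
    ∃ G : List LGate, G.length = k ∧
      ∀ m ∈ T, m ∈ G.foldl (fun F g => F ++ [gform F g]) F := by
  induction h generalizing F with
  | refl h => exact ⟨[], rfl, fun m hm => hF m (h hm)⟩
  | step hg _ ih =>
    rename_i S T m k _
    have key : ∃ g : LGate, gform F g = m := by
      have pos : ∀ u ∈ insert 0 S, ∃ j, F.getD j 0 = u := by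
        intro u hu
        obtain ⟨j, hj, rfl⟩ := List.getElem_of_mem (hF u hu)
        exact ⟨j, by rw [List.getD_eq_getElem _ _ hj]⟩
      cases hg with
      | add hu hv =>
        obtain ⟨j, hj⟩ := pos _ hu
        obtain ⟨l, hl⟩ := pos _ hv
        exact ⟨.add j l, by rw [gform, hj, hl]⟩
      | sub hu hv =>
        obtain ⟨j, hj⟩ := pos _ hu
        obtain ⟨l, hl⟩ := pos _ hv
        exact ⟨.sub j l, by rw [gform, hj, hl]⟩
      | smul c hu =>
        obtain ⟨j, hj⟩ := pos _ hu
        exact ⟨.smul c j, by rw [gform, hj]⟩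
    obtain ⟨g, hg'⟩ := key
    obtain ⟨G, hG, hT⟩ := ih (F ++ [gform F g]) (by
      intro x hx
      rw [Set.insert_comm, Set.mem_insert_iff] at hx
      rw [List.mem_append]
      rcases hx with rfl | hx
      · right; simp [hg']
      · left; exact hF x hx)
    exact ⟨g :: G, by simp [hG], by simpa using hT⟩

theorem foldl_map_eval {M : Type*} [AddCommGroup M] [Module ℂ M] (f : M →ₗ[ℂ] ℂ)
    (G : List LGate) (F : List M) :
    G.foldl (fun avail g => avail ++ [g.value avail]) (F.map f) =
      (G.foldl (fun F g => F ++ [gform F g]) F).map f := by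
  induction G generalizing F with
  | nil => rfl
  | cons g G ih =>
    rw [List.foldl_cons, List.foldl_cons, ← ih]
    congr 1
    rw [List.map_append]
    congr 1
    have hget : ∀ j, (F.map f).getD j 0 = f (F.getD j 0) := by
      intro j
      rw [List.getD_eq_getElem?_getD, List.getD_eq_getElem?_getD, List.getElem?_map]
      cases F[j]? <;> simp
    cases g with
    | add j k =>
      simp only [LGate.value, gform, hget, List.map_cons, List.map_nil, map_add]
    | sub j k =>
      simp only [LGate.value, gform, hget, List.map_cons, List.map_nil, map_sub]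
    | smul c j =>
      simp only [LGate.value, gform, hget, List.map_cons, List.map_nil, map_smul, smul_eq_mul]

end Bridge

/-! ### Cost of matrices -/

section Cost

variable {ι κ ρ α : Type*} [Fintype ι] [DecidableEq ι] [Fintype κ] [DecidableEq κ]
  [Fintype ρ] [DecidableEq ρ] [Fintype α] [DecidableEq α]

/-- the coordinate forms -/
def coords (ι : Type*) [DecidableEq ι] : Set (ι → ℂ) :=
  Set.range fun i : ι => (Pi.single i 1 : ι → ℂ)

/-- the matrix `A` can be computed with `k` gates -/
def Cost (A : Matrix κ ι ℂ) (k : ℕ) : Prop :=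
  Reach (coords ι) k (Set.range fun j : κ => (fun i : ι => A j i))

omit [Fintype ι] [Fintype κ] [DecidableEq κ] in
theorem Cost.mono {A : Matrix κ ι ℂ} {k l : ℕ} (h : Cost A k) (hkl : k ≤ l) : Cost A l :=
  Reach.mono h hkl

theorem Cost.mul {A : Matrix κ ι ℂ} {B : Matrix ι ρ ℂ} {k l : ℕ} (hA : Cost A k)
    (hB : Cost B l) : Cost (A * B) (k + l) := by
  rw [Nat.add_comm]
  refine Reach.trans' hB ?_
  have h := hA.map (Matrix.vecMulLinear B)
  have h1 : (Matrix.vecMulLinear B) '' (coords ι) =
      Set.range (fun j : ι => (fun i : ρ => B j i)) := by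
    rw [coords, ← Set.range_comp]
    congr 1
    ext i j
    simp
  have h2 : (Matrix.vecMulLinear B) '' (Set.range fun j : κ => (fun i : ι => A j i)) =
      Set.range (fun j : κ => (fun i : ρ => (A * B) j i)) := by
    rw [← Set.range_comp]
    congr 1
  rw [h1, h2] at h
  exact h

end Cost

/-- the circuit computing `A` -/
theorem exists_circuit {n : ℕ} {A : Matrix (Fin n) (Fin n) ℂ} {k : ℕ} (h : Cost A k) :
    ∃ P : LinCircuit n, P.Computes A ∧ P.size = k := by
  obtain ⟨G, hG, hT⟩ := exists_gates h
    (List.ofFn (fun i : Fin n => (Pi.single i 1 : Fin n → ℂ)) ++ [0]) (by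
      intro m hm
      rw [List.mem_append]
      rcases hm with rfl | ⟨i, rfl⟩
      · right; simp
      · left; rw [List.mem_ofFn]; exact ⟨i, rfl⟩)
  have key : ∀ i : Fin n, ∃ j, (G.foldl (fun F g => F ++ [gform F g])
      (List.ofFn (fun i : Fin n => (Pi.single i 1 : Fin n → ℂ)) ++ [0])).getD j 0 = A i := by
    intro i
    obtain ⟨j, hj, hj'⟩ := List.getElem_of_mem (hT (A i) ⟨i, rfl⟩)
    exact ⟨j, by rw [List.getD_eq_getElem _ _ hj, hj']⟩
  choose out hout using key
  refine ⟨⟨G, out⟩, ?_, hG⟩
  intro x k
  let f : (Fin n → ℂ) →ₗ[ℂ] ℂ :=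
    { toFun := fun v => v ⬝ᵥ x
      map_add' := fun a b => add_dotProduct a b x
      map_smul' := fun c a => by simp [smul_dotProduct] }
  have h0 : List.ofFn x ++ [0] =
      (List.ofFn (fun i : Fin n => (Pi.single i 1 : Fin n → ℂ)) ++ [0]).map f := by
    rw [List.map_append, List.map_ofFn]
    congr 1
    · congr 1
      ext i
      simp [f]
    · simp [f]
  change ((G.foldl _ (List.ofFn x ++ [0])).getD (out k) 0) = _
  rw [h0, foldl_map_eval, List.getD_eq_getElem?_getD, List.getElem?_map]
  have := hout k
  rw [List.getD_eq_getElem?_getD] at this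
  have h3 : (Option.map (⇑f) ((G.foldl (fun F g => F ++ [gform F g])
      (List.ofFn (fun i : Fin n => (Pi.single i 1 : Fin n → ℂ)) ++ [0]))[out k]?)).getD 0
      = f (((G.foldl (fun F g => F ++ [gform F g])
      (List.ofFn (fun i : Fin n => (Pi.single i 1 : Fin n → ℂ)) ++ [0]))[out k]?).getD 0) := by
    cases (G.foldl (fun F g => F ++ [gform F g])
      (List.ofFn (fun i : Fin n => (Pi.single i 1 : Fin n → ℂ)) ++ [0]))[out k]? <;> simp
  rw [h3, this]
  rfl

end Crest.Agent.R324
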