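import Mathlib

/-!
Row 324: words of transvections (in-place programs).
-/

set_option autoImplicit false
set_option linter.unusedSectionVars false

namespace Crest.Agent.R324

open Matrix

variable {q : Type*} [Fintype q] [DecidableEq q]

/-- `TW M k`: `M` is a product of at most `k` transvections `1 + c E_ab`, `a ≠ b` -/
inductive TW : Matrix q q ℂ → ℕ → Prop
  | one : TW 1 0
  | skip {M : Matrix q q ℂ} {k : ℕ} (h : TW M k) : TW M (k + 1)
  | step {M : Matrix q q ℂ} {k : ℕ} (a b : q) (hab : a ≠ b) (c : ℂ) (h : TW M k) :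
      TW (Matrix.transvection a b c * M) (k + 1)

theorem TW.mono {M : Matrix q q ℂ} {k l : ℕ} (h : TW M k) (hkl : k ≤ l) : TW M l := by
  induction hkl with
  | refl => exact h
  | step _ ih => exact ih.skip

theorem TW.mul {M M' : Matrix q q ℂ} {k l : ℕ} (h : TW M k) (h' : TW M' l) :
    TW (M * M') (k + l) := by
  induction h with
  | one => simpa using h'
  | skip _ ih => rw [Nat.add_right_comm]; exact ih.skip
  | step a b hab c _ ih =>
    rw [Nat.add_right_comm, Matrix.mul_assoc]
    exact ih.step a b hab c

theorem TW.one' (k : ℕ) : TW (1 : Matrix q q ℂ) k := TW.one.mono (Nat.zero_le _)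

theorem TW.transvection (a b : q) (hab : a ≠ b) (c : ℂ) : TW (Matrix.transvection a b c) 1 := by
  have := TW.one.step a b hab c
  rwa [Matrix.mul_one] at this

/-- a family of simultaneous gates -/
def gsum {I : Type*} (s : Finset I) (y p : I → q) (c : ℂ) : Matrix q q ℂ :=
  ∑ i ∈ s, Matrix.single (y i) (p i) c

/-- product of two families is zero when the sources of the first are not targets of the second -/
theorem gsum_mul_gsum_zero {I J : Type*} (s : Finset I) (t : Finset J) (y p : I → q) (y' p' : J → q)
    (c d : ℂ) (h : ∀ i ∈ s, ∀ j ∈ t, p i ≠ y' j) : gsum s y p c * gsum t y' p' d = 0 := by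
  unfold gsum
  rw [Finset.sum_mul]
  refine Finset.sum_eq_zero fun i hi => ?_
  rw [Finset.mul_sum]
  refine Finset.sum_eq_zero fun j hj => ?_
  exact Matrix.single_mul_single_of_ne _ _ _ _ (h i hi j hj) _

theorem TW.gates {I : Type*} (s : Finset I) (y p : I → q) (c : ℂ)
    (h : ∀ i ∈ s, ∀ j ∈ s, y i ≠ p j) : TW (1 + gsum s y p c) s.card := by
  classical
  induction s using Finset.induction_on with
  | empty => simpa [gsum] using (TW.one (q := q))
  | insert a s ha ih =>
    have ih' := ih fun i hi j hj =>
      h i (Finset.mem_insert_of_mem hi) j (Finset.mem_insert_of_mem hj)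
    have h1 := ih'.step (y a) (p a)
      (h a (Finset.mem_insert_self _ _) a (Finset.mem_insert_self _ _)) c
    rw [Finset.card_insert_of_notMem ha]
    have e : Matrix.transvection (y a) (p a) c * (1 + gsum s y p c) =
        1 + gsum (insert a s) y p c := by
      have e1 : gsum (insert a s) y p c =
          Matrix.single (y a) (p a) c + gsum s y p c := by
        unfold gsum
        rw [Finset.sum_insert ha]
      have e2 : Matrix.single (y a) (p a) c * gsum s y p c = 0 := by
        unfold gsum
        rw [Finset.mul_sum]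
        refine Finset.sum_eq_zero fun j hj => ?_
        refine Matrix.single_mul_single_of_ne _ _ _ _ ?_ _
        exact (h j (Finset.mem_insert_of_mem hj) a (Finset.mem_insert_self _ _)).symm
      rw [e1, Matrix.transvection, Matrix.add_mul, Matrix.one_mul, Matrix.mul_add, Matrix.mul_one,
        e2]
      abel
    rwa [e] at h1

/-- add to the targets `y i` the differences `p (π i) - p' (π i)` -/
theorem TW.diff {I K : Type*} [DecidableEq K] (s : Finset I) (t : Finset K) (y : I → q)
    (p p' : K → q) (π : I → K) (hπ : ∀ i ∈ s, π i ∈ t) (hp : Function.Injective p)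
    (h1 : ∀ i ∈ s, ∀ k ∈ t, y i ≠ p k) (h2 : ∀ i ∈ s, ∀ k ∈ t, y i ≠ p' k)
    (h3 : ∀ k ∈ t, ∀ l ∈ t, p k ≠ p' l) :
    TW (1 + gsum s y (fun i => p (π i)) 1 -
      gsum s y (fun i => p' (π i)) 1) (s.card + 2 * t.card) := by
  have w1 : TW (1 + gsum t p p' (-1)) t.card := TW.gates t p p' (-1) h3
  have w2 : TW (1 + gsum s y (fun i => p (π i)) 1) s.card :=
    TW.gates s y _ 1 fun i hi j hj => h1 i hi _ (hπ j hj)
  have w3 : TW (1 + gsum t p p' 1) t.card := TW.gates t p p' 1 h3
  have w := (w3.mul w2).mul w1
  have hneg : gsum t p p' (-1) = - gsum t p p' 1 := by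
    unfold gsum
    rw [← Finset.sum_neg_distrib]
    refine Finset.sum_congr rfl fun i _ => ?_
    ext a b
    simp [Matrix.single_apply]
    split_ifs <;> simp
  have hPP : gsum t p p' 1 * gsum t p p' 1 = 0 :=
    gsum_mul_gsum_zero t t p p' p p' 1 1 fun i hi j hj => (h3 j hj i hi).symm
  have hPQ : gsum t p p' 1 * gsum s y (fun i => p (π i)) 1 = 0 :=
    gsum_mul_gsum_zero _ _ _ _ _ _ 1 1 fun i hi j hj => (h2 j hj i hi).symm
  have hQP : gsum s y (fun i => p (π i)) 1 * gsum t p p' 1 =
      gsum s y (fun i => p' (π i)) 1 := by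
    unfold gsum
    rw [Finset.sum_mul]
    refine Finset.sum_congr rfl fun i hi => ?_
    rw [Finset.mul_sum, Finset.sum_eq_single (π i)]
    · rw [Matrix.single_mul_single_same, mul_one]
    · intro k _ hk
      exact Matrix.single_mul_single_of_ne _ _ _ _ (fun h => hk (hp h).symm) _
    · intro h
      exact absurd (hπ i hi) h
  have e : (1 + gsum t p p' 1) *
      (1 + gsum s y (fun i => p (π i)) 1) *
      (1 + gsum t p p' (-1)) =
      1 + gsum s y (fun i => p (π i)) 1 -
      gsum s y (fun i => p' (π i)) 1 := by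
    rw [hneg]
    generalize gsum t p p' 1 = P at *
    generalize gsum s y (fun i => p (π i)) 1 = Q at *
    generalize gsum s y (fun i => p' (π i)) 1 = Q' at *
    have : (1 + P) * (1 + Q) * (1 + -P) =
        1 + Q - Q * P + P * Q - P * P - P * Q * P := by noncomm_ring
    rw [this, hQP, hPQ, hPP]
    simp
  rw [e] at w
  exact w.mono (by omega)

end Crest.Agent.R324
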