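import Crest.Agent.R324.TPow

/-!
Row 324: in-place words and the recursion for the zeta transform.
-/

set_option autoImplicit false
set_option linter.unusedSectionVars false

namespace Crest.Agent.R324

open Matrix
open scoped Kronecker

variable {κ μ p q r : Type*} [Fintype κ] [DecidableEq κ] [Fintype μ] [DecidableEq μ]
  [Fintype p] [DecidableEq p] [Fintype q] [DecidableEq q] [Fintype r] [DecidableEq r]

/-! ### every matrix has a cost -/

theorem reach_sum (v : q → ℂ) (s : Finset q) :
    Reach (coords q) (2 * s.card) {∑ i ∈ s, v i • (Pi.single i 1 : q → ℂ)} := by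
  induction s using Finset.induction_on with
  | empty => exact .refl (by simp)
  | insert a s ha ih =>
    rw [Finset.card_insert_of_notMem ha, Finset.sum_insert ha, Nat.mul_add, Nat.mul_one]
    refine ih.trans (l := 2) ?_
    rw [add_comm (v a • _)]
    refine (Reach.add_smul (∑ i ∈ s, v i • (Pi.single i 1 : q → ℂ)) (Pi.single a 1)
      (v a)).mono_left ?_
    intro x hx
    simp only [Set.mem_insert_iff, Set.mem_singleton_iff] at hx
    rcases hx with rfl | rfl
    · right; rfl
    · left; exact ⟨a, rfl⟩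

theorem Cost.exists (A : Matrix p q ℂ) : ∃ k, Cost A k := by
  refine ⟨∑ _j : p, 2 * (Finset.univ : Finset q).card, ?_⟩
  have h := Reach.iUnion_univ fun j : p => reach_sum (fun i => A j i) Finset.univ
  refine Reach.mono_right (Reach.mono_left h ?_) ?_
  · exact Set.iUnion_subset fun _ => le_refl _
  · rintro _ ⟨j, rfl⟩
    refine Set.mem_iUnion.2 ⟨j, ?_⟩
    rw [Set.mem_singleton_iff]
    ext i
    simp [Pi.single_apply]

/-- minimal cost of the `K`-th tensor power -/
noncomputable def mc (A : Matrix p q ℂ) (K : ℕ) : ℕ := sInf {k | Cost (tpow (Fin K) A) k}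

theorem cost_mc (A : Matrix p q ℂ) (K : ℕ) : Cost (tpow (Fin K) A) (mc A K) :=
  Nat.sInf_mem (Cost.exists _)

theorem mc_le {A : Matrix p q ℂ} {K k : ℕ} (h : Cost (tpow (Fin K) A) k) : mc A K ≤ k :=
  Nat.sInf_le h

theorem mc_mul_le (A : Matrix p q ℂ) (B : Matrix q r ℂ) (K : ℕ) :
    mc (A * B) K ≤ mc A K + mc B K := by
  refine mc_le ?_
  rw [tpow_mul]
  exact (cost_mc A K).mul (cost_mc B K)

theorem mc_diagonal_le (d : q → ℂ) (K : ℕ) :
    mc (Matrix.diagonal d) K ≤ Fintype.card q ^ K := by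
  refine mc_le ?_
  rw [tpow_diagonal]
  have := Cost.diagonal (κ := Fin K → q) (fun x => ∏ i, d (x i))
  rwa [Fintype.card_fun, Fintype.card_fin] at this

/-- the matrix of a map of symbols -/
def pm (e : p → q) : Matrix p q ℂ := Matrix.of fun j i => if e j = i then (1 : ℂ) else 0

theorem mc_pm (e : p → q) (K : ℕ) : mc (pm e) K = 0 :=
  Nat.le_zero.1 (mc_le (Cost.tpow_perm e))

theorem mc_one (K : ℕ) : mc (1 : Matrix q q ℂ) K = 0 := by
  refine Nat.le_zero.1 (mc_le ?_)
  rw [tpow_one]
  exact Cost.one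

/-! ### the zeta matrix -/

/-- the `2 × 2` zeta matrix -/
def L : Matrix (Fin 2) (Fin 2) ℂ := !![1, 0; 1, 1]

/-- minimal cost of the zeta transform on `K` bits -/
noncomputable def tz (K : ℕ) : ℕ := mc L K

/-- cost of the `K`-th tensor power of a transvection on `Q` symbols -/
noncomputable def FK (K Q : ℕ) : ℕ :=
  ∑ j ∈ Finset.range (K + 1), K.choose j * (Q - 2) ^ (K - j) * tz j

theorem mc_transvection_one_le {a b : q} (hab : a ≠ b) (K : ℕ) :
    mc (Matrix.transvection a b (1 : ℂ)) K ≤ FK K (Fintype.card q) := by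
  refine mc_le ?_
  have h := Cost.tpow_sub (κ := Fin K) (A := L) (M := Matrix.transvection a b (1 : ℂ))
    (fun i : Fin 2 => if i = 0 then b else a) (by
      intro i j h
      fin_cases i <;> fin_cases j <;> simp_all [eq_comm])
    (by
      intro i x
      fin_cases i
      · simp only [Fin.sum_univ_two, L, Matrix.transvection, Matrix.add_apply,
          Matrix.one_apply, Matrix.single_apply]
        by_cases h1 : b = x <;> by_cases h2 : a = x <;> simp_all [eq_comm]
      · simp only [Fin.sum_univ_two, L, Matrix.transvection, Matrix.add_apply,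
          Matrix.one_apply, Matrix.single_apply]
        by_cases h1 : b = x <;> by_cases h2 : a = x <;> simp_all [eq_comm])
    (by
      intro x y hx
      have hxa : x ≠ a := fun h => hx ⟨1, by simp [h]⟩
      simp [Matrix.transvection, Matrix.single_apply, Matrix.one_apply, hxa.symm])
    tz (fun j _ => cost_mc L j)
  simpa [FK] using h

theorem transvection_eq_conj {a b : q} (hab : a ≠ b) {c : ℂ} (hc : c ≠ 0) :
    Matrix.transvection a b c =
      Matrix.diagonal (fun i => if i = a then c else 1) * (Matrix.transvection a b (1 : ℂ) *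
        Matrix.diagonal (fun i => if i = a then c⁻¹ else 1)) := by
  ext i j
  rw [Matrix.diagonal_mul, Matrix.mul_diagonal]
  simp only [Matrix.transvection, Matrix.add_apply, Matrix.one_apply, Matrix.single_apply]
  by_cases hi : i = a <;> by_cases hj : j = a <;> by_cases hij : i = j <;>
    by_cases hjb : b = j <;> simp_all [eq_comm]

theorem mc_transvection_le {a b : q} (hab : a ≠ b) (c : ℂ) (K : ℕ) :
    mc (Matrix.transvection a b c) K ≤
      FK K (Fintype.card q) + 2 * Fintype.card q ^ K := by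
  by_cases hc : c = 0
  · rw [hc, Matrix.transvection_zero, mc_one]
    exact Nat.zero_le _
  · rw [transvection_eq_conj hab hc]
    have h1 := mc_mul_le (Matrix.diagonal (fun i : q => if i = a then c else 1))
      (Matrix.transvection a b (1 : ℂ) *
        Matrix.diagonal (fun i => if i = a then c⁻¹ else 1)) K
    have h2 := mc_mul_le (Matrix.transvection a b (1 : ℂ))
        (Matrix.diagonal (fun i : q => if i = a then c⁻¹ else 1)) K
    have h3 := mc_diagonal_le (fun i : q => if i = a then c else 1) K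
    have h4 := mc_diagonal_le (fun i : q => if i = a then c⁻¹ else 1) K
    have h5 := mc_transvection_one_le hab K
    omega

/-! ### in-place words -/

/-- `IP M r s`: `M` is a product of `r` transvections, `s` diagonal matrices and any number
of matrices of maps of the symbols -/
inductive IP : Matrix q q ℂ → ℕ → ℕ → Prop
  | one : IP 1 0 0
  | map_mul (e : q → q) {M : Matrix q q ℂ} {r s : ℕ} (h : IP M r s) : IP (pm e * M) r s
  | diag_mul (d : q → ℂ) {M : Matrix q q ℂ} {r s : ℕ} (h : IP M r s) :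
      IP (Matrix.diagonal d * M) r (s + 1)
  | trans_mul {a b : q} (hab : a ≠ b) (c : ℂ) {M : Matrix q q ℂ} {r s : ℕ} (h : IP M r s) :
      IP (Matrix.transvection a b c * M) (r + 1) s

theorem IP.mul {M N : Matrix q q ℂ} {r s r' s' : ℕ} (hM : IP M r s) (hN : IP N r' s') :
    IP (M * N) (r + r') (s + s') := by
  induction hM with
  | one => simpa using hN
  | map_mul e _ ih => rw [Matrix.mul_assoc]; exact ih.map_mul e
  | diag_mul d _ ih =>
    rw [Matrix.mul_assoc, Nat.add_right_comm]; exact ih.diag_mul d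
  | trans_mul hab c _ ih =>
    rw [Matrix.mul_assoc, Nat.add_right_comm]; exact ih.trans_mul hab c

theorem IP.map (e : q → q) : IP (pm e) 0 0 := by
  have := (IP.one (q := q)).map_mul e
  rwa [Matrix.mul_one] at this

theorem IP.diag (d : q → ℂ) : IP (Matrix.diagonal d) 0 1 := by
  have := (IP.one (q := q)).diag_mul d
  rwa [Matrix.mul_one] at this

theorem IP.trans {a b : q} (hab : a ≠ b) (c : ℂ) : IP (Matrix.transvection a b c) 1 0 := by
  have := (IP.one (q := q)).trans_mul hab c
  rwa [Matrix.mul_one] at this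

theorem IP.mc_le {M : Matrix q q ℂ} {r s : ℕ} (h : IP M r s) (K : ℕ) :
    mc M K ≤ r * (FK K (Fintype.card q) + 2 * Fintype.card q ^ K) + s * Fintype.card q ^ K := by
  induction h with
  | one => rw [mc_one]; exact Nat.zero_le _
  | map_mul e _ ih =>
    refine (mc_mul_le _ _ K).trans ?_
    rw [mc_pm, Nat.zero_add]
    exact ih
  | diag_mul d _ ih =>
    refine (mc_mul_le _ _ K).trans ?_
    have := mc_diagonal_le d K
    rw [Nat.add_mul, Nat.one_mul]
    omega
  | trans_mul hab c _ ih =>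
    refine (mc_mul_le _ _ K).trans ?_
    have := mc_transvection_le hab c K
    rw [Nat.add_mul, Nat.one_mul]
    omega

/-! ### sub-additivity of the zeta cost -/

theorem tz_zero : tz 0 = 0 := by
  refine Nat.le_zero.1 (Crest.Agent.R324.mc_le ?_)
  have : tpow (Fin 0) L = 1 := by
    ext x y
    rw [Subsingleton.elim x y]
    simp
  rw [this]
  exact Cost.one

theorem mc_add_le (A : Matrix q q ℂ) (a b : ℕ) :
    mc A (a + b) ≤ Fintype.card q ^ b * mc A a + Fintype.card q ^ a * mc A b := by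
  refine Crest.Agent.R324.mc_le ?_
  have h := (cost_mc A a).kronecker (cost_mc A b)
  rw [Fintype.card_fun, Fintype.card_fun, Fintype.card_fin, Fintype.card_fin] at h
  have h2 := h.reindex (Fin.appendEquiv (α := q) a b).symm (Fin.appendEquiv (α := q) a b).symm
  rw [Nat.add_comm (Fintype.card q ^ b * mc A a)]
  convert h2 using 1
  ext x y
  simp only [tpow_apply, Matrix.submatrix_apply, Matrix.kronecker_apply]
  rw [Fin.prod_univ_add]
  rfl

theorem mc_tpow_eq (A : Matrix q q ℂ) (m K : ℕ) : mc A (m * K) = mc (tpow (Fin m) A) K := by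
  have key : ∀ x y : Fin K → (Fin m → q), tpow (Fin K) (tpow (Fin m) A) x y =
      tpow (Fin (m * K)) A
        (fun i => x (finProdFinEquiv.symm i).2 (finProdFinEquiv.symm i).1)
        (fun i => y (finProdFinEquiv.symm i).2 (finProdFinEquiv.symm i).1) := by
    intro x y
    simp only [tpow_apply]
    rw [Equiv.prod_comp finProdFinEquiv.symm (fun i : Fin m × Fin K => A (x i.2 i.1) (y i.2 i.1)),
      Fintype.prod_prod_type, Finset.prod_comm]
  let E : (Fin K → (Fin m → q)) ≃ (Fin (m * K) → q) :=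
    { toFun := fun x i => x (finProdFinEquiv.symm i).2 (finProdFinEquiv.symm i).1
      invFun := fun z k j => z (finProdFinEquiv (j, k))
      left_inv := fun x => by ext k j; simp
      right_inv := fun z => by
        ext i
        exact congrArg z (finProdFinEquiv.apply_symm_apply i) }
  apply le_antisymm
  · refine Crest.Agent.R324.mc_le ?_
    have := (cost_mc (tpow (Fin m) A) K).reindex E.symm E.symm
    convert this using 1
    ext x y
    rw [Matrix.submatrix_apply, key]
    have h3 : ∀ z : Fin (m * K) → q, (fun i => E.symm z (finProdFinEquiv.symm i).2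
        (finProdFinEquiv.symm i).1) = z := fun z => E.right_inv z
    rw [h3, h3]
  · refine Crest.Agent.R324.mc_le ?_
    have := (cost_mc A (m * K)).reindex E E
    convert this using 1
    ext x y
    rw [key]
    rfl

/-! ### the recursion -/

/-- normalised cost -/
noncomputable def tau (K : ℕ) : ℝ := tz K / 2 ^ K

theorem tau_nonneg (K : ℕ) : 0 ≤ tau K := by unfold tau; positivity

theorem tau_zero : tau 0 = 0 := by simp [tau, tz_zero]

theorem tau_add_le (a b : ℕ) : tau (a + b) ≤ tau a + tau b := by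
  unfold tau
  have h := mc_add_le L a b
  rw [Fintype.card_fin] at h
  have h' : (tz (a + b) : ℝ) ≤ 2 ^ b * tz a + 2 ^ a * tz b := by exact_mod_cast h
  rw [div_le_iff₀ (by positivity)]
  calc (tz (a + b) : ℝ) ≤ 2 ^ b * tz a + 2 ^ a * tz b := h'
    _ = (tz a / 2 ^ a + tz b / 2 ^ b) * 2 ^ (a + b) := by
      rw [pow_add]; field_simp

theorem tau_le_mul (K : ℕ) : tau K ≤ K * tau 1 := by
  induction K with
  | zero => simp [tau_zero]
  | succ K ih =>
    refine (tau_add_le K 1).trans ?_
    push_cast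
    nlinarith [ih]

/-- Jensen for a binomial law with success probability `x` -/
theorem binomial_jensen {θ x : ℝ} (h0 : 0 ≤ θ) (h1 : θ ≤ 1) (hx0 : 0 ≤ x) (hx1 : x ≤ 1)
    (K : ℕ) :
    ∑ j ∈ Finset.range (K + 1), ((K.choose j : ℝ) * x ^ j * (1 - x) ^ (K - j)) * (j : ℝ) ^ θ ≤
      (K * x) ^ θ := by
  have hw : ∑ j ∈ Finset.range (K + 1), ((K.choose j : ℝ) * x ^ j * (1 - x) ^ (K - j)) = 1 := by
    have := add_pow x (1 - x) K
    rw [add_sub_cancel, one_pow] at this
    refine Eq.trans ?_ this.symm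
    exact Finset.sum_congr rfl fun j _ => by ring
  have hm : ∑ j ∈ Finset.range (K + 1),
      ((K.choose j : ℝ) * x ^ j * (1 - x) ^ (K - j)) * (j : ℝ) = K * x := by
    have := congrArg (Polynomial.eval x) (bernsteinPolynomial.sum_smul ℝ K)
    rw [Polynomial.eval_finsetSum] at this
    simp only [bernsteinPolynomial, nsmul_eq_mul, Polynomial.eval_mul, Polynomial.eval_natCast,
      Polynomial.eval_pow, Polynomial.eval_X, Polynomial.eval_sub, Polynomial.eval_one] at this
    rw [← this]
    exact Finset.sum_congr rfl fun j _ => by ring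
  have := (Real.concaveOn_rpow h0 h1).le_map_sum (t := Finset.range (K + 1))
    (w := fun j => (K.choose j : ℝ) * x ^ j * (1 - x) ^ (K - j)) (p := fun j => (j : ℝ))
    (fun j _ => by
      have : 0 ≤ 1 - x := by linarith
      positivity) hw (fun j _ => by simp)
  simp only [smul_eq_mul] at this
  rw [hm] at this
  exact this

theorem FK_le {A θ : ℝ} (h0 : 0 < θ) (h1 : θ ≤ 1) (hA : 0 ≤ A) {K Q : ℕ} (hQ : 2 ≤ Q)
    (h : ∀ j ≤ K, tau j ≤ A * (j : ℝ) ^ θ) :
    (FK K Q : ℝ) ≤ Q ^ K * (A * (K * (2 / Q)) ^ θ) := by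
  have hQ0 : (0 : ℝ) < Q := by exact_mod_cast (by omega : 0 < Q)
  have hx0 : (0 : ℝ) ≤ 2 / Q := by positivity
  have hx1 : (2 : ℝ) / Q ≤ 1 := by
    rw [div_le_one hQ0]; exact_mod_cast hQ
  have hJ := binomial_jensen h0.le h1 hx0 hx1 K
  have hcast : ((Q - 2 : ℕ) : ℝ) = Q - 2 := by
    rw [Nat.cast_sub hQ]; norm_num
  calc (FK K Q : ℝ) = ∑ j ∈ Finset.range (K + 1),
        (K.choose j : ℝ) * (Q - 2 : ℝ) ^ (K - j) * tz j := by
        unfold FK
        push_cast
        rw [hcast]
    _ ≤ ∑ j ∈ Finset.range (K + 1), Q ^ K * (A *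
        (((K.choose j : ℝ) * (2 / Q) ^ j * (1 - 2 / Q) ^ (K - j)) * (j : ℝ) ^ θ)) := by
        refine Finset.sum_le_sum fun j hj => ?_
        have hjK : j ≤ K := Nat.lt_succ_iff.1 (Finset.mem_range.1 hj)
        have ht := h j hjK
        unfold tau at ht
        rw [div_le_iff₀ (by positivity)] at ht
        have hQ2 : (0 : ℝ) ≤ (Q : ℝ) - 2 := by
          rw [← hcast]; positivity
        have e1 : (Q : ℝ) ^ K = Q ^ j * Q ^ (K - j) := by
          rw [← pow_add]; congr 1; omega
        have e2 : (1 - 2 / (Q : ℝ)) = (Q - 2) / Q := by field_simp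
        rw [e1, e2, div_pow, div_pow]
        calc (K.choose j : ℝ) * (Q - 2 : ℝ) ^ (K - j) * tz j
            ≤ (K.choose j : ℝ) * (Q - 2 : ℝ) ^ (K - j) * (A * (j : ℝ) ^ θ * 2 ^ j) := by
              gcongr
          _ = _ := by
              field_simp
    _ = Q ^ K * (A * ∑ j ∈ Finset.range (K + 1),
        (((K.choose j : ℝ) * (2 / Q) ^ j * (1 - 2 / Q) ^ (K - j)) * (j : ℝ) ^ θ)) := by
        rw [Finset.mul_sum, Finset.mul_sum]
    _ ≤ Q ^ K * (A * (K * (2 / Q)) ^ θ) := by gcongr

/-- **Recursion.** A short in-place word for the `m`-bit zeta transform gives exponent `θ`. -/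
theorem tau_le_rpow {m r s : ℕ} (hm : 2 ≤ m) (hIP : IP (tpow (Fin m) L) r s) {θ : ℝ}
    (h0 : 0 < θ) (h1 : θ ≤ 1) (hr : (r : ℝ) * (2 / 2 ^ m) ^ θ < (m : ℝ) ^ θ) :
    ∃ A : ℝ, 0 ≤ A ∧ ∀ K : ℕ, tau K ≤ A * (K : ℝ) ^ θ := by
  have hm0 : (0 : ℝ) < m := by exact_mod_cast (by omega : 0 < m)
  set ρ : ℝ := (r : ℝ) * (2 / 2 ^ m) ^ θ / (m : ℝ) ^ θ with hρ
  have hmθ : 0 < (m : ℝ) ^ θ := Real.rpow_pos_of_pos hm0 θ
  have hρ0 : 0 ≤ ρ := by positivity
  have hρ1 : ρ < 1 := by rw [hρ, div_lt_one hmθ]; exact hr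
  set C : ℝ := 2 * r + s + m * tau 1 with hC
  have hC0 : 0 ≤ C := by have := tau_nonneg 1; positivity
  refine ⟨C / (1 - ρ), div_nonneg hC0 (by linarith), ?_⟩
  set A := C / (1 - ρ) with hA
  have hA0 : 0 ≤ A := div_nonneg hC0 (by linarith)
  have hAC : A * ρ + C = A := by
    have : (1 - ρ) ≠ 0 := by linarith
    rw [hA]; field_simp; ring
  intro K
  induction K using Nat.strong_induction_on with
  | _ N ih =>
    rcases Nat.eq_zero_or_pos N with hN | hN
    · subst hN
      rw [tau_zero]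
      positivity
    have hN1 : (1 : ℝ) ≤ (N : ℝ) ^ θ := by
      have : (1 : ℝ) ≤ N := by exact_mod_cast hN
      exact Real.one_le_rpow this h0.le
    -- division with remainder
    set K := N / m with hK
    set i := N % m with hi
    have hNK : N = m * K + i := (Nat.div_add_mod N m).symm
    have him : i < m := Nat.mod_lt _ (by omega)
    have hi_le : tau i ≤ m * tau 1 := by
      refine (tau_le_mul i).trans ?_
      have := tau_nonneg 1
      have h2 : (i : ℝ) ≤ m := by exact_mod_cast him.le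
      gcongr
    have hKlt : K < N := Nat.div_lt_self hN (by omega)
    -- cost of `m * K`
    have hmain : tau (m * K) ≤ A * ρ * ((m : ℝ) * K) ^ θ + (2 * r + s) := by
      have h3 := hIP.mc_le K
      rw [← mc_tpow_eq] at h3
      have hcard : Fintype.card (Fin m → Fin 2) = 2 ^ m := by simp
      rw [hcard] at h3
      have h4 : (tz (m * K) : ℝ) ≤ r * ((FK K (2 ^ m) : ℝ) + 2 * (2 ^ m) ^ K) +
          s * (2 ^ m) ^ K := by exact_mod_cast h3
      have hF := FK_le (K := K) (Q := 2 ^ m) h0 h1 hA0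
        (by calc 2 = 2 ^ 1 := rfl
              _ ≤ 2 ^ m := Nat.pow_le_pow_right (by norm_num) (by omega))
        (fun j hj => ih j (lt_of_le_of_lt hj hKlt))
      push_cast at hF
      unfold tau
      rw [div_le_iff₀ (by positivity), pow_mul]
      have hK0 : (0 : ℝ) ≤ K := by positivity
      have e1 : ((K : ℝ) * (2 / 2 ^ m)) ^ θ = (K : ℝ) ^ θ * (2 / 2 ^ m) ^ θ :=
        Real.mul_rpow hK0 (by positivity)
      have e2 : ((m : ℝ) * K) ^ θ = (m : ℝ) ^ θ * (K : ℝ) ^ θ :=
        Real.mul_rpow hm0.le hK0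
      have e3 : ρ * (m : ℝ) ^ θ = r * (2 / 2 ^ m) ^ θ := by
        rw [hρ]; field_simp
      calc (tz (m * K) : ℝ) ≤ r * ((FK K (2 ^ m) : ℝ) + 2 * (2 ^ m) ^ K) +
          s * (2 ^ m) ^ K := h4
        _ ≤ r * ((2 ^ m) ^ K * (A * ((K : ℝ) * (2 / 2 ^ m)) ^ θ) + 2 * (2 ^ m) ^ K) +
          s * (2 ^ m) ^ K := by gcongr
        _ = (A * (r * (2 / 2 ^ m) ^ θ) * (K : ℝ) ^ θ + (2 * r + s)) * (2 ^ m) ^ K := by
          rw [e1]; ring
        _ = (A * ρ * ((m : ℝ) * K) ^ θ + (2 * r + s)) * (2 ^ m) ^ K := by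
          rw [← e3, e2]; ring
    calc tau N ≤ tau (m * K) + tau i := by
          conv_lhs => rw [hNK]
          exact tau_add_le _ _
      _ ≤ (A * ρ * ((m : ℝ) * K) ^ θ + (2 * r + s)) + m * tau 1 := add_le_add hmain hi_le
      _ = A * ρ * ((m : ℝ) * K) ^ θ + C := by rw [hC]; ring
      _ ≤ A * ρ * (N : ℝ) ^ θ + C * (N : ℝ) ^ θ := by
          have h5 : ((m : ℝ) * K) ^ θ ≤ (N : ℝ) ^ θ := by
            refine Real.rpow_le_rpow (by positivity) ?_ h0.le
            have : m * K ≤ N := by omega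
            exact_mod_cast this
          have h6 : C ≤ C * (N : ℝ) ^ θ := le_mul_of_one_le_right hC0 hN1
          gcongr
      _ = (A * ρ + C) * (N : ℝ) ^ θ := by ring
      _ = A * (N : ℝ) ^ θ := by rw [hAC]

/-- the zeta transform on `K` bits costs `A * 2^K * K^θ` gates -/
theorem cost_zeta {m r s : ℕ} (hm : 2 ≤ m) (hIP : IP (tpow (Fin m) L) r s) {θ : ℝ}
    (h0 : 0 < θ) (h1 : θ ≤ 1) (hr : (r : ℝ) * (2 / 2 ^ m) ^ θ < (m : ℝ) ^ θ) :
    ∃ A : ℝ, 0 ≤ A ∧ ∀ K : ℕ, ∃ k : ℕ, Cost (tpow (Fin K) L) k ∧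
      (k : ℝ) ≤ A * 2 ^ K * (K : ℝ) ^ θ := by
  obtain ⟨A, hA, h⟩ := tau_le_rpow hm hIP h0 h1 hr
  refine ⟨A, hA, fun K => ⟨tz K, cost_mc L K, ?_⟩⟩
  have := h K
  unfold tau at this
  rw [div_le_iff₀ (by positivity)] at this
  calc (tz K : ℝ) ≤ A * (K : ℝ) ^ θ * 2 ^ K := this
    _ = A * 2 ^ K * (K : ℝ) ^ θ := by ring

end Crest.Agent.R324
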